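import Crest.Agent.R080.EnR

/-!
Row 80: boundary determination, the energy estimate.
-/

set_option autoImplicit false

open MeasureTheory Set Metric Filter Topology
open scoped ContDiff

noncomputable section

namespace Crest.Agent.R080

open Crest.AnalysisR.VecCalc3 (pderiv div3)
open Crest.AnalysisR.PDE.Elasticity

namespace BD1

/-- the gradient field -/
def gr (h : R3 → ℝ) (y : R3) : R3 := WithLp.toLp 2 fun j => pderiv h j y

theorem pderiv_sm {h : R3 → ℝ} (hh : ContDiff ℝ ∞ h) (j : Fin 3) : ContDiff ℝ ∞ (pderiv h j) :=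
  (hh.fderiv_right (m := ∞) (by simp)).clm_apply contDiff_const

theorem pderiv_comm {h : R3 → ℝ} (hh : ContDiff ℝ ∞ h) (i j : Fin 3) :
    pderiv (pderiv h j) i = pderiv (pderiv h i) j := by
  funext x
  have hs := (hh.contDiffAt (x := x)).isSymmSndFDerivAt
    (by simp; exact WithTop.coe_le_coe.2 le_top)
  have key : ∀ v w : R3, fderiv ℝ (fun y => fderiv ℝ h y w) x v = fderiv ℝ (fderiv ℝ h) x v w := by
    intro v w
    rw [fderiv_clm_apply ((hh.fderiv_right (m := ∞) (by simp)).differentiable (by simp) x)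
      (differentiableAt_const _)]
    simp
  change fderiv ℝ (fun y => fderiv ℝ h y (EuclideanSpace.single j 1)) x (EuclideanSpace.single i 1) =
    fderiv ℝ (fun y => fderiv ℝ h y (EuclideanSpace.single i 1)) x (EuclideanSpace.single j 1)
  rw [key, key, hs.eq]

theorem gr_sm {h : R3 → ℝ} (hh : ContDiff ℝ ∞ h) : ContDiff ℝ 1 (gr h) :=
  contDiff_euclidean.2 fun j => (pderiv_sm hh j).of_le (by simp)

theorem symGrad_gr {h : R3 → ℝ} (hh : ContDiff ℝ ∞ h) (i j : Fin 3) (x : R3) :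
    symGrad (gr h) i j x = pderiv (pderiv h j) i x := by
  change (pderiv (pderiv h j) i x + pderiv (pderiv h i) j x) / 2 = _
  rw [pderiv_comm hh j i]
  ring

theorem div3_gr (h : R3 → ℝ) (x : R3) : div3 (gr h) x = lapR h x := rfl

theorem div_hess (D : Dom) {h : R3 → ℝ} (hh : ContDiff ℝ ∞ h) (h0 : ∀ x ∈ D.Ω, lapR h x = 0) :
    ∀ x ∈ D.Ω, ∀ i, ∑ j, pderiv (pderiv (pderiv h j) i) j x = 0 := by
  intro x hx i
  have e1 : ∀ j, pderiv (pderiv (pderiv h j) i) j x = pderiv (pderiv (pderiv h j) j) i x :=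
    fun j => congrFun (pderiv_comm (pderiv_sm hh j) j i) x
  have e2 : fderiv ℝ (lapR h) x = ∑ j, fderiv ℝ (pderiv (pderiv h j) j) x :=
    fderiv_fun_sum (fun j _ => (pderiv_sm (pderiv_sm hh j) j).differentiable (by simp) x)
  have e3 : fderiv ℝ (lapR h) x = 0 := by
    have : lapR h =ᶠ[𝓝 x] fun _ => 0 := Filter.eventually_of_mem (D.isOpen.mem_nhds hx) h0
    rw [this.fderiv_eq]
    simp
  simp only [e1]
  have e4 := congrArg (fun L : R3 →L[ℝ] ℝ => L (EuclideanSpace.single i 1)) (e2.symm.trans e3)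
  simpa [pderiv] using e4

theorem hess2_cont {h : R3 → ℝ} (hh : ContDiff ℝ ∞ h) : Continuous (hess2 h) :=
  continuous_finsetSum _ fun i _ => continuous_finsetSum _ fun j _ =>
    (pderiv_sm (pderiv_sm hh j) i).continuous.pow 2

theorem hess2_nonneg (h : R3 → ℝ) (x : R3) : 0 ≤ hess2 h x :=
  Finset.sum_nonneg fun _ _ => Finset.sum_nonneg fun _ _ => sq_nonneg _

theorem energy_gr (D : Dom) (lam mu : R3 → ℝ) {h : R3 → ℝ} (hh : ContDiff ℝ ∞ h)
    (h0 : ∀ x ∈ D.Ω, lapR h x = 0) :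
    elasticEnergy D.Ω lam mu (gr h) = 2 * ∫ x in D.Ω, mu x * hess2 h x := by
  unfold elasticEnergy
  rw [← integral_const_mul]
  refine setIntegral_congr_fun D.measurableSet fun x hx => ?_
  simp only [energyDensity, div3_gr, h0 x hx, symGrad_gr hh, hess2]
  ring

theorem alg {c : ℝ} (hc : 0 < c) (δ s t : ℝ) :
    -(2 * δ ^ 2 / c * s ^ 2) ≤ 4 * δ * (s * t) + 2 * c * t ^ 2 := by
  have h : 0 ≤ 2 * (c * t + δ * s) ^ 2 / c := by positivity
  have e : 2 * (c * t + δ * s) ^ 2 / c =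
      4 * δ * (s * t) + 2 * c * t ^ 2 + 2 * δ ^ 2 / c * s ^ 2 := by
    field_simp
    ring
  linarith

theorem exists_lip (D : Dom) {mu : R3 → ℝ} (hm : ContDiff ℝ ∞ mu) (x₀ : R3) :
    ∃ L : ℝ, ∀ x ∈ D.Ω, |mu x - mu x₀| ≤ L * ‖x - x₀‖ := by
  obtain ⟨R, hR, hsub⟩ := D.exists_ball
  have hK : IsCompact (closedBall (0 : R3) (R + ‖x₀‖)) := isCompact_closedBall _ _
  obtain ⟨L, hL⟩ := hK.exists_bound_of_continuousOn (f := fderiv ℝ mu)
    (hm.continuous_fderiv (by simp)).continuousOn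
  refine ⟨L, fun x hx => ?_⟩
  have h1 : x ∈ closedBall (0 : R3) (R + ‖x₀‖) :=
    closedBall_subset_closedBall (by linarith [norm_nonneg x₀])
      (ball_subset_closedBall (hsub (subset_closure hx)))
  have h2 : x₀ ∈ closedBall (0 : R3) (R + ‖x₀‖) := by
    rw [mem_closedBall_zero_iff]
    linarith
  exact (convex_closedBall (0 : R3) (R + ‖x₀‖)).norm_image_sub_le_of_norm_fderiv_le
    (fun y _ => hm.differentiable (by simp) y) hL h2 h1

/-- the pointwise estimate -/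
theorem point {lam mu : R3 → ℝ} {h : R3 → ℝ} (hh : ContDiff ℝ ∞ h) (r : R3 → R3) {x x₀ : R3}
    {c L : ℝ} (hc : 0 < c) (hcm : c ≤ mu x) (hp : 0 ≤ 3 * lam x + 2 * mu x)
    (hL : |mu x - mu x₀| ≤ L * ‖x - x₀‖) (h0 : lapR h x = 0) :
    4 * mu x₀ * (∑ i, ∑ j, pderiv (pderiv h j) i x * symGrad r i j x) -
        2 * L ^ 2 / c * (‖x - x₀‖ ^ 2 * hess2 h x) ≤
      2 * enR lam mu (gr h) r x + energyDensity lam mu r x := by
  set e : Fin 3 → Fin 3 → ℝ := fun i j => symGrad r i j x - if i = j then div3 r x / 3 else 0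
    with he
  have hd : 2 * mu x * ∑ i, ∑ j, e i j ^ 2 ≤ energyDensity lam mu r x := density_ge hp r
  have hs : ∑ i, ∑ j, pderiv (pderiv h j) i x * symGrad r i j x =
      ∑ i, ∑ j, pderiv (pderiv h j) i x * e i j := by
    have h0' := h0
    simp only [lapR, Fin.sum_univ_three] at h0'
    simp only [he, Fin.sum_univ_three]
    simp only [Fin.reduceEq, if_true, if_false]
    linear_combination (div3 r x / 3) * h0'
  have hen : enR lam mu (gr h) r x =
      2 * mu x * ∑ i, ∑ j, pderiv (pderiv h j) i x * e i j := by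
    rw [← hs]
    simp only [enR, div3_gr, h0, symGrad_gr hh]
    ring
  have hsq : (mu x - mu x₀) ^ 2 ≤ L ^ 2 * ‖x - x₀‖ ^ 2 := by
    rw [← mul_pow, ← sq_abs (mu x - mu x₀)]
    exact pow_le_pow_left₀ (abs_nonneg _) hL 2
  have ha : -(2 * (mu x - mu x₀) ^ 2 / c * hess2 h x) ≤
      4 * (mu x - mu x₀) * (∑ i, ∑ j, pderiv (pderiv h j) i x * e i j) +
        2 * c * ∑ i, ∑ j, e i j ^ 2 := by
    simp only [hess2, Finset.mul_sum, ← Finset.sum_add_distrib, ← Finset.sum_neg_distrib]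
    exact Finset.sum_le_sum fun i _ => Finset.sum_le_sum fun j _ => alg hc _ _ _
  have hE : 0 ≤ ∑ i, ∑ j, e i j ^ 2 :=
    Finset.sum_nonneg fun _ _ => Finset.sum_nonneg fun _ _ => sq_nonneg _
  have hb : 2 * (mu x - mu x₀) ^ 2 / c * hess2 h x ≤ 2 * L ^ 2 / c * (‖x - x₀‖ ^ 2 * hess2 h x) := by
    have : 2 * L ^ 2 / c * (‖x - x₀‖ ^ 2 * hess2 h x) =
        2 * (L ^ 2 * ‖x - x₀‖ ^ 2) / c * hess2 h x := by ring
    rw [this]
    have := hess2_nonneg h x
    gcongr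
  have hce : 2 * c * ∑ i, ∑ j, e i j ^ 2 ≤ 2 * mu x * ∑ i, ∑ j, e i j ^ 2 := by gcongr
  rw [hs, hen]
  linarith

/-- one medium: competitors do not decrease the energy of `∇h` by much -/
theorem one (D : Dom) {lam mu : R3 → ℝ} (hl : ContDiff ℝ ∞ lam) (hm : ContDiff ℝ ∞ mu)
    (hp : ∀ x ∈ closure D.Ω, 0 < mu x ∧ 0 < 3 * lam x + 2 * mu x) (x₀ : R3) :
    ∃ C : ℝ, ∀ h : R3 → ℝ, ContDiff ℝ ∞ h → (∀ x ∈ D.Ω, lapR h x = 0) →
      ∀ w, IsCompetitor D.Ω (gr h) w →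
        elasticEnergy D.Ω lam mu (gr h) - C * ∫ x in D.Ω, ‖x - x₀‖ ^ 2 * hess2 h x ≤
          elasticEnergy D.Ω lam mu w := by
  obtain ⟨c, hc, hcm⟩ := D.isCompact_closure.exists_forall_le' (f := mu) (a := 0)
    hm.continuous.continuousOn fun x hx => (hp x hx).1
  obtain ⟨L, hL⟩ := exists_lip D hm x₀
  refine ⟨2 * L ^ 2 / c, fun h hh h0 w hw => ?_⟩
  have hv := gr_sm hh
  have hr : ContDiff ℝ 1 (w - gr h) := hw.1.sub hv
  have hr0 : ∀ x ∈ frontier D.Ω, (w - gr h) x = 0 := fun x hx => sub_eq_zero.2 (hw.2 x hx)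
  have hw' : w = gr h + (w - gr h) := by abel
  have hσ : ∀ i j, ContDiff ℝ 1 (pderiv (pderiv h j) i) := fun i j =>
    (pderiv_sm (pderiv_sm hh j) i).of_le (by simp)
  have hz := stress_zero D (σ := fun i j => pderiv (pderiv h j) i) hσ
    (fun i j => pderiv_comm hh i j) (div_hess D hh h0) hr hr0
  have i1 : IntegrableOn (fun x => ∑ i, ∑ j, pderiv (pderiv h j) i x * symGrad (w - gr h) i j x)
      D.Ω := cont_integrableOn D (continuous_finsetSum _ fun i _ =>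
        continuous_finsetSum _ fun j _ => (hσ i j).continuous.mul (symGrad_cont hr i j))
  have i2 : IntegrableOn (fun x => ‖x - x₀‖ ^ 2 * hess2 h x) D.Ω :=
    cont_integrableOn D (((continuous_id.sub continuous_const).norm.pow 2).mul (hess2_cont hh))
  have i3 := enR_integrableOn D hl.continuous hm.continuous hv hr
  have i4 : IntegrableOn (energyDensity lam mu (w - gr h)) D.Ω := by
    have := enR_integrableOn D hl.continuous hm.continuous hr hr
    rwa [show enR lam mu (w - gr h) (w - gr h) = energyDensity lam mu (w - gr h) from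
      funext fun x => enR_self _ _ _ x] at this
  have hI := setIntegral_mono_on ((i1.const_mul (4 * mu x₀)).sub (i2.const_mul (2 * L ^ 2 / c)))
    ((i3.const_mul 2).add i4) D.measurableSet fun x hx =>
      point hh (w - gr h) hc (hcm x (subset_closure hx)) (hp x (subset_closure hx)).2.le (hL x hx)
        (h0 x hx)
  simp only [Pi.sub_apply, Pi.add_apply] at hI
  rw [integral_sub (i1.const_mul _) (i2.const_mul _), integral_add (i3.const_mul _) i4,
    integral_const_mul, integral_const_mul, integral_const_mul, hz] at hI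
  have hadd := energy_add D hl.continuous hm.continuous hv hr
  rw [← hw'] at hadd
  rw [hadd]
  unfold elasticEnergy
  linarith

end BD1

/-- Let `v = ∇h`; on `Ω`, `div v = 0`, `symGrad v = ∇²h`, so `E_j v = 2 ∫ μ_j hess2 h`. For `r`
vanishing on the frontier, `a_j(v, r) = 2 ∫ μ_j ∇²h : e(r) = 2 ∫ (μ_j - μ_j x₀) ∇²h : e°(r)`
(`stress_zero` with `σ = ∇²h`, which is symmetric, divergence free and trace free on `Ω`; `e°` the
trace-free part), `|μ_j x - μ_j x₀| ≤ L ‖x - x₀‖` on `Ω`, `E_j r ≥ 2 c ∫ |e°(r)|²` (`density_ge`,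
`μ_j ≥ c > 0` on the closure). Hence `E_j (v + r) ≥ E_j v - C ∫ ‖x - x₀‖² hess2 h`; `T.same` with
datum and competitor `v` gives `E₂ v - C ∫ … ≤ E₁ v` and symmetrically. -/
theorem Data.bd1 {D : Dom} (T : Data D) (x₀ : R3) : ∃ C : ℝ, ∀ h : R3 → ℝ, ContDiff ℝ ∞ h →
    (∀ x ∈ D.Ω, lapR h x = 0) →
    |∫ x in D.Ω, (T.mu₁ x - T.mu₂ x) * hess2 h x| ≤ C * ∫ x in D.Ω, ‖x - x₀‖ ^ 2 * hess2 h x := by
  obtain ⟨C₁, h₁⟩ := BD1.one D T.lam₁_sm T.mu₁_sm
    (fun x hx => ⟨(T.pos x hx).1, (T.pos x hx).2.1⟩) x₀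
  obtain ⟨C₂, h₂⟩ := BD1.one D T.lam₂_sm T.mu₂_sm (fun x hx => (T.pos x hx).2.2) x₀
  refine ⟨max C₁ C₂ / 2, fun h hh h0 => ?_⟩
  have hv := BD1.gr_sm hh
  have hc : IsCompetitor D.Ω (BD1.gr h) (BD1.gr h) := ⟨hv, fun _ _ => rfl⟩
  have hI : 0 ≤ ∫ x in D.Ω, ‖x - x₀‖ ^ 2 * hess2 h x :=
    integral_nonneg fun x => mul_nonneg (sq_nonneg _) (BD1.hess2_nonneg h x)
  have a₂ : elasticEnergy D.Ω T.lam₂ T.mu₂ (BD1.gr h) -
      C₂ * ∫ x in D.Ω, ‖x - x₀‖ ^ 2 * hess2 h x ≤ elasticEnergy D.Ω T.lam₁ T.mu₁ (BD1.gr h) := by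
    refine le_of_forall_pos_le_add fun ε hε => ?_
    obtain ⟨w, hw, hlt⟩ := (T.same _ hv).1 _ hc ε hε
    exact (h₂ h hh h0 w hw).trans hlt.le
  have a₁ : elasticEnergy D.Ω T.lam₁ T.mu₁ (BD1.gr h) -
      C₁ * ∫ x in D.Ω, ‖x - x₀‖ ^ 2 * hess2 h x ≤ elasticEnergy D.Ω T.lam₂ T.mu₂ (BD1.gr h) := by
    refine le_of_forall_pos_le_add fun ε hε => ?_
    obtain ⟨w, hw, hlt⟩ := (T.same _ hv).2 _ hc ε hε
    exact (h₁ h hh h0 w hw).trans hlt.le
  rw [BD1.energy_gr D _ _ hh h0, BD1.energy_gr D _ _ hh h0] at a₁ a₂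
  have j₁ : IntegrableOn (fun x => T.mu₁ x * hess2 h x) D.Ω :=
    cont_integrableOn D (T.mu₁_sm.continuous.mul (BD1.hess2_cont hh))
  have j₂ : IntegrableOn (fun x => T.mu₂ x * hess2 h x) D.Ω :=
    cont_integrableOn D (T.mu₂_sm.continuous.mul (BD1.hess2_cont hh))
  simp only [sub_mul]
  rw [integral_sub j₁ j₂, abs_le]
  have m₁ := mul_le_mul_of_nonneg_right (le_max_left C₁ C₂) hI
  have m₂ := mul_le_mul_of_nonneg_right (le_max_right C₁ C₂) hI
  constructor <;> linarith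

end Crest.Agent.R080
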