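import Crest.Agent.R080.Defs

/-!
Row 80: boundary determination, the singular harmonic function.
-/

set_option autoImplicit false

open MeasureTheory Set Metric Filter Topology
open scoped ContDiff

noncomputable section

namespace Crest.Agent.R080

open Crest.AnalysisR.VecCalc3 (pderiv)

theorem bd2_hasFDerivAt_rpow (y x : R3) (hx : ‖x - y‖ ^ 2 ≠ 0) (p : ℝ) :
    HasFDerivAt (fun x : R3 => (‖x - y‖ ^ 2) ^ p)
      ((p * (‖x - y‖ ^ 2) ^ (p - 1)) • (2 • (innerSL ℝ (x - y)).comp (ContinuousLinearMap.id ℝ R3))) x :=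
  (((hasFDerivAt_id x).sub_const y).norm_sq).rpow_const (Or.inl hx)

theorem bd2_pderiv_congr {U : Set R3} (hU : IsOpen U) {f g : R3 → ℝ} (h : ∀ x ∈ U, f x = g x)
    (i : Fin 3) : ∀ x ∈ U, pderiv f i x = pderiv g i x := fun x hx => by
  rw [pderiv, pderiv, Filter.EventuallyEq.fderiv_eq (f₁ := f) (f := g)
    (Filter.eventually_of_mem (hU.mem_nhds hx) h)]

theorem bd2_pderiv_rpow (y x : R3) (hx : ‖x - y‖ ^ 2 ≠ 0) (p : ℝ) (i : Fin 3) :
    pderiv (fun x : R3 => (‖x - y‖ ^ 2) ^ p) i x =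
      2 * p * (x i - y i) * (‖x - y‖ ^ 2) ^ (p - 1) := by
  rw [pderiv, (bd2_hasFDerivAt_rpow y x hx p).fderiv]
  simp [EuclideanSpace.inner_single_right]
  ring

theorem bd2_pderiv_mul (y x : R3) (hx : ‖x - y‖ ^ 2 ≠ 0) (c p : ℝ) (i j : Fin 3) :
    pderiv (fun x : R3 => c * (x j - y j) * (‖x - y‖ ^ 2) ^ p) i x =
      c * (if i = j then 1 else 0) * (‖x - y‖ ^ 2) ^ p +
        c * (x j - y j) * (2 * p * (x i - y i) * (‖x - y‖ ^ 2) ^ (p - 1)) := by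
  have h1 : HasFDerivAt (fun x : R3 => c * (x j - y j))
      (c • (EuclideanSpace.proj (𝕜 := ℝ) j : R3 →L[ℝ] ℝ)) x :=
    (((EuclideanSpace.proj (𝕜 := ℝ) j : R3 →L[ℝ] ℝ).hasFDerivAt).sub_const (y j)).const_mul c
  have h2 := h1.fun_mul (bd2_hasFDerivAt_rpow y x hx p)
  rw [pderiv, h2.fderiv]
  by_cases hij : i = j
  · subst hij
    simp [EuclideanSpace.inner_single_right]
    ring
  · simp [EuclideanSpace.inner_single_right, hij, Ne.symm hij]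
    left; ring

/-- `h x = g (‖x - y‖²)` with `g` smooth, `g s = s ^ (-1/2)` for `s > ε² / 2` (multiply by a cutoff
vanishing near `(-∞, ε²/4]`). With `z = x - y`, `r = ‖z‖`: `∂ᵢ h = - zᵢ / r³`,
`∂ᵢ ∂ⱼ h = 3 zᵢ zⱼ / r⁵ - δᵢⱼ / r³`. -/
theorem bd2 (y : R3) {ε : ℝ} (hε : 0 < ε) : ∃ h : R3 → ℝ, ContDiff ℝ ∞ h ∧
    ∀ x, ε < ‖x - y‖ → lapR h x = 0 ∧ hess2 h x = 6 * (‖x - y‖ ^ 6)⁻¹ := by
  have hε2 : 0 < ε ^ 2 := by positivity
  have hn : ContDiff ℝ ∞ fun x : R3 => ‖x - y‖ ^ 2 := (contDiff_id.sub contDiff_const).norm_sq ℝ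
  set h : R3 → ℝ := fun x : R3 =>
    (‖x - y‖ ^ 2 + (1 - Real.smoothTransition (‖x - y‖ ^ 2 / ε ^ 2))) ^ (-1 / 2 : ℝ) with hh
  refine ⟨h, ?_, ?_⟩
  · refine ContDiff.rpow_const_of_ne
      (hn.add (contDiff_const.sub (Real.smoothTransition.contDiff.comp (hn.div_const _)))) fun x => ?_
    have h1 := Real.smoothTransition.le_one (‖x - y‖ ^ 2 / ε ^ 2)
    rcases (sq_nonneg ‖x - y‖).eq_or_lt with h0 | h0
    · rw [← h0]; simp
    · exact ne_of_gt (by linarith)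
  · have hU : IsOpen {x : R3 | ε < ‖x - y‖} := isOpen_lt continuous_const (by fun_prop)
    have hne : ∀ x ∈ {x : R3 | ε < ‖x - y‖}, ‖x - y‖ ^ 2 ≠ 0 := fun x hx =>
      pow_ne_zero _ (hε.trans hx).ne'
    have e0 : ∀ x ∈ {x : R3 | ε < ‖x - y‖}, h x = (‖x - y‖ ^ 2) ^ (-1 / 2 : ℝ) := by
      intro x hx
      have hx' : ε < ‖x - y‖ := hx
      have : 1 ≤ ‖x - y‖ ^ 2 / ε ^ 2 := by
        rw [one_le_div hε2]; gcongr
      simp only [hh]
      rw [Real.smoothTransition.one_of_one_le this, sub_self, add_zero]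
    have e1 : ∀ j, ∀ x ∈ {x : R3 | ε < ‖x - y‖}, pderiv h j x =
        2 * (-1 / 2) * (x j - y j) * (‖x - y‖ ^ 2) ^ (-1 / 2 - 1 : ℝ) := fun j x hx => by
      rw [bd2_pderiv_congr hU e0 j x hx, bd2_pderiv_rpow y x (hne x hx)]
    intro x hx
    have hs := hne x hx
    have e2 : ∀ i j, pderiv (pderiv h j) i x =
        (‖x - y‖ ^ 2) ^ (-1 / 2 : ℝ) / (‖x - y‖ ^ 2) *
          (3 * (x i - y i) * (x j - y j) / (‖x - y‖ ^ 2) - if i = j then 1 else 0) := by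
      intro i j
      rw [bd2_pderiv_congr hU (e1 j) i x hx, bd2_pderiv_mul y x hs,
        Real.rpow_sub_one hs (-1 / 2 - 1), Real.rpow_sub_one hs (-1 / 2)]
      ring
    have hsum : ‖x - y‖ ^ 2 = (x 0 - y 0) ^ 2 + (x 1 - y 1) ^ 2 + (x 2 - y 2) ^ 2 := by
      rw [EuclideanSpace.real_norm_sq_eq, Fin.sum_univ_three]; rfl
    have ht : ((‖x - y‖ ^ 2) ^ (-1 / 2 : ℝ)) ^ 2 = (‖x - y‖ ^ 2)⁻¹ := by
      rw [← Real.rpow_natCast, ← Real.rpow_mul (sq_nonneg _), ← Real.rpow_neg_one]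
      norm_num
    have h6 : ‖x - y‖ ^ 6 = (‖x - y‖ ^ 2) ^ 3 := by ring
    rw [h6]
    simp only [lapR, hess2, e2, Fin.sum_univ_three, mul_pow, div_pow, ht]
    generalize (‖x - y‖ ^ 2) ^ (-1 / 2 : ℝ) = t
    generalize ‖x - y‖ ^ 2 = s at hs hsum
    generalize x 0 - y 0 = a at hsum
    generalize x 1 - y 1 = b at hsum
    generalize x 2 - y 2 = c at hsum
    constructor
    · simp only [if_true]
      field_simp
      rw [hsum]; ring
    · simp only [if_true, Fin.reduceEq, if_false, sub_zero]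
      field_simp
      rw [hsum]; ring

end Crest.Agent.R080
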