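import Crest.Agent.R080.Geo

/-!
Row 80: boundary determination, the moment estimates.
-/

set_option autoImplicit false

open MeasureTheory Set Metric Filter Topology
open scoped ContDiff

noncomputable section

namespace Crest.Agent.R080

theorem bd3_lip {F : Type*} [NormedAddCommGroup F] [NormedSpace ℝ F] {g : R3 → F}
    (hg : ContDiff ℝ 1 g) (x₀ : R3) (R : ℝ) :
    ∃ L : ℝ, 0 ≤ L ∧ ∀ x, ‖x - x₀‖ ≤ R → ‖g x - g x₀‖ ≤ L * ‖x - x₀‖ := by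
  obtain ⟨L, hL⟩ := (isCompact_closedBall x₀ R).exists_bound_of_continuousOn
    (hg.continuous_fderiv one_ne_zero).continuousOn
  refine ⟨max L 0, le_max_right _ _, fun x hx => ?_⟩
  exact (convex_closedBall x₀ R).norm_image_sub_le_of_norm_fderiv_le
    (fun y _ => hg.differentiable one_ne_zero y) (fun y hy => (hL y hy).trans (le_max_left _ _))
    (mem_closedBall_self ((norm_nonneg _).trans hx)) (mem_closedBall_iff_norm.2 hx)

theorem bd3_taylor {g : R3 → ℝ} (hg : ContDiff ℝ ∞ g) (x₀ : R3) (R : ℝ) :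
    ∃ L : ℝ, 0 ≤ L ∧ ∀ x, ‖x - x₀‖ ≤ R →
      |g x - g x₀ - fderiv ℝ g x₀ (x - x₀)| ≤ L * ‖x - x₀‖ ^ 2 := by
  obtain ⟨L, hL0, hL⟩ :=
    bd3_lip ((hg.fderiv_right (m := ∞) (by simp)).of_le (by exact_mod_cast le_top)) x₀ R
  refine ⟨L, hL0, fun x hx => ?_⟩
  have := (convex_closedBall x₀ ‖x - x₀‖).norm_image_sub_le_of_norm_fderiv_le' (𝕜 := ℝ) (f := g)
    (φ := fderiv ℝ g x₀) (C := L * ‖x - x₀‖) (fun y _ => hg.differentiable (by simp) y)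
    (fun y hy => by
      have hy' := mem_closedBall_iff_norm.1 hy
      exact (hL y (hy'.trans hx)).trans (mul_le_mul_of_nonneg_left hy' hL0))
    (mem_closedBall_self (norm_nonneg _)) (mem_closedBall_iff_norm.2 le_rfl)
  rw [Real.norm_eq_abs] at this
  exact this.trans (le_of_eq (by ring))

theorem bd3_radius (D : Dom) (x₀ : R3) : ∃ R : ℝ, 2 ≤ R ∧ ∀ x ∈ D.Ω, ‖x - x₀‖ ≤ R := by
  obtain ⟨R, hR⟩ := D.bdd.subset_closedBall x₀
  exact ⟨max R 2, le_max_right _ _,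
    fun x hx => (mem_closedBall_iff_norm.1 (hR hx)).trans (le_max_left _ _)⟩

theorem bd3_integrableOn (D : Dom) {y : R3} {ε : ℝ} (hε : 0 < ε) (hy : ∀ x ∈ D.Ω, ε ≤ ‖x - y‖)
    {g : R3 → ℝ} (hg : Continuous g) : IntegrableOn (fun x => g x * (‖x - y‖ ^ 6)⁻¹) D.Ω := by
  have hcl : closure D.Ω ⊆ {x | ε ≤ ‖x - y‖} :=
    closure_minimal hy (isClosed_le continuous_const (by fun_prop))
  refine (ContinuousOn.integrableOn_compact D.isCompact_closure ?_).mono_set subset_closure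
  refine hg.continuousOn.mul (ContinuousOn.inv₀ (by fun_prop) fun x hx => ?_)
  exact pow_ne_zero _ (hε.trans_le (hcl hx)).ne'

theorem bd3_scale : ∃ I : ℝ, ∀ (x₀ : R3) (ε : ℝ), 0 < ε →
    Integrable (fun x : R3 => ((‖x - x₀‖ ^ 2 + ε ^ 2) ^ 2)⁻¹) ∧
      ∫ x : R3, ((‖x - x₀‖ ^ 2 + ε ^ 2) ^ 2)⁻¹ = I / ε := by
  have h0 : Integrable (fun x : R3 => ((1 + ‖x‖ ^ 2) ^ 2)⁻¹) := by
    have := integrable_rpow_neg_one_add_norm_sq (E := R3) (μ := volume) (r := 4) (by simp; norm_num)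
    refine this.congr (ae_of_all _ fun x => ?_)
    simp only
    rw [show (-4 / 2 : ℝ) = -(2 : ℕ) by norm_num, Real.rpow_neg (by positivity), Real.rpow_natCast]
  refine ⟨∫ x : R3, ((1 + ‖x‖ ^ 2) ^ 2)⁻¹, fun x₀ ε hε => ?_⟩
  have e : ∀ x : R3, ((‖x‖ ^ 2 + ε ^ 2) ^ 2)⁻¹ = (ε ^ 4)⁻¹ * ((1 + ‖ε⁻¹ • x‖ ^ 2) ^ 2)⁻¹ := by
    intro x
    rw [norm_smul, norm_inv, Real.norm_eq_abs, abs_of_pos hε]
    field_simp
    ring
  constructor
  · have := ((h0.comp_smul (inv_ne_zero hε.ne')).const_mul (ε ^ 4)⁻¹).comp_sub_right x₀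
    simpa only [e] using this
  · rw [integral_sub_right_eq_self (fun x : R3 => ((‖x‖ ^ 2 + ε ^ 2) ^ 2)⁻¹) x₀]
    simp only [e]
    rw [integral_const_mul, Measure.integral_comp_inv_smul_of_nonneg volume
      (fun x : R3 => ((1 + ‖x‖ ^ 2) ^ 2)⁻¹) hε.le, finrank_euclideanSpace_fin, smul_eq_mul]
    field_simp

theorem bd3_lower (D : Dom) {g : R3 → ℝ} (hg : IntegrableOn g D.Ω) (hg0 : ∀ x, 0 ≤ g x) {p : R3}
    {r m : ℝ} (hr : 0 < r) (hB : ball p r ⊆ D.Ω) (hm : ∀ x ∈ ball p r, m ≤ g x) :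
    m * (r ^ 3 * (Real.pi * 4 / 3)) ≤ ∫ x in D.Ω, g x := by
  have h1 := setIntegral_ge_of_const_le_real (μ := volume) measurableSet_ball
    measure_ball_lt_top.ne hm (hg.mono_set hB)
  have h2 : volume.real (ball p r) = r ^ 3 * (Real.pi * 4 / 3) := by
    rw [Measure.real, EuclideanSpace.volume_ball_fin_three, ENNReal.toReal_mul, ENNReal.toReal_pow,
      ENNReal.toReal_ofReal hr.le, ENNReal.toReal_ofReal (by positivity)]
  rw [h2] at h1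
  exact h1.trans (setIntegral_mono_set hg (ae_of_all _ hg0) hB.eventuallyLE)

/-- Let `ν = ∇ρ x₀ / ‖∇ρ x₀‖`, `y = x₀ + ε ν`. For `x ∈ Ω`, `⟪ν, x - x₀⟫ ≤ C ‖x - x₀‖²` (Taylor, `ρ x < 0`,
`Ω` bounded), so `‖x - y‖² ≥ ‖x - x₀‖² / 2 + ε²` for small `ε`. The integrals over `Ω` of
`‖x - x₀‖^k ‖x - y‖⁻⁶` are at most `8 ∫ (‖z‖² + ε²)^(k/2 - 3) dz = C ε^(k-3)`, `k = 1, 2` (scaling,
`integrable_rpow_neg_one_add_norm_sq`). The ball of radius `c ε` about `x₀ - ε ν` lies in `Ω`, there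
`|ρ| ≥ c ε` and `‖x - y‖ ≤ 3 ε`. -/
theorem Dom.moments (D : Dom) {x₀ : R3} (hx : x₀ ∈ frontier D.Ω) :
    ∃ c C ε₀ : ℝ, 0 < c ∧ 0 < ε₀ ∧ ∀ ε : ℝ, 0 < ε → ε < ε₀ → ∃ y : R3,
      (∀ x ∈ D.Ω, ε ≤ ‖x - y‖) ∧
      (∫ x in D.Ω, ‖x - x₀‖ ^ 2 * (‖x - y‖ ^ 6)⁻¹) ≤ C / ε ∧
      (∫ x in D.Ω, ‖x - x₀‖ * (‖x - y‖ ^ 6)⁻¹) ≤ C / ε ^ 2 ∧
      c / ε ^ 3 ≤ (∫ x in D.Ω, (‖x - y‖ ^ 6)⁻¹) ∧
      c / ε ^ 2 ≤ ∫ x in D.Ω, |D.ρ x| * (‖x - y‖ ^ 6)⁻¹ := by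
  have hρ0 : D.ρ x₀ = 0 := by rwa [D.frontier_eq] at hx
  obtain ⟨R, hR2, hR⟩ := bd3_radius D x₀
  obtain ⟨L, hL0, hL⟩ := bd3_taylor D.sm x₀ R
  obtain ⟨I, hI⟩ := bd3_scale
  set n : R3 := (InnerProductSpace.toDual ℝ R3).symm (fderiv ℝ D.ρ x₀) with hn
  have hn0 : n ≠ 0 := fun h => D.reg x₀ hρ0 ((InnerProductSpace.toDual ℝ R3).symm.map_eq_zero_iff.1 h)
  set a : ℝ := ‖n‖ with ha
  have ha0 : 0 < a := norm_pos_iff.2 hn0
  set ν : R3 := a⁻¹ • n with hν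
  have hν1 : ‖ν‖ = 1 := by
    rw [hν, norm_smul, norm_inv, Real.norm_eq_abs, abs_of_pos ha0, inv_mul_cancel₀ ha0.ne']
  have hA : ∀ z, fderiv ℝ D.ρ x₀ z = a * inner ℝ z ν := by
    intro z
    rw [hν, inner_smul_right, ← mul_assoc, mul_inv_cancel₀ ha0.ne', one_mul, real_inner_comm, hn,
      InnerProductSpace.toDual_symm_apply]
  have hT : ∀ x, ‖x - x₀‖ ≤ R → |D.ρ x - a * inner ℝ (x - x₀) ν| ≤ L * ‖x - x₀‖ ^ 2 := by
    intro x hx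
    have := hL x hx
    rwa [hρ0, sub_zero, hA] at this
  set V : ℝ := Real.pi * 4 / 3 with hV
  have hV0 : 0 < V := by positivity
  refine ⟨min (V / 5832) (a / 4 * (V / 5832)), 8 * I, min 1 (a / (9 * (L + 1))), by positivity,
    by positivity, fun ε hε hε₀ => ⟨x₀ + ε • ν, ?_⟩⟩
  have hε1 : ε < 1 := hε₀.trans_le (min_le_left _ _)
  have hεa : 9 * (L * ε) ≤ a := by
    have := hε₀.trans_le (min_le_right _ _)
    rw [lt_div_iff₀ (by positivity)] at this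
    nlinarith
  have hsq : ∀ x ∈ D.Ω, ‖x - x₀‖ ^ 2 / 2 + ε ^ 2 ≤ ‖x - (x₀ + ε • ν)‖ ^ 2 := by
    intro x hxΩ
    have h1 := (abs_le.1 (hT x (hR x hxΩ))).1
    have h2 : D.ρ x < 0 := by rwa [D.eq] at hxΩ
    rw [← sub_sub, norm_sub_sq_real (x - x₀), inner_smul_right, norm_smul, hν1, Real.norm_eq_abs,
      abs_of_pos hε, mul_one]
    have h3 : a * (ε * inner ℝ (x - x₀) ν) ≤ a * (‖x - x₀‖ ^ 2 / 4) := by
      have h4 : a * inner ℝ (x - x₀) ν ≤ L * ‖x - x₀‖ ^ 2 := by linarith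
      have h5 := mul_le_mul_of_nonneg_left h4 hε.le
      have h6 : L * ε * ‖x - x₀‖ ^ 2 ≤ a / 4 * ‖x - x₀‖ ^ 2 :=
        mul_le_mul_of_nonneg_right (by nlinarith [mul_nonneg hL0 hε.le]) (sq_nonneg _)
      nlinarith
    have h7 := le_of_mul_le_mul_left h3 ha0
    linarith
  have hy : ∀ x ∈ D.Ω, ε ≤ ‖x - (x₀ + ε • ν)‖ := fun x hxΩ =>
    (pow_le_pow_iff_left₀ hε.le (norm_nonneg _) two_ne_zero).1
      ((le_add_of_nonneg_left (by positivity)).trans (hsq x hxΩ))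
  have hw : ∀ x ∈ D.Ω, (‖x - x₀‖ ^ 2 + ε ^ 2) * (‖x - (x₀ + ε • ν)‖ ^ 6)⁻¹ ≤
      8 * ((‖x - x₀‖ ^ 2 + ε ^ 2) ^ 2)⁻¹ := by
    intro x hxΩ
    have h0 : 0 < ‖x - (x₀ + ε • ν)‖ := hε.trans_le (hy x hxΩ)
    have h1 : ‖x - x₀‖ ^ 2 + ε ^ 2 ≤ 2 * ‖x - (x₀ + ε • ν)‖ ^ 2 := by
      have := hsq x hxΩ
      nlinarith [sq_nonneg ε]
    have h2 := pow_le_pow_left₀ (by positivity) h1 3
    rw [← div_eq_mul_inv, ← div_eq_mul_inv, div_le_div_iff₀ (by positivity) (by positivity)]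
    calc _ = (‖x - x₀‖ ^ 2 + ε ^ 2) ^ 3 := by ring
      _ ≤ _ := h2
      _ = _ := by ring
  have hup : ∀ (g : R3 → ℝ) (k : ℝ), Continuous g → 0 ≤ k →
      (∀ x, g x ≤ k * (‖x - x₀‖ ^ 2 + ε ^ 2)) →
      ∫ x in D.Ω, g x * (‖x - (x₀ + ε • ν)‖ ^ 6)⁻¹ ≤ k * (8 * I / ε) := by
    intro g k hg hk hgk
    obtain ⟨hI1, hI2⟩ := hI x₀ ε hε
    calc ∫ x in D.Ω, g x * (‖x - (x₀ + ε • ν)‖ ^ 6)⁻¹
        ≤ ∫ x in D.Ω, k * (8 * ((‖x - x₀‖ ^ 2 + ε ^ 2) ^ 2)⁻¹) := by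
          refine setIntegral_mono_on (bd3_integrableOn D hε hy hg)
            ((hI1.const_mul 8).const_mul k).integrableOn D.measurableSet fun x hxΩ => ?_
          refine (mul_le_mul_of_nonneg_right (hgk x) (by positivity)).trans ?_
          rw [mul_assoc]
          exact mul_le_mul_of_nonneg_left (hw x hxΩ) hk
      _ ≤ ∫ x, k * (8 * ((‖x - x₀‖ ^ 2 + ε ^ 2) ^ 2)⁻¹) :=
          setIntegral_le_integral ((hI1.const_mul 8).const_mul k)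
            (ae_of_all _ fun x => by positivity)
      _ = k * (8 * I / ε) := by rw [integral_const_mul, integral_const_mul, hI2, mul_div_assoc]
  have hball : ∀ x ∈ ball (x₀ - ε • ν) (ε / 2), D.ρ x ≤ -(a / 4 * ε) ∧
      ‖x - (x₀ + ε • ν)‖ ≤ 3 * ε := by
    intro x hxB
    have h1 : ‖x - (x₀ - ε • ν)‖ < ε / 2 := mem_ball_iff_norm.1 hxB
    have hεν : ‖ε • ν‖ = ε := by rw [norm_smul, hν1, Real.norm_eq_abs, abs_of_pos hε, mul_one]
    have e1 : x - x₀ = (x - (x₀ - ε • ν)) - ε • ν := by abel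
    have h2 : ‖x - x₀‖ ≤ 3 / 2 * ε := by
      rw [e1]
      refine (norm_sub_le _ _).trans ?_
      rw [hεν]
      linarith
    have h3 : inner ℝ (x - x₀) ν ≤ -(ε / 2) := by
      rw [e1, inner_sub_left, real_inner_smul_left, real_inner_self_eq_norm_sq, hν1]
      have := real_inner_le_norm (x - (x₀ - ε • ν)) ν
      rw [hν1] at this
      linarith
    constructor
    · have h4 := (abs_le.1 (hT x (by linarith))).2
      have h5 : L * ‖x - x₀‖ ^ 2 ≤ L * (3 / 2 * ε) ^ 2 := by gcongr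
      have h6 := mul_le_mul_of_nonneg_left h3 ha0.le
      have h7 := mul_le_mul_of_nonneg_right hεa hε.le
      nlinarith
    · rw [← sub_sub]
      refine (norm_sub_le _ _).trans ?_
      rw [hεν]
      linarith
  have hB : ball (x₀ - ε • ν) (ε / 2) ⊆ D.Ω := fun x hxB => by
    rw [D.eq]
    exact (hball x hxB).1.trans_lt (by simp; positivity)
  have hwl : ∀ x ∈ ball (x₀ - ε • ν) (ε / 2), ((3 * ε) ^ 6)⁻¹ ≤ (‖x - (x₀ + ε • ν)‖ ^ 6)⁻¹ := by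
    intro x hxB
    have h0 : 0 < ‖x - (x₀ + ε • ν)‖ := hε.trans_le (hy x (hB hxB))
    exact inv_anti₀ (by positivity) (pow_le_pow_left₀ h0.le (hball x hxB).2 6)
  refine ⟨hy, ?_, ?_, ?_, ?_⟩
  · simpa using hup (fun x => ‖x - x₀‖ ^ 2) 1 (by fun_prop) zero_le_one
      fun x => by nlinarith [sq_nonneg ε]
  · refine (hup (fun x => ‖x - x₀‖) ε⁻¹ (by fun_prop) (by positivity) fun x => ?_).trans
      (le_of_eq (by field_simp))
    rw [inv_mul_eq_div, le_div_iff₀ hε]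
    nlinarith [sq_nonneg (‖x - x₀‖ - ε), mul_nonneg (norm_nonneg (x - x₀)) hε.le]
  · have h1 := bd3_integrableOn D hε hy (continuous_const (y := (1 : ℝ)))
    simp only [one_mul] at h1
    refine le_trans ?_ (bd3_lower D h1 (fun x => by positivity) (half_pos hε) hB hwl)
    refine (div_le_div_of_nonneg_right (min_le_left _ _) (by positivity)).trans (le_of_eq ?_)
    rw [← hV]
    field_simp
    norm_num
  · have h1 := bd3_integrableOn D hε hy D.sm.continuous.abs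
    refine le_trans ?_ (bd3_lower D h1 (fun x => by positivity) (half_pos hε) hB
      (m := a / 4 * ε * ((3 * ε) ^ 6)⁻¹) fun x hxB => ?_)
    · refine (div_le_div_of_nonneg_right (min_le_right _ _) (by positivity)).trans (le_of_eq ?_)
      rw [← hV]
      field_simp
      norm_num
    · refine mul_le_mul ?_ (hwl x hxB) (by positivity) (abs_nonneg _)
      have := (hball x hxB).1
      exact le_trans (by linarith) (neg_le_abs _)

theorem bd3_cmp (D : Dom) {y : R3} {ε : ℝ} (hε : 0 < ε) (hy : ∀ x ∈ D.Ω, ε ≤ ‖x - y‖)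
    {f q r : R3 → ℝ} (hf : Continuous f) (hq : Continuous q) (hr : Continuous r) {κ : ℝ}
    (hq0 : ∀ x, 0 ≤ q x) (h : ∀ x ∈ D.Ω, |f x - κ * q x| ≤ r x) :
    |κ| * ∫ x in D.Ω, q x * (‖x - y‖ ^ 6)⁻¹ ≤
      |∫ x in D.Ω, f x * (‖x - y‖ ^ 6)⁻¹| + ∫ x in D.Ω, r x * (‖x - y‖ ^ 6)⁻¹ := by
  have h0 : 0 ≤ ∫ x in D.Ω, q x * (‖x - y‖ ^ 6)⁻¹ :=
    integral_nonneg fun x => mul_nonneg (hq0 x) (by positivity)
  have h1 : ‖∫ x in D.Ω, (f x * (‖x - y‖ ^ 6)⁻¹ - κ * (q x * (‖x - y‖ ^ 6)⁻¹))‖ ≤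
      ∫ x in D.Ω, r x * (‖x - y‖ ^ 6)⁻¹ := by
    refine norm_integral_le_of_norm_le (bd3_integrableOn D hε hy hr) ?_
    filter_upwards [ae_restrict_mem D.measurableSet] with x hx
    rw [← mul_assoc, ← sub_mul, norm_mul, Real.norm_eq_abs, Real.norm_of_nonneg (by positivity)]
    exact mul_le_mul_of_nonneg_right (h x hx) (by positivity)
  rw [integral_sub (bd3_integrableOn D hε hy hf) ((bd3_integrableOn D hε hy hq).const_mul κ),
    integral_const_mul, Real.norm_eq_abs, abs_sub_comm] at h1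
  have h2 := abs_sub_abs_le_abs_sub (κ * ∫ x in D.Ω, q x * (‖x - y‖ ^ 6)⁻¹)
    (∫ x in D.Ω, f x * (‖x - y‖ ^ 6)⁻¹)
  rw [abs_mul, abs_of_nonneg h0] at h2
  linarith

theorem bd3_lim {κ c K₁ K₂ ε₀ : ℝ} (hc : 0 < c) (hε₀ : 0 < ε₀)
    (h : ∀ ε, 0 < ε → ε < ε₀ → |κ| * c ≤ K₁ * ε + K₂ * ε ^ 2) : κ = 0 := by
  have h1 : Tendsto (fun ε : ℝ => K₁ * ε + K₂ * ε ^ 2) (𝓝[>] 0) (𝓝 0) := by
    refine Tendsto.mono_left ?_ nhdsWithin_le_nhds
    have : Continuous fun ε : ℝ => K₁ * ε + K₂ * ε ^ 2 := by fun_prop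
    simpa using this.tendsto 0
  have h2 : |κ| * c ≤ 0 := by
    refine ge_of_tendsto h1 ?_
    filter_upwards [Ioo_mem_nhdsGT hε₀] with ε hε using h ε hε.1 hε.2
  exact abs_nonpos_iff.1 (nonpos_of_mul_nonpos_left h2 hc)

/-- First `|f x₀| c / ε³ ≤ C' / ε²` (`|f x - f x₀| ≤ L ‖x - x₀‖` on `Ω`), so `f = 0` on the frontier.
Then `Dom.tan` gives `fderiv f x₀ = κ • fderiv ρ x₀`, so `|f x - κ ρ x| ≤ L ‖x - x₀‖²` on `Ω` and, `ρ`
having a sign on `Ω`, `|κ| c / ε² ≤ C' / ε`. -/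
theorem Dom.bd3 (D : Dom) {f : R3 → ℝ} (hf : ContDiff ℝ ∞ f)
    (h : ∀ x₀ ∈ frontier D.Ω, ∃ C : ℝ, ∀ (y : R3) (ε : ℝ), 0 < ε → (∀ x ∈ D.Ω, ε ≤ ‖x - y‖) →
      |∫ x in D.Ω, f x * (‖x - y‖ ^ 6)⁻¹| ≤ C * ∫ x in D.Ω, ‖x - x₀‖ ^ 2 * (‖x - y‖ ^ 6)⁻¹) :
    ∀ x ∈ frontier D.Ω, f x = 0 ∧ fderiv ℝ f x = 0 := by
  have h' : ∀ x₀ ∈ frontier D.Ω, ∃ C : ℝ, 0 ≤ C ∧ ∀ (y : R3) (ε : ℝ), 0 < ε →
      (∀ x ∈ D.Ω, ε ≤ ‖x - y‖) → |∫ x in D.Ω, f x * (‖x - y‖ ^ 6)⁻¹| ≤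
        C * ∫ x in D.Ω, ‖x - x₀‖ ^ 2 * (‖x - y‖ ^ 6)⁻¹ := by
    intro x₀ hx
    obtain ⟨C, hC⟩ := h x₀ hx
    exact ⟨|C|, abs_nonneg _, fun y ε hε hy => (hC y ε hε hy).trans
      (mul_le_mul_of_nonneg_right (le_abs_self _) (integral_nonneg fun x => by positivity))⟩
  have h0 : ∀ x ∈ frontier D.Ω, f x = 0 := by
    intro x₀ hx
    obtain ⟨C, hC0, hC⟩ := h' x₀ hx
    obtain ⟨c, C', ε₀, hc, hε₀, hm⟩ := D.moments hx
    obtain ⟨R, -, hR⟩ := bd3_radius D x₀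
    obtain ⟨L, hL0, hL⟩ := bd3_lip (hf.of_le (by exact_mod_cast le_top)) x₀ R
    refine bd3_lim (K₁ := L * C') (K₂ := C * C') hc hε₀ fun ε hε hε' => ?_
    obtain ⟨y, hy, m1, m2, m3, -⟩ := hm ε hε hε'
    have h1 := bd3_cmp D hε hy hf.continuous (q := fun _ => 1) continuous_const
      (r := fun x => L * ‖x - x₀‖) (by fun_prop) (κ := f x₀) (fun _ => zero_le_one)
      fun x hx => by simpa using hL x (hR x hx)
    simp only [one_mul, mul_assoc] at h1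
    rw [integral_const_mul] at h1
    have h2 : |f x₀| * (c / ε ^ 3) ≤ C * (C' / ε) + L * (C' / ε ^ 2) :=
      ((mul_le_mul_of_nonneg_left m3 (abs_nonneg _)).trans h1).trans
        (add_le_add ((hC y ε hε hy).trans (mul_le_mul_of_nonneg_left m1 hC0))
          (mul_le_mul_of_nonneg_left m2 hL0))
    have h3 := mul_le_mul_of_nonneg_right h2 (pow_pos hε 3).le
    refine le_trans (le_of_eq ?_) (h3.trans (le_of_eq ?_))
    · field_simp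
    · field_simp
      ring
  refine fun x₀ hx => ⟨h0 x₀ hx, ?_⟩
  obtain ⟨κ, hκ⟩ := D.tan (hf.of_le (by exact_mod_cast le_top)) h0 hx
  have hρ0 : D.ρ x₀ = 0 := by rwa [D.frontier_eq] at hx
  obtain ⟨C, hC0, hC⟩ := h' x₀ hx
  obtain ⟨c, C', ε₀, hc, hε₀, hm⟩ := D.moments hx
  obtain ⟨R, -, hR⟩ := bd3_radius D x₀
  obtain ⟨L, hL0, hL⟩ := bd3_taylor hf x₀ R
  obtain ⟨L', hL0', hL'⟩ := bd3_taylor D.sm x₀ R
  have hκ0 : -κ = 0 := by
    refine bd3_lim (K₁ := (C + (L + |κ| * L')) * C') (K₂ := 0) hc hε₀ fun ε hε hε' => ?_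
    obtain ⟨y, hy, m1, -, -, m4⟩ := hm ε hε hε'
    have h1 := bd3_cmp D hε hy hf.continuous (q := fun x => |D.ρ x|) D.sm.continuous.abs
      (r := fun x => (L + |κ| * L') * ‖x - x₀‖ ^ 2) (by fun_prop) (κ := -κ)
      (fun _ => abs_nonneg _) fun x hx => by
        have e1 := hL x (hR x hx)
        have e2 := hL' x (hR x hx)
        have e3 : D.ρ x < 0 := by rwa [D.eq] at hx
        rw [h0 x₀ ‹_›, sub_zero, hκ, smul_apply, smul_eq_mul] at e1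
        rw [hρ0, sub_zero] at e2
        rw [abs_of_neg e3, show f x - -κ * -D.ρ x = (f x - κ * fderiv ℝ D.ρ x₀ (x - x₀)) -
          κ * (D.ρ x - fderiv ℝ D.ρ x₀ (x - x₀)) by ring, add_mul, mul_assoc]
        refine (abs_sub _ _).trans (add_le_add e1 ?_)
        rw [abs_mul]
        exact mul_le_mul_of_nonneg_left e2 (abs_nonneg _)
    simp only [mul_assoc] at h1
    rw [integral_const_mul] at h1
    have h2 : |-κ| * (c / ε ^ 2) ≤ C * (C' / ε) + (L + |κ| * L') * (C' / ε) :=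
      ((mul_le_mul_of_nonneg_left m4 (abs_nonneg _)).trans h1).trans
        (add_le_add ((hC y ε hε hy).trans (mul_le_mul_of_nonneg_left m1 hC0))
          (mul_le_mul_of_nonneg_left m1 (by positivity)))
    have h3 := mul_le_mul_of_nonneg_right h2 (pow_pos hε 2).le
    refine le_trans (le_of_eq ?_) (h3.trans (le_of_eq ?_))
    · field_simp
    · field_simp
      ring
  rw [hκ, neg_eq_zero.1 hκ0, zero_smul]

end Crest.Agent.R080
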