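import Crest.Agent.R080.Sy

/-!
Row 80: interior estimates with a large parameter.

Let `χ` be a real cutoff, one on `ball 0 R`, `Cs (ball 0 (2 R))`, `G = Q.app Z`,
`N₁ = ∑ a i, ∫ χ² |∂ᵢ Z a|²`. Integrating by parts,
`∫ χ² |∇Z|² = - ∫ χ² conj Z ΔZ - 2 ∫ χ conj Z ∇χ·∇Z` with `ΔZ = G - A ∂Z - V Z`, so by the
arithmetic-geometric mean inequality `N₁ ≤ C (T² N₀ + T⁻² N_G)`. For `W = χ² Z a` (compact support)
`∑ i j, ∫ |∂ᵢ ∂ⱼ W|² = ∫ |ΔW|²` and `ΔW = χ² ΔZ + 4 χ ∇χ·∇Z + Δ(χ²) Z`; on `ball 0 R` the second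
derivatives of `W` and `Z a` agree (`pd_congr`).
-/

set_option autoImplicit false

open MeasureTheory Set Metric Filter Topology
open scoped ContDiff

noncomputable section

namespace Crest.Agent.R080

namespace Int

theorem nsq_cx (U : Set R3) (f : S) : ((nsq U f : ℝ) : ℂ) = ∫ x in U, (f * S.conj f) x := by
  simp only [S.mul_apply, S.conj_apply, Complex.mul_conj, Complex.normSq_eq_norm_sq]
  rw [integral_complex_ofReal]
  rfl

theorem nsq_conj (U : Set R3) (f : S) : nsq U (S.conj f) = nsq U f := by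
  simp only [nsq, S.conj_apply, Complex.norm_conj]

theorem conj_sum {κ : Type*} (s : Finset κ) (f : κ → S) :
    S.conj (∑ i ∈ s, f i) = ∑ i ∈ s, S.conj (f i) := by
  refine S.ext fun x => ?_
  simp only [S.conj_apply, S.sum_apply, map_sum]

theorem ibpU {U : Set R3} (f : S) {g : S} (hg : Cs U g) (i : Fin 3) :
    ∫ x in U, (f * pd i g) x = -∫ x in U, (pd i f * g) x := by
  rw [((hg.pd i).mul_left f).setIntegral, (hg.mul_left _).setIntegral, integral_mul_pd f hg.1]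

theorem hess_eq {U : Set R3} (hU : Bornology.IsBounded U) {W : S} (hW : Cs U W) :
    ∑ i, ∑ j, nsq U (pd i (pd j W)) = nsq U (lap W) := by
  have h : ∀ i j, ((nsq U (pd i (pd j W)) : ℝ) : ℂ) =
      ∫ x in U, (pd i (pd i W) * S.conj (pd j (pd j W))) x := by
    intro i j
    rw [nsq_cx, ← pd_conj, ← pd_conj, ← pd_conj, ← pd_conj, pd_comm i j (S.conj W),
      ibpU _ (hW.conj.pd i) j, ibpU _ (hW.conj.pd j) j, ibpU _ hW.conj j, ibpU _ hW.conj i,
      pd_comm j i (pd j W), pd_comm j i (pd i W), pd_comm j i W, pd_comm j i (pd i (pd j W)),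
      pd_comm j i (pd j W)]
  have h2 : ((∑ i, ∑ j, nsq U (pd i (pd j W)) : ℝ) : ℂ) = ((nsq U (lap W) : ℝ) : ℂ) := by
    rw [nsq_cx, lap, conj_sum, Finset.sum_mul_sum, integral_sum' hU, Complex.ofReal_sum]
    refine Finset.sum_congr rfl fun i _ => ?_
    rw [integral_sum' hU, Complex.ofReal_sum]
    exact Finset.sum_congr rfl fun j _ => h i j
  exact_mod_cast h2

theorem hess_le {U : Set R3} (hU : Bornology.IsBounded U) {W : S} (hW : Cs U W) (i j : Fin 3) :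
    nsq U (pd i (pd j W)) ≤ nsq U (lap W) := by
  rw [← hess_eq hU hW]
  exact (Finset.single_le_sum (f := fun j => nsq U (pd i (pd j W))) (fun _ _ => nsq_nonneg _ _)
    (Finset.mem_univ j)).trans (Finset.single_le_sum
      (f := fun i => ∑ j, nsq U (pd i (pd j W)))
      (fun _ _ => Finset.sum_nonneg fun _ _ => nsq_nonneg _ _) (Finset.mem_univ i))

theorem sqrt_mul_le {x y t : ℝ} (hx : 0 ≤ x) (hy : 0 ≤ y) (ht : 0 < t) :
    √x * √y ≤ t * x + y / (4 * t) := by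
  have h1 := Real.sq_sqrt hx
  have h2 := Real.sq_sqrt hy
  generalize √x = a at h1 ⊢
  generalize √y = b at h2 ⊢
  subst h1 h2
  have : t * a ^ 2 + b ^ 2 / (4 * t) - a * b = (2 * t * a - b) ^ 2 / (4 * t) := by
    field_simp
    ring
  have h3 : 0 ≤ (2 * t * a - b) ^ 2 / (4 * t) := by positivity
  linarith

/-- the Caccioppoli inequality -/
theorem cacc {U : Set R3} (hU : Bornology.IsBounded U) (hm : MeasurableSet U) {χ : S}
    (hχ : Cs U χ) (hr : ∀ x, ∃ t : ℝ, 0 ≤ t ∧ t ≤ 1 ∧ χ x = t) {K : ℝ}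
    (hK : ∀ i, ∀ x ∈ U, ‖pd i χ x‖ ≤ K) (Z : S) {t : ℝ} (ht : 0 < t) :
    ∑ i, nsq U (χ * pd i Z : S) ≤
      2 * t * nsq U (χ * lap Z : S) + (1 / (2 * t) + 24 * K ^ 2) * nsq U Z := by
  have hc : S.conj χ = χ := S.ext fun x => by
    obtain ⟨t, -, -, h⟩ := hr x
    simp [h]
  have h1 : ∀ x ∈ U, ‖χ x‖ ≤ 1 := fun x _ => by
    obtain ⟨t, h0, h1, h⟩ := hr x
    rw [h, Complex.norm_real, Real.norm_of_nonneg h0]
    exact h1
  have hcm : ∀ f : S, S.conj (χ * f) = χ * S.conj f := fun f => S.ext fun x => by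
    have := congrArg (fun g : S => g x) hc
    simp only [S.conj_apply] at this
    simp only [S.conj_apply, S.mul_apply, map_mul, this]
  have key : ∀ i, ((nsq U (χ * pd i Z : S) : ℝ) : ℂ) =
      -(∫ x in U, ((χ * pd i (pd i Z)) * (χ * S.conj Z)) x) -
        2 * ∫ x in U, ((χ * pd i Z) * (pd i χ * S.conj Z)) x := by
    intro i
    have h := ibpU (pd i Z) ((hχ.mul_left χ).mul_right (S.conj Z)) i
    rw [show (pd i Z * pd i (χ * χ * S.conj Z) : S) = χ * pd i Z * (χ * S.conj (pd i Z)) +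
      (2 : ℂ) • ((χ * pd i Z) * (pd i χ * S.conj Z)) by
        rw [pd_mul, pd_mul, pd_conj, two_smul]; ring,
      integral_add' hU, integral_smul',
      show (pd i (pd i Z) * (χ * χ * S.conj Z) : S) = (χ * pd i (pd i Z)) * (χ * S.conj Z) by ring]
      at h
    rw [nsq_cx, hcm]
    linear_combination h
  have key2 : ((∑ i, nsq U (χ * pd i Z : S) : ℝ) : ℂ) =
      -(∫ x in U, ((χ * lap Z) * (χ * S.conj Z)) x) -
        2 * ∑ i, ∫ x in U, ((χ * pd i Z) * (pd i χ * S.conj Z)) x := by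
    rw [Complex.ofReal_sum, lap, Finset.mul_sum, Finset.sum_mul, integral_sum' hU, Finset.mul_sum,
      ← Finset.sum_neg_distrib, ← Finset.sum_sub_distrib]
    exact Finset.sum_congr rfl fun i _ => key i
  have hn : 0 ≤ ∑ i, nsq U (χ * pd i Z : S) := Finset.sum_nonneg fun _ _ => nsq_nonneg _ _
  have hb1 : ‖∫ x in U, ((χ * lap Z) * (χ * S.conj Z)) x‖ ≤
      t * nsq U (χ * lap Z : S) + nsq U Z / (4 * t) := by
    refine (norm_integral_mul_le hU _ _).trans ((sqrt_mul_le (nsq_nonneg _ _) (nsq_nonneg _ _)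
      ht).trans ?_)
    have := nsq_mul_le hU hm h1 (S.conj Z)
    rw [nsq_conj, one_pow, one_mul] at this
    gcongr
  have hb2 : ∀ i, ‖∫ x in U, ((χ * pd i Z) * (pd i χ * S.conj Z)) x‖ ≤
      1 / 4 * nsq U (χ * pd i Z : S) + K ^ 2 * nsq U Z := by
    intro i
    refine (norm_integral_mul_le hU _ _).trans ((sqrt_mul_le (nsq_nonneg _ _) (nsq_nonneg _ _)
      (by norm_num : (0 : ℝ) < 1 / 4)).trans ?_)
    have := nsq_mul_le hU hm (hK i) (S.conj Z)
    rw [nsq_conj] at this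
    linarith
  have hb3 : ‖∑ i, ∫ x in U, ((χ * pd i Z) * (pd i χ * S.conj Z)) x‖ ≤
      1 / 4 * ∑ i, nsq U (χ * pd i Z : S) + 3 * (K ^ 2 * nsq U Z) := by
    refine (norm_sum_le _ _).trans ((Finset.sum_le_sum fun i _ => hb2 i).trans (le_of_eq ?_))
    rw [Finset.sum_add_distrib, Finset.mul_sum]
    simp
  have hfin := congrArg norm key2
  rw [Complex.norm_real, Real.norm_of_nonneg hn] at hfin
  have h4 := norm_sub_le (-(∫ x in U, ((χ * lap Z) * (χ * S.conj Z)) x))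
    (2 * ∑ i, ∫ x in U, ((χ * pd i Z) * (pd i χ * S.conj Z)) x)
  rw [norm_neg, norm_mul, Complex.norm_two, ← hfin] at h4
  have h5 : 0 ≤ K ^ 2 * nsq U Z := mul_nonneg (sq_nonneg _) (nsq_nonneg _ _)
  have h6 : 1 / (2 * t) * nsq U Z = 2 * (nsq U Z / (4 * t)) := by
    field_simp
    ring
  nlinarith

/-- the cut off Laplacian in terms of the system -/
theorem lap_le {ι : Type} [Fintype ι] {U : Set R3} (hU : Bornology.IsBounded U)
    (hm : MeasurableSet U) {χ : S} (h1 : ∀ x ∈ U, ‖χ x‖ ≤ 1) {M T : ℝ} (Q : Sys ι)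
    (hA : ∀ x ∈ U, ∀ i a b, ‖Q.A i a b x‖ ≤ M * T) (hV : ∀ x ∈ U, ∀ a b, ‖Q.V a b x‖ ≤ M * T ^ 2)
    (Z : ι → S) (a : ι) :
    nsq U (χ * lap (Z a) : S) ≤ 4 * ∑ b, nsq U (Q.app Z b) +
      12 * Fintype.card ι * M ^ 2 * T ^ 2 * ∑ b, ∑ i, nsq U (χ * pd i (Z b) : S) +
      2 * Fintype.card ι * M ^ 2 * T ^ 4 * ∑ b, nsq U (Z b) := by
  have e : (χ * lap (Z a) : S) = (χ * Q.app Z a + -∑ i, ∑ b, Q.A i a b * (χ * pd i (Z b))) +
      -∑ b, Q.V a b * (χ * Z b) := by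
    simp only [Sys.app, mul_add, Finset.mul_sum, mul_left_comm χ]
    ring
  have b0 : nsq U (χ * Q.app Z a : S) ≤ ∑ b, nsq U (Q.app Z b) := by
    have := nsq_mul_le hU hm h1 (Q.app Z a)
    rw [one_pow, one_mul] at this
    exact this.trans (Finset.single_le_sum (f := fun b => nsq U (Q.app Z b))
      (fun _ _ => nsq_nonneg _ _) (Finset.mem_univ a))
  have b1 : nsq U (∑ i, ∑ b, Q.A i a b * (χ * pd i (Z b)) : S) ≤
      3 * Fintype.card ι * M ^ 2 * T ^ 2 * ∑ b, ∑ i, nsq U (χ * pd i (Z b) : S) := by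
    refine (nsq_sum_le hU _ _).trans ?_
    have : ∀ i, nsq U (∑ b, Q.A i a b * (χ * pd i (Z b)) : S) ≤
        Fintype.card ι * ∑ b, (M * T) ^ 2 * nsq U (χ * pd i (Z b) : S) := fun i =>
      (nsq_sum_le hU _ _).trans (mul_le_mul_of_nonneg_left (Finset.sum_le_sum fun b _ =>
        nsq_mul_le hU hm (fun x hx => hA x hx i a b) _) (Nat.cast_nonneg _))
    refine (mul_le_mul_of_nonneg_left (Finset.sum_le_sum fun i _ => this i)
      (Nat.cast_nonneg _)).trans (le_of_eq ?_)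
    rw [Finset.sum_comm (s := Finset.univ (α := ι))]
    simp only [← Finset.mul_sum, Finset.card_univ, Fintype.card_fin]
    push_cast
    ring
  have b2 : nsq U (∑ b, Q.V a b * (χ * Z b) : S) ≤
      Fintype.card ι * M ^ 2 * T ^ 4 * ∑ b, nsq U (Z b) := by
    refine (nsq_sum_le hU _ _).trans ?_
    have : ∀ b, nsq U (Q.V a b * (χ * Z b) : S) ≤ (M * T ^ 2) ^ 2 * nsq U (Z b) := fun b => by
      refine (nsq_mul_le hU hm (fun x hx => hV x hx a b) _).trans ?_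
      have := nsq_mul_le hU hm h1 (Z b)
      rw [one_pow, one_mul] at this
      gcongr
    refine (mul_le_mul_of_nonneg_left (Finset.sum_le_sum fun b _ => this b)
      (Nat.cast_nonneg _)).trans (le_of_eq ?_)
    simp only [← Finset.mul_sum, Finset.card_univ]
    ring
  rw [e]
  have c1 := nsq_add_le hU (χ * Q.app Z a + -∑ i, ∑ b, Q.A i a b * (χ * pd i (Z b)))
    (-∑ b, Q.V a b * (χ * Z b))
  have c2 := nsq_add_le hU (χ * Q.app Z a) (-∑ i, ∑ b, Q.A i a b * (χ * pd i (Z b)))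
  rw [nsq_neg] at c1 c2
  linarith

theorem lap_cut (χ Z : S) : lap (χ * χ * Z) =
    χ * (χ * lap Z) + ∑ i, (4 * pd i χ) * (χ * pd i Z) + lap (χ * χ) * Z := by
  simp only [lap, Fin.sum_univ_three, pd_mul, map_add]
  ring

end Int

theorem inter (ι : Type) [Fintype ι] {R : ℝ} (hR : 0 < R) (M : ℝ) : ∃ C : ℝ, 0 < C ∧
    ∀ T : ℝ, 1 ≤ T → ∀ Q : Sys ι,
      (∀ x ∈ ball (0 : R3) (2 * R), ∀ i a b, ‖Q.A i a b x‖ ≤ M * T) →
      (∀ x ∈ ball (0 : R3) (2 * R), ∀ a b, ‖Q.V a b x‖ ≤ M * T ^ 2) → ∀ Z : ι → S,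
      (∀ a i, nsq (ball 0 R) (pd i (Z a)) ≤ C * (T ^ 2 * ∑ b, nsq (ball 0 (2 * R)) (Z b) +
        (T ^ 2)⁻¹ * ∑ b, nsq (ball 0 (2 * R)) (Q.app Z b))) ∧
      ∀ a i j, nsq (ball 0 R) (pd i (pd j (Z a))) ≤ C * (T ^ 4 * ∑ b, nsq (ball 0 (2 * R)) (Z b) +
        ∑ b, nsq (ball 0 (2 * R)) (Q.app Z b)) := by
  set U : Set R3 := ball 0 (2 * R) with hUdef
  have hU : Bornology.IsBounded U := isBounded_ball
  have hm : MeasurableSet U := measurableSet_ball
  have hsub : ball (0 : R3) R ⊆ U := ball_subset_ball (by linarith)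
  obtain ⟨χ, hχ, hχ1, hr⟩ := exists_cutoff hR (show R < 2 * R by linarith)
  have h1 : ∀ x ∈ U, ‖χ x‖ ≤ 1 := fun x _ => by
    obtain ⟨t, h0, h1, h⟩ := hr x
    rw [h, Complex.norm_real, Real.norm_of_nonneg h0]
    exact h1
  obtain ⟨K, hK0, hK⟩ : ∃ K : ℝ, 0 ≤ K ∧ ∀ i, ∀ x ∈ U, ‖pd i χ x‖ ≤ K := by
    choose k hk0 hk using fun i => S.bdd_on hU (pd i χ)
    exact ⟨∑ i, k i, Finset.sum_nonneg fun i _ => hk0 i, fun i x hx => (hk i x hx).trans
      (Finset.single_le_sum (fun i _ => hk0 i) (Finset.mem_univ i))⟩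
  obtain ⟨L, hL0, hL⟩ := S.bdd_on hU (lap (χ * χ))
  set n : ℝ := (Fintype.card ι : ℝ) with hn
  have hn0 : 0 ≤ n := Nat.cast_nonneg _
  -- constants
  set c : ℝ := 4 + 12 * n * M ^ 2 with hc
  have hc0 : 0 < c := by positivity
  set ε : ℝ := 1 / (4 * (n + 1) * c) with hε
  have hε0 : 0 < ε := by positivity
  have hεc : 2 * ε * n * c ≤ 1 / 2 := by
    have : 2 * ε * (n + 1) * c = 1 / 2 := by
      rw [hε]
      field_simp
      ring
    nlinarith [mul_pos hε0 hc0]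
  set C₁ : ℝ := 1 + 1 / ε + 48 * K ^ 2 with hC₁
  have hC₁0 : 0 < C₁ := by positivity
  set C₂ : ℝ := 4 * c * (1 + C₁) + 192 * K ^ 2 * C₁ + 2 * L ^ 2 with hC₂
  have hC₂0 : 0 < C₂ := by positivity
  refine ⟨C₁ + C₂, by positivity, fun T hT Q hA hV Z => ?_⟩
  have hT0 : 0 < T := by linarith
  have hT2 : 1 ≤ T ^ 2 := one_le_pow₀ hT
  have hT4 : 1 ≤ T ^ 4 := one_le_pow₀ hT
  set N₀ : ℝ := ∑ b, nsq U (Z b) with hN₀
  set NG : ℝ := ∑ b, nsq U (Q.app Z b) with hNG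
  set N₁ : ℝ := ∑ b, ∑ i, nsq U (χ * pd i (Z b) : S) with hN₁
  have hN₀0 : 0 ≤ N₀ := Finset.sum_nonneg fun _ _ => nsq_nonneg _ _
  have hNG0 : 0 ≤ NG := Finset.sum_nonneg fun _ _ => nsq_nonneg _ _
  have hN₁0 : 0 ≤ N₁ := Finset.sum_nonneg fun _ _ => Finset.sum_nonneg fun _ _ => nsq_nonneg _ _
  have hlap : ∀ a, nsq U (χ * lap (Z a) : S) ≤ c * (NG + T ^ 2 * N₁ + T ^ 4 * N₀) := by
    intro a
    refine (Int.lap_le hU hm h1 Q hA hV Z a).trans ?_
    rw [← hn, ← hN₀, ← hNG, ← hN₁, hc]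
    have e1 : 0 ≤ n * M ^ 2 * NG := by positivity
    have e2 : 0 ≤ T ^ 2 * N₁ := by positivity
    have e3 : 0 ≤ T ^ 4 * N₀ := by positivity
    have e4 : 0 ≤ n * M ^ 2 * (T ^ 4 * N₀) := by positivity
    nlinarith
  have hN1 : T ^ 2 * N₁ ≤ C₁ * (T ^ 4 * N₀ + NG) := by
    have ht : 0 < ε / T ^ 2 := by positivity
    have h2 : N₁ ≤ ∑ b : ι, (2 * (ε / T ^ 2) * (c * (NG + T ^ 2 * N₁ + T ^ 4 * N₀)) +
        (1 / (2 * (ε / T ^ 2)) + 24 * K ^ 2) * nsq U (Z b)) :=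
      Finset.sum_le_sum fun b _ => (Int.cacc hU hm hχ hr hK (Z b) ht).trans (by
        have := hlap b
        gcongr)
    rw [Finset.sum_add_distrib, Finset.sum_const, ← Finset.mul_sum,
      Finset.card_univ, nsmul_eq_mul, ← hn, ← hN₀] at h2
    have h3 := mul_le_mul_of_nonneg_left h2 (sq_nonneg T)
    have h4 : T ^ 2 * (n * (2 * (ε / T ^ 2) * (c * (NG + T ^ 2 * N₁ + T ^ 4 * N₀))) +
        (1 / (2 * (ε / T ^ 2)) + 24 * K ^ 2) * N₀) =
        (2 * ε * n * c) * (NG + T ^ 2 * N₁ + T ^ 4 * N₀) + 1 / ε / 2 * (T ^ 4 * N₀) +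
          24 * K ^ 2 * (T ^ 2 * N₀) := by
      field_simp
      ring
    rw [h4] at h3
    have h5 : (2 * ε * n * c) * (NG + T ^ 2 * N₁ + T ^ 4 * N₀) ≤
        1 / 2 * (NG + T ^ 2 * N₁ + T ^ 4 * N₀) := by gcongr
    have h6 : T ^ 2 * N₀ ≤ T ^ 4 * N₀ := by
      gcongr
      · norm_num
    have h7 : 24 * K ^ 2 * (T ^ 2 * N₀) ≤ 24 * K ^ 2 * (T ^ 4 * N₀) := by gcongr
    have h8 : 0 ≤ 1 / ε * NG := by positivity
    have h9 : 0 ≤ K ^ 2 * NG := by positivity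
    rw [hC₁]
    linarith
  have hX : 0 ≤ T ^ 4 * N₀ + NG := by positivity
  refine ⟨fun a i => ?_, fun a i j => ?_⟩
  · have h2 : nsq (ball 0 R) (pd i (Z a)) ≤ N₁ := by
      rw [nsq_congr (g := (χ * pd i (Z a) : S)) measurableSet_ball fun x hx => by simp [hχ1 x hx]]
      refine (nsq_mono hsub hU _).trans ?_
      exact (Finset.single_le_sum (f := fun i => nsq U (χ * pd i (Z a) : S))
        (fun _ _ => nsq_nonneg _ _) (Finset.mem_univ i)).trans (Finset.single_le_sum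
          (f := fun b => ∑ i, nsq U (χ * pd i (Z b) : S))
          (fun _ _ => Finset.sum_nonneg fun _ _ => nsq_nonneg _ _) (Finset.mem_univ a))
    refine h2.trans (le_of_mul_le_mul_left ?_ (by positivity : 0 < T ^ 2))
    have h3 : T ^ 2 * ((C₁ + C₂) * (T ^ 2 * N₀ + (T ^ 2)⁻¹ * NG)) =
        (C₁ + C₂) * (T ^ 4 * N₀ + NG) := by
      field_simp
    rw [h3]
    linarith [mul_nonneg hC₂0.le hX]
  · have hW : Cs U (χ * χ * Z a) := (hχ.mul_left χ).mul_right _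
    have h2 : nsq (ball 0 R) (pd i (pd j (Z a))) ≤ nsq U (lap (χ * χ * Z a)) := by
      rw [nsq_congr (g := pd i (pd j (χ * χ * Z a))) measurableSet_ball
        (pd_congr isOpen_ball (pd_congr isOpen_ball (fun x hx => by simp [hχ1 x hx]) j) i)]
      exact (nsq_mono hsub hU _).trans (Int.hess_le hU hW i j)
    rw [Int.lap_cut] at h2
    have c1 := nsq_add_le hU (χ * (χ * lap (Z a)) + ∑ i, (4 * pd i χ) * (χ * pd i (Z a)))
      (lap (χ * χ) * Z a)
    have c2 := nsq_add_le hU (χ * (χ * lap (Z a))) (∑ i, (4 * pd i χ) * (χ * pd i (Z a)))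
    have c3 := nsq_mul_le hU hm h1 (χ * lap (Z a))
    rw [one_pow, one_mul] at c3
    have c4 := hlap a
    have c5 : nsq U (lap (χ * χ) * Z a : S) ≤ L ^ 2 * (T ^ 4 * N₀ + NG) := by
      refine (nsq_mul_le hU hm hL _).trans (mul_le_mul_of_nonneg_left ?_ (sq_nonneg _))
      have : nsq U (Z a) ≤ N₀ := Finset.single_le_sum (f := fun b => nsq U (Z b))
        (fun _ _ => nsq_nonneg _ _) (Finset.mem_univ a)
      have := le_mul_of_one_le_left hN₀0 hT4
      linarith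
    have c6 : nsq U (∑ i, (4 * pd i χ) * (χ * pd i (Z a)) : S) ≤ 48 * K ^ 2 * N₁ := by
      refine (nsq_sum_le hU _ _).trans ?_
      have h4 : ∀ i, ∀ x ∈ U, ‖(4 * pd i χ : S) x‖ ≤ 4 * K := fun i x hx => by
        have e : (4 * pd i χ : S) x = 4 * pd i χ x := rfl
        rw [e, norm_mul]
        have := hK i x hx
        simp only [Complex.norm_ofNat]
        linarith
      have h5 : ∑ i, nsq U ((4 * pd i χ) * (χ * pd i (Z a)) : S) ≤
          ∑ i, (4 * K) ^ 2 * nsq U (χ * pd i (Z a) : S) :=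
        Finset.sum_le_sum fun i _ => nsq_mul_le hU hm (h4 i) _
      rw [← Finset.mul_sum] at h5
      have h6 : ∑ i, nsq U (χ * pd i (Z a) : S) ≤ N₁ := Finset.single_le_sum
          (f := fun b => ∑ i, nsq U (χ * pd i (Z b) : S))
          (fun _ _ => Finset.sum_nonneg fun _ _ => nsq_nonneg _ _) (Finset.mem_univ a)
      have h7 := mul_le_mul_of_nonneg_left h6 (sq_nonneg (4 * K))
      rw [Finset.card_univ, Fintype.card_fin, Nat.cast_ofNat]
      linarith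
    have c7 : N₁ ≤ C₁ * (T ^ 4 * N₀ + NG) :=
      le_trans (le_mul_of_one_le_left hN₁0 hT2) hN1
    have c8 : c * (NG + T ^ 2 * N₁ + T ^ 4 * N₀) ≤ c * ((1 + C₁) * (T ^ 4 * N₀ + NG)) := by
      gcongr
      linarith
    have c9 : 48 * K ^ 2 * N₁ ≤ 48 * K ^ 2 * (C₁ * (T ^ 4 * N₀ + NG)) := by gcongr
    have c10 := mul_nonneg hC₁0.le hX
    rw [hC₂]
    linarith

end Crest.Agent.R080
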