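import Crest.Agent.R080.Reg

/-!
Row 80: existence from an a priori estimate for the transpose.
-/

set_option autoImplicit false

open MeasureTheory Set Metric Filter Topology
open scoped ContDiff

noncomputable section

namespace Crest.Agent.R080

theorem riesz_abstract {E H : Type*} [AddCommGroup E] [Module ℂ E] [NormedAddCommGroup H]
    [InnerProductSpace ℂ H] [CompleteSpace H] (T : E →ₗ[ℂ] H) (l : E →ₗ[ℂ] ℂ) {C : ℝ} (hC : 0 ≤ C)
    (h : ∀ x, ‖l x‖ ≤ C * ‖T x‖) : ∃ z : H, ‖z‖ ≤ C ∧ ∀ x, inner ℂ z (T x) = l x := by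
  have hk : LinearMap.ker T ≤ LinearMap.ker l := fun x hx => by
    have h1 := h x
    rw [LinearMap.mem_ker.1 hx, norm_zero, mul_zero] at h1
    exact LinearMap.mem_ker.2 (norm_le_zero_iff.1 h1)
  let f : LinearMap.range T →ₗ[ℂ] ℂ :=
    ((LinearMap.ker T).liftQ l hk).comp T.quotKerEquivRange.symm.toLinearMap
  have hf : ∀ x, f ⟨T x, LinearMap.mem_range_self T x⟩ = l x := fun x => by
    simp [f, LinearMap.quotKerEquivRange_symm_apply_image]
  have hb : ∀ y, ‖f y‖ ≤ C * ‖y‖ := by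
    rintro ⟨_, x, rfl⟩
    exact (congrArg norm (hf x)).trans_le (h x)
  obtain ⟨g, hg, hn⟩ := exists_extension_norm_eq (LinearMap.range T) (f.mkContinuous C hb)
  refine ⟨(InnerProductSpace.toDual ℂ H).symm g, ?_, fun x => ?_⟩
  · rw [LinearIsometryEquiv.norm_map, hn]
    exact LinearMap.mkContinuous_norm_le f hC hb
  · rw [InnerProductSpace.toDual_symm_apply]
    exact (hg ⟨T x, LinearMap.mem_range_self T x⟩).trans (hf x)

theorem S.memLp {U : Set R3} (hb : Bornology.IsBounded U) (f : S) :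
    MemLp (f : R3 → ℂ) 2 (volume.restrict U) :=
  (memLp_two_iff_integrable_sq_norm f.cont.aestronglyMeasurable).2 (S.integrableOn_sq hb f)

/-- smooth functions as elements of `L²(U)` -/
def toL2 {U : Set R3} (hb : Bornology.IsBounded U) : S →ₗ[ℂ] Lp ℂ 2 (volume.restrict U) where
  toFun f := (S.memLp hb f).toLp
  map_add' f g := MemLp.toLp_add (S.memLp hb f) (S.memLp hb g)
  map_smul' c f := MemLp.toLp_const_smul c (S.memLp hb f)

theorem toL2_ae {U : Set R3} (hb : Bornology.IsBounded U) (f : S) :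
    (toL2 hb f : R3 → ℂ) =ᵐ[volume.restrict U] f := MemLp.coeFn_toLp (S.memLp hb f)

theorem norm_sq_L2 {U : Set R3} (z : Lp ℂ 2 (volume.restrict U)) : ‖z‖ ^ 2 = nsq U z := by
  have h : ((‖z‖ ^ 2 : ℝ) : ℂ) = (nsq U z : ℂ) := by
    rw [nsq, ← integral_complex_ofReal]
    push_cast
    refine (inner_self_eq_norm_sq_to_K (𝕜 := ℂ) z).symm.trans ?_
    rw [L2.inner_def]
    refine integral_congr_ae (Eventually.of_forall fun x => ?_)
    exact inner_self_eq_norm_sq_to_K (𝕜 := ℂ) _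
  exact_mod_cast h

theorem norm_sq_toL2 {U : Set R3} (hb : Bornology.IsBounded U) (f : S) :
    ‖toL2 hb f‖ ^ 2 = nsq U f := by
  rw [norm_sq_L2]
  refine integral_congr_ae ?_
  filter_upwards [toL2_ae hb f] with x hx
  rw [hx]

theorem inner_toL2 {U : Set R3} (hb : Bornology.IsBounded U) (z : Lp ℂ 2 (volume.restrict U))
    (f : S) : inner ℂ z (toL2 hb f) = ∫ x in U, (starRingEnd ℂ) (z x) * f x := by
  rw [L2.inner_def]
  refine integral_congr_ae ?_
  filter_upwards [toL2_ae hb f] with x hx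
  rw [hx, RCLike.inner_apply, mul_comm]

/-- In `H = PiLp 2 fun _ : ι => Lp ℂ 2 (volume.restrict U)` (or `Lp (EuclideanSpace ℂ ι) 2 _`) let `N`
be the range of `φ ↦ Q.tr.app φ` on the space of `φ` with `Cs U (φ a)`. The estimate makes this map
injective and `ℓ (Q.tr.app φ) = ∑ a, ∫ g a * φ a` a functional on `N` of norm at most
`‖g‖ / √c`. Extend (`exists_extension_norm_eq`) and represent (`InnerProductSpace.toDual`); `Z` is the
complex conjugate of the representing vector. -/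
theorem Sys.exists_weak {ι : Type} [Fintype ι] (Q : Sys ι) {U : Set R3} (hU : IsOpen U)
    (hb : Bornology.IsBounded U) {c : ℝ} (hc : 0 < c)
    (h : ∀ φ : ι → S, (∀ a, Cs U (φ a)) →
      c * ∑ a, nsq univ (φ a) ≤ ∑ a, nsq univ (Q.tr.app φ a)) (g : ι → S) :
    ∃ Z : ι → R3 → ℂ, (∀ a, MemLp (Z a) 2 (volume.restrict U)) ∧
      c * ∑ a, nsq U (Z a) ≤ ∑ a, nsq U (g a) ∧
      ∀ φ : ι → S, (∀ a, Cs U (φ a)) →
        ∑ a, ∫ x in U, Z a x * Q.tr.app φ a x = ∑ a, ∫ x in U, g a x * φ a x := by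
  classical
  let E : Submodule ℂ (ι → S) :=
    { carrier := {φ | ∀ a, Cs U (φ a)}
      add_mem' := fun hφ hψ a => (hφ a).add (hψ a)
      zero_mem' := fun _ => Cs.zero
      smul_mem' := fun c _ hφ a => (hφ a).smul c }
  let T : E →ₗ[ℂ] PiLp 2 fun _ : ι => Lp ℂ 2 (volume.restrict U) :=
    { toFun := fun φ => WithLp.toLp 2 fun a => toL2 hb (Q.tr.app φ.1 a)
      map_add' := fun φ ψ => by
        ext1 a
        exact (congrArg (toL2 hb) (Q.tr.app_add φ.1 ψ.1 a)).trans (map_add _ _ _)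
      map_smul' := fun c φ => by
        ext1 a
        exact (congrArg (toL2 hb) (Q.tr.app_smul c φ.1 a)).trans (map_smul _ _ _) }
  let l : E →ₗ[ℂ] ℂ :=
    { toFun := fun φ => ∑ a, intL U hb (g a * φ.1 a)
      map_add' := fun φ ψ => by
        simp only [Submodule.coe_add, Pi.add_apply, mul_add, map_add, Finset.sum_add_distrib]
      map_smul' := fun c φ => by
        simp only [Submodule.coe_smul, Pi.smul_apply, mul_smul_comm, map_smul, Finset.smul_sum,
          RingHom.id_apply] }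
  have hG : 0 ≤ ∑ a, nsq U (g a) := Finset.sum_nonneg fun a _ => nsq_nonneg _ _
  have hT : ∀ φ : E, ‖T φ‖ ^ 2 = ∑ a, nsq U (Q.tr.app φ.1 a) := fun φ => by
    rw [PiLp.norm_sq_eq_of_L2]
    exact Finset.sum_congr rfl fun a _ => norm_sq_toL2 hb _
  have hl : ∀ φ : E, ‖l φ‖ ≤ √((∑ a, nsq U (g a)) / c) * ‖T φ‖ := fun φ => by
    have h1 : ‖l φ‖ ≤ ∑ a, √(nsq U (g a)) * √(nsq U (φ.1 a)) :=
      (norm_sum_le _ _).trans (Finset.sum_le_sum fun a _ => norm_integral_mul_le hb _ _)
    have h2 := Finset.sum_mul_sq_le_sq_mul_sq Finset.univ (fun a => √(nsq U (g a)))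
      (fun a => √(nsq U (φ.1 a)))
    simp only [Real.sq_sqrt (nsq_nonneg _ _)] at h2
    have h3 := h φ.1 φ.2
    rw [Finset.sum_congr rfl fun a _ => nsq_univ_of_cs (φ.2 a),
      Finset.sum_congr rfl fun a _ => nsq_univ_of_cs (Q.tr.app_cs φ.2 a), ← hT] at h3
    refine h1.trans (le_of_sq_le_sq ?_ (by positivity))
    rw [mul_pow, Real.sq_sqrt (div_nonneg hG hc.le), div_mul_eq_mul_div, le_div_iff₀ hc]
    nlinarith [mul_le_mul_of_nonneg_left h3 hG, mul_le_mul_of_nonneg_right h2 hc.le]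
  obtain ⟨z, hz, hz'⟩ := riesz_abstract (E := E)
    (H := PiLp 2 fun _ : ι => Lp ℂ 2 (volume.restrict U)) T l (Real.sqrt_nonneg _) hl
  refine ⟨fun a x => (starRingEnd ℂ) (z a x), fun a => ?_, ?_, fun φ hφ => ?_⟩
  · exact (Lp.memLp (z a)).star
  · have h1 : ∑ a, nsq U (fun x => (starRingEnd ℂ) (z a x)) = ‖z‖ ^ 2 := by
      rw [PiLp.norm_sq_eq_of_L2]
      refine Finset.sum_congr rfl fun a _ => ?_
      rw [norm_sq_L2]
      simp only [nsq, RCLike.norm_conj]
    have h2 := pow_le_pow_left₀ (norm_nonneg _) hz 2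
    rw [Real.sq_sqrt (div_nonneg hG hc.le), le_div_iff₀ hc] at h2
    rw [h1]
    linarith
  · have h1 := hz' ⟨φ, hφ⟩
    rw [PiLp.inner_apply] at h1
    refine Eq.trans (Finset.sum_congr rfl fun a _ => ?_) h1
    exact (inner_toL2 hb _ _).symm

/-- `exists_weak` on `ball 0 R`, `Sys.reg` with a cutoff equal to one on `ball 0 r`,
`Sys.integral_tr` and `eq_zero_of_integral_cs` (test with `Pi.single a ψ`). -/
theorem Sys.exists_of_est {ι : Type} [Fintype ι] (Q : Sys ι) {r R : ℝ} (hr : 0 < r) (hrR : r < R)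
    {c : ℝ} (hc : 0 < c)
    (h : ∀ φ : ι → S, (∀ a, Cs (ball 0 R) (φ a)) →
      c * ∑ a, nsq univ (φ a) ≤ ∑ a, nsq univ (Q.tr.app φ a)) (g : ι → S) :
    ∃ Z : ι → S, (∀ x ∈ ball (0 : R3) r, ∀ a, Q.app Z a x = g a x) ∧
      c * ∑ a, nsq (ball 0 r) (Z a) ≤ ∑ a, nsq (ball 0 R) (g a) := by
  classical
  obtain ⟨Z, hZ, hZn, hZe⟩ := Q.exists_weak isOpen_ball isBounded_ball hc h g
  obtain ⟨χ, hχ, hχ1, -⟩ := exists_cutoff hr hrR
  have : IsFiniteMeasure (volume.restrict (ball (0 : R3) R)) :=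
    isFiniteMeasure_restrict.2 measure_ball_lt_top.ne
  choose W hW using fun a => Q.reg isOpen_ball Z (fun a => (hZ a).integrable one_le_two) g hZe hχ a
  have hsub : ball (0 : R3) r ⊆ ball 0 R := ball_subset_ball hrR.le
  have hWZ : ∀ a, ∀ᵐ x ∂volume.restrict (ball (0 : R3) r), W a x = Z a x := fun a => by
    filter_upwards [ae_restrict_of_ae (hW a), ae_restrict_mem measurableSet_ball] with x h1 h2
    rw [h1, hχ1 x h2, one_mul]
  refine ⟨W, fun x hx a => ?_, ?_⟩
  · have key := eq_zero_of_integral_cs (U := ball (0 : R3) r) isOpen_ball (Q.app W a - g a)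
      (fun ψ hψ => ?_) x hx
    · exact sub_eq_zero.1 key
    set φ : ι → S := Pi.single a ψ with hφ
    have hφc : ∀ b, Cs (ball (0 : R3) r) (φ b) := fun b => by
      by_cases hb : b = a
      · subst hb; simpa [hφ] using hψ
      · simpa [hφ, hb] using Cs.zero
    have e1 := Q.integral_tr W φ fun b => (hφc b).1
    have e2 := hZe φ fun b => (hφc b).mono hsub
    have e3 : ∀ b, ∫ x in ball (0 : R3) R, Z b x * Q.tr.app φ b x =
        ∫ x, (W b * Q.tr.app φ b) x := fun b => by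
      have hc' := Q.tr.app_cs hφc b
      rw [← (hc'.mul_left (W b)).setIntegral,
        setIntegral_eq_of_subset_of_forall_sdiff_eq_zero measurableSet_ball hsub
          fun x hx => by rw [hc'.eq_zero hx.2, mul_zero]]
      refine integral_congr_ae ?_
      filter_upwards [hWZ b] with x hx
      rw [S.mul_apply, hx]
    have e4 : ∀ (F : ι → S), ∑ b, ∫ x, (F b * φ b) x = ∫ x, (F a * ψ) x := fun F => by
      rw [Finset.sum_eq_single a]
      · simp [hφ]
      · intro b _ hb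
        simp [hφ, hb]
      · simp
    have e5 : ∀ b, ∫ x in ball (0 : R3) R, g b x * φ b x = ∫ x, (g b * φ b) x := fun b =>
      (((hφc b).mono hsub).mul_left (g b)).setIntegral
    simp only [e3, e5] at e2
    rw [e1, e4, e4] at e2
    rw [sub_mul]
    simp only [S.sub_apply]
    rw [integral_sub (S.integrable (hψ.mul_left _).1) (S.integrable (hψ.mul_left _).1), e2, sub_self]
  · refine le_trans (mul_le_mul_of_nonneg_left (Finset.sum_le_sum fun a _ => ?_) hc.le) hZn
    have h1 : nsq (ball 0 r) (W a) = nsq (ball 0 r) (Z a) := by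
      refine integral_congr_ae ?_
      filter_upwards [hWZ a] with x hx
      rw [hx]
    rw [h1]
    exact setIntegral_mono_set ((memLp_two_iff_integrable_sq_norm (hZ a).1).1 (hZ a))
      (ae_of_all _ fun x => by positivity) hsub.eventuallyLE

end Crest.Agent.R080
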