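import Crest.Agent.R080.CarlSys
import Crest.Agent.R080.Riesz
import Crest.Agent.R080.Inter

/-!
Row 80: small remainders.
-/

set_option autoImplicit false

open MeasureTheory Set Metric Filter Topology
open scoped ContDiff

noncomputable section

namespace Crest.Agent.R080

/-- `U ⊆ ball 0 R`. `Sys.carleman` for `P.tr`, `-θ`, `3 R` and `Sys.conj_tr` give the estimate of
`Sys.exists_of_est` for `Q = P.conj τ θ` with `c = τ² / C`, `r = 2 R`, right side `τ⁻¹ • G`; so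
`nsq (Rm τ a) ≤ C τ⁻⁴`; `inter` with `T = τ` and `Sys.conj_bound` gives `C τ⁻²` for the first and
`C` for the second derivatives. -/
theorem Sys.small {ι : Type} [Fintype ι] [DecidableEq ι] (P : Sys ι) {θ : C3}
    (hθ : ∃ i, (θ i).re ≠ 0) {U : Set R3} (hU : Bornology.IsBounded U) (G : ι → S) :
    ∃ Rm : ℝ → ι → S,
      (∀ᶠ τ in atTop, ∀ x ∈ U, ∀ a,
        P.app (fun b => ex τ θ * Rm τ b) a x = ((τ : ℂ)⁻¹ • (ex τ θ * G a)) x) ∧
      (∀ a, Conv U (fun τ => (τ : ℂ) • Rm τ a) 0) ∧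
      (∀ a i, Conv U (fun τ => pd i (Rm τ a)) 0) ∧
      ∀ a i j, Conv U (fun τ => (τ : ℂ)⁻¹ • pd i (pd j (Rm τ a))) 0 := by
  obtain ⟨R, hR, hUR⟩ := hU.subset_ball_lt 0 (0 : R3)
  obtain ⟨C, τ₀, hC, hcar⟩ := P.tr.carleman (θ := -θ)
    (by obtain ⟨i, hi⟩ := hθ; exact ⟨i, by simpa using hi⟩) (R := 3 * R) (by positivity)
  obtain ⟨M, -, hM⟩ := P.conj_bound θ (U := ball 0 (2 * R)) isBounded_ball
  obtain ⟨C', hC', hint⟩ := inter ι hR M
  set g : ℝ := ∑ a, nsq (ball 0 (3 * R)) (G a) with hg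
  have hg0 : 0 ≤ g := Finset.sum_nonneg fun a _ => nsq_nonneg _ _
  have hex : ∀ τ : ℝ, ∃ Z : ι → S, max τ₀ 1 ≤ τ →
      (∀ x ∈ ball (0 : R3) (2 * R), ∀ a, (P.conj τ θ).app Z a x = ((τ : ℂ)⁻¹ • G a) x) ∧
      ∑ a, nsq (ball 0 (2 * R)) (Z a) ≤ C * g / τ ^ 4 := by
    intro τ
    by_cases hτ : max τ₀ 1 ≤ τ
    · have h0 : τ₀ ≤ τ := (le_max_left _ _).trans hτ
      have h1 : 0 < τ := one_pos.trans_le ((le_max_right _ _).trans hτ)
      obtain ⟨Z, hZ, hZ'⟩ := (P.conj τ θ).exists_of_est (r := 2 * R) (R := 3 * R) (by positivity)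
        (by linarith) (c := τ ^ 2 / C) (by positivity) (fun φ hφ => by
          rw [Sys.conj_tr, div_mul_eq_mul_div, div_le_iff₀ hC, mul_comm _ C]
          exact hcar τ h0 φ hφ) (fun a => (τ : ℂ)⁻¹ • G a)
      refine ⟨Z, fun _ => ⟨hZ, ?_⟩⟩
      simp only [nsq_smul, norm_inv, Complex.norm_real, Real.norm_of_nonneg h1.le,
        ← Finset.mul_sum, ← hg] at hZ'
      rw [le_div_iff₀ (by positivity)]
      rw [div_mul_eq_mul_div, div_le_iff₀ hC] at hZ'
      have h2 : τ ^ 2 * (τ ^ 2 * ∑ a, nsq (ball 0 (2 * R)) (Z a)) ≤ τ ^ 2 * (τ⁻¹ ^ 2 * g * C) :=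
        mul_le_mul_of_nonneg_left hZ' (by positivity)
      have h3 : τ ^ 2 * (τ⁻¹ ^ 2 * g * C) = C * g := by field_simp
      rw [h3] at h2
      linarith
    · exact ⟨0, fun h => absurd h hτ⟩
  choose Rm hRm using hex
  have hU2 : U ⊆ ball 0 (2 * R) := hUR.trans (ball_subset_ball (by linarith))
  have happ : ∀ τ, max τ₀ 1 ≤ τ →
      ∑ b, nsq (ball 0 (2 * R)) ((P.conj τ θ).app (Rm τ) b) ≤ g / τ ^ 2 := by
    intro τ hτ
    have h1 : 0 < τ := one_pos.trans_le ((le_max_right _ _).trans hτ)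
    rw [hg, Finset.sum_div]
    refine Finset.sum_le_sum fun b _ => ?_
    rw [nsq_congr measurableSet_ball fun x hx => (hRm τ hτ).1 x hx b, nsq_smul, norm_inv,
      Complex.norm_real, Real.norm_of_nonneg h1.le, inv_pow, inv_mul_eq_div]
    exact div_le_div_of_nonneg_right
      (nsq_mono (ball_subset_ball (by linarith)) isBounded_ball _) (by positivity)
  refine ⟨Rm, ?_, fun a => Conv.of_le (C := C * g) ?_,
    fun a i => Conv.of_le (C := C' * (C * g + g)) ?_,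
    fun a i j => Conv.of_le (C := C' * (C * g + g)) ?_⟩
  · filter_upwards [eventually_ge_atTop (max τ₀ 1)] with τ hτ x hx a
    rw [Sys.conj_app, S.mul_apply, (hRm τ hτ).1 x (hU2 hx) a]
    simp only [S.smul_apply, S.mul_apply]
    ring
  · filter_upwards [eventually_ge_atTop (max τ₀ 1)] with τ hτ
    have h1 : 0 < τ := one_pos.trans_le ((le_max_right _ _).trans hτ)
    rw [nsq_smul, Complex.norm_real, Real.norm_of_nonneg h1.le]
    have h2 : nsq U (Rm τ a) ≤ C * g / τ ^ 4 :=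
      (nsq_mono hU2 isBounded_ball _).trans ((Finset.single_le_sum
        (f := fun a => nsq (ball 0 (2 * R)) (Rm τ a)) (fun a _ => nsq_nonneg _ _)
        (Finset.mem_univ a)).trans (hRm τ hτ).2)
    calc τ ^ 2 * nsq U (Rm τ a) ≤ τ ^ 2 * (C * g / τ ^ 4) := by gcongr
      _ = C * g / τ ^ 2 := by field_simp
  · filter_upwards [eventually_ge_atTop (max τ₀ 1)] with τ hτ
    have h0 : 1 ≤ τ := (le_max_right _ _).trans hτ
    have h1 : 0 < τ := one_pos.trans_le h0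
    have h2 := (hint τ h0 _ (hM τ h0).1 (hM τ h0).2 (Rm τ)).1 a i
    have h3 : (τ ^ 2)⁻¹ ≤ 1 := inv_le_one_of_one_le₀ (one_le_pow₀ h0)
    calc nsq U (pd i (Rm τ a)) ≤ nsq (ball 0 R) (pd i (Rm τ a)) := nsq_mono hUR isBounded_ball _
      _ ≤ _ := h2
      _ ≤ C' * (τ ^ 2 * (C * g / τ ^ 4) + 1 * (g / τ ^ 2)) := by
        gcongr
        · exact (hRm τ hτ).2
        · exact Finset.sum_nonneg fun a _ => nsq_nonneg _ _
        · exact happ τ hτ
      _ = C' * (C * g + g) / τ ^ 2 := by field_simp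
  · filter_upwards [eventually_ge_atTop (max τ₀ 1)] with τ hτ
    have h0 : 1 ≤ τ := (le_max_right _ _).trans hτ
    have h1 : 0 < τ := one_pos.trans_le h0
    have h2 := (hint τ h0 _ (hM τ h0).1 (hM τ h0).2 (Rm τ)).2 a i j
    have h3 : g / τ ^ 2 ≤ g := div_le_self hg0 (one_le_pow₀ h0)
    rw [nsq_smul, norm_inv, Complex.norm_real, Real.norm_of_nonneg h1.le, inv_pow, inv_mul_eq_div]
    refine div_le_div_of_nonneg_right ?_ (by positivity)
    calc nsq U (pd i (pd j (Rm τ a))) ≤ nsq (ball 0 R) (pd i (pd j (Rm τ a))) :=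
        nsq_mono hUR isBounded_ball _
      _ ≤ _ := h2
      _ ≤ C' * (τ ^ 4 * (C * g / τ ^ 4) + g) := by
        gcongr
        · exact (hRm τ hτ).2
        · exact (happ τ hτ).trans h3
      _ = C' * (C * g + g) := by field_simp

end Crest.Agent.R080
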