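import Crest.Agent.R080.Ike
import Crest.Agent.R080.Exist

/-!
Row 80: exponentially growing solutions with prescribed amplitude.

Let `Z₀ = (xi0 c n, 0)`, `Z₁ = (ξ₁, η₁)`, `Rm` from `Sys.small` for Ikehata's system with
`G = - I Z₁`, and `Z τ = ex τ θ * (Z₀ + τ⁻¹ Z₁ + Rm τ)`. On `Ω`, `I (Z τ) = 0` (`I1_ex`, `P1_xi0`, …), so
`u τ = y (Z τ)` solves the elasticity system (`Lop_y`, `pd_congr`). Write
`u τ j = ex τ θ * v τ j`,
`v τ j = exp (-m) (xi0 j + θ j η₁ + τ⁻¹ (ξ₁ j + ∂ⱼ η₁ + η₁ ∂ⱼ m) + Rξ j + τ θ j Rη + ∂ⱼ Rη + Rη ∂ⱼ m)`;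
`v τ j → a j`, `τ⁻¹ ∂ᵢ v τ j → 0`. For the divergence use `dv_y`.
-/

set_option autoImplicit false

open MeasureTheory Set Metric Filter Topology
open scoped ContDiff

noncomputable section

namespace Crest.Agent.R080

theorem cgo1_y_ex (M : Med) (τ : ℝ) (θ : C3) (ξ : Fin 3 → S) (η : S) (j : Fin 3) :
    M.y (fun j => ex τ θ * ξ j) (ex τ θ * η) j =
      ex τ θ * (S.exp (-M.m) * (ξ j + θ j • ((τ : ℂ) • η) + pd j η + η * pd j M.m)) := by
  simp only [Med.y, pd_mul, pd_ex', smul_eq_alg]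
  ring

theorem cgo1_dv_ex (τ : ℝ) (θ : C3) (ξ : Fin 3 → S) :
    dv (fun j => ex τ θ * ξ j) = ex τ θ * (dv ξ + (τ : ℂ) • dotS θ ξ) := by
  simp only [dv, dotS, Fin.sum_univ_three, pd_mul, pd_ex', smul_eq_alg]
  ring

theorem cgo1_alg_inv {τ : ℝ} (hτ : τ ≠ 0) :
    algebraMap ℂ S (τ : ℂ)⁻¹ * algebraMap ℂ S (τ : ℂ) = 1 := by
  rw [← map_mul, inv_mul_cancel₀ (Complex.ofReal_ne_zero.2 hτ), map_one]

theorem cgo1_inv_pd_ex {τ : ℝ} (hτ : τ ≠ 0) (θ : C3) (v : S) (i : Fin 3) :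
    (τ : ℂ)⁻¹ • (ex (-τ) θ * pd i (ex τ θ * v)) = θ i • v + (τ : ℂ)⁻¹ • pd i v := by
  have h1 := ex_mul_ex_neg τ θ
  have h2 := cgo1_alg_inv hτ
  simp only [pd_mul, pd_ex', smul_eq_alg]
  linear_combination (algebraMap ℂ S (τ : ℂ)⁻¹ * pd i v +
    algebraMap ℂ S (τ : ℂ)⁻¹ * algebraMap ℂ S (τ : ℂ) * algebraMap ℂ S (θ i) * v) * h1 +
    algebraMap ℂ S (θ i) * v * h2

/-- small together with `τ⁻¹` times the gradient -/
def Cgo1Small (U : Set R3) (F : ℝ → S) : Prop :=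
  Conv U F 0 ∧ ∀ i, Conv U (fun τ => (τ : ℂ)⁻¹ • pd i (F τ)) 0

theorem cgo1_conv_congr {U : Set R3} {F G : ℝ → S} {f : S} (h : Conv U F f)
    (hFG : ∀ τ : ℝ, τ ≠ 0 → F τ = G τ) : Conv U G f := by
  refine Tendsto.congr' ?_ h
  filter_upwards [eventually_ne_atTop 0] with τ hτ
  rw [hFG τ hτ]

theorem cgo1_conv_of_smul {U : Set R3} (hU : Bornology.IsBounded U) {F : ℝ → S} {f : S}
    (h : Conv U (fun τ => (τ : ℂ) • F τ) f) : Conv U F 0 :=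
  cgo1_conv_congr (h.inv_smul hU) fun _ hτ => inv_smul_smul₀ (Complex.ofReal_ne_zero.2 hτ) _

theorem cgo1_add0 {U : Set R3} (hU : Bornology.IsBounded U) {F G : ℝ → S} (hF : Conv U F 0)
    (hG : Conv U G 0) : Conv U (fun τ => F τ + G τ) 0 := by
  simpa only [add_zero] using hF.add hU hG

theorem cgo1_mul0 {U : Set R3} (hU : Bornology.IsBounded U) {F : ℝ → S} (hF : Conv U F 0)
    (a : S) : Conv U (fun τ => a * F τ) 0 := by
  simpa only [mul_zero] using hF.mul_left hU a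

theorem cgo1_smul0 {U : Set R3} {F : ℝ → S} (hF : Conv U F 0)
    (a : ℂ) : Conv U (fun τ => a • F τ) 0 := by
  simpa only [smul_zero] using hF.smul a

theorem Cgo1Small.add {U : Set R3} (hU : Bornology.IsBounded U) {F G : ℝ → S}
    (hF : Cgo1Small U F) (hG : Cgo1Small U G) : Cgo1Small U fun τ => F τ + G τ := by
  refine ⟨cgo1_add0 hU hF.1 hG.1, fun i => ?_⟩
  simpa only [map_add, smul_add] using cgo1_add0 hU (hF.2 i) (hG.2 i)

theorem Cgo1Small.mul {U : Set R3} (hU : Bornology.IsBounded U) {F : ℝ → S}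
    (hF : Cgo1Small U F) (a : S) : Cgo1Small U fun τ => a * F τ := by
  refine ⟨cgo1_mul0 hU hF.1 a, fun i => ?_⟩
  refine cgo1_conv_congr (cgo1_add0 hU (cgo1_mul0 hU (hF.2 i) a)
    ((cgo1_mul0 hU hF.1 (pd i a)).inv_smul hU)) fun τ _ => ?_
  simp only [pd_mul, smul_eq_alg]
  ring

theorem Med.amp (M : Med) {Ω : Set R3} (ho : IsOpen Ω) (hb : Bornology.IsBounded Ω) {θ n : C3}
    (hθ : Null θ) (hn : dot θ n = 0) (c : ℂ) (ξ₁ : Fin 3 → S) (η₁ : S)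
    (h1 : ∀ x ∈ Ω, ∀ i, (M.P1 θ ξ₁ η₁ i + M.I1 (M.xi0 c n) 0 i) x = 0)
    (h2 : ∀ x ∈ Ω, (M.P2 θ ξ₁ η₁ + M.I2 (M.xi0 c n) 0) x = 0) :
    Amp Ω M θ (M.ampA θ c n η₁) (M.ampD θ c n ξ₁) := by
  refine ⟨M.dotS_ampA hθ.1 hn c η₁, fun x hx i => ?_, fun x hx => ?_, ?_⟩
  · rw [M.T1_amp hn, S.smul_apply, S.mul_apply, h2 x hx, mul_zero, mul_zero]
  · have h := congrArg (fun f : S => f x) (M.T2_amp hn c ξ₁ η₁)
    simp only [S.mul_apply, S.two_apply, S.sum_apply, S.smul_apply, h1 x hx, mul_zero,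
      Finset.sum_const_zero] at h
    simpa using h
  obtain ⟨P, hP⟩ := M.exists_sys
  obtain ⟨Rm, hR, hR0, hR1, hR2⟩ := P.small hθ.re_ne hb
    (fun a => a.elim (-M.I2 ξ₁ η₁) fun i => -M.I1 ξ₁ η₁ i)
  set ξ : ℝ → Fin 3 → S := fun τ j => M.xi0 c n j + (τ : ℂ)⁻¹ • ξ₁ j + Rm τ (some j) with hξ
  set η : ℝ → S := fun τ => 0 + (τ : ℂ)⁻¹ • η₁ + Rm τ none with hη
  have hI : ∀ᶠ τ in atTop, ∀ x ∈ Ω,
      (∀ i, M.I1 (fun j => ex τ θ * ξ τ j) (ex τ θ * η τ) i x = 0) ∧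
        M.I2 (fun j => ex τ θ * ξ τ j) (ex τ θ * η τ) x = 0 := by
    filter_upwards [hR, eventually_ne_atTop 0] with τ hτ hτ0 x hx
    have hτ1 : (τ : ℂ) ≠ 0 := Complex.ofReal_ne_zero.2 hτ0
    refine ⟨fun i => ?_, ?_⟩
    · have e1 := hτ x hx (some i)
      rw [(hP _).1] at e1
      have e2 := h1 x hx i
      simp only [hξ, hη, mul_add (ex τ θ) (_ + _)]
      rw [M.I1_add, M.I1_ex hθ.1, M.I1_add, M.P1_add, M.I1_smul, M.P1_smul, M.P1_xi0 hn, zero_add,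
        smul_inv_smul₀ hτ1, S.add_apply, e1]
      simp only [S.add_apply, S.mul_apply, S.smul_apply, S.neg_apply, Option.elim] at e2 ⊢
      linear_combination ex τ θ x * e2
    · have e1 := hτ x hx none
      rw [(hP _).2] at e1
      have e2 := h2 x hx
      simp only [hξ, hη, mul_add (ex τ θ) (_ + _)]
      rw [M.I2_add, M.I2_ex hθ.1, M.I2_add, M.P2_add, M.I2_smul, M.P2_smul, M.P2_xi0 hn, zero_add,
        smul_inv_smul₀ hτ1, S.add_apply, e1]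
      simp only [S.add_apply, S.mul_apply, S.smul_apply, S.neg_apply, Option.elim] at e2 ⊢
      linear_combination ex τ θ x * e2
  have hR00 : ∀ a, Conv Ω (fun τ => Rm τ a) 0 := fun a => cgo1_conv_of_smul hb (hR0 a)
  refine ⟨fun τ => M.y (fun j => ex τ θ * ξ τ j) (ex τ θ * η τ), ?_, fun i j => ?_, ?_⟩
  · filter_upwards [hI] with τ hτ x hx i
    rw [M.Lop_y, S.add_apply, (hτ x hx).1 i, zero_add,
      pd_congr ho (g := 0) (fun y hy => by rw [S.mul_apply, (hτ y hy).2, mul_zero, S.zero_apply])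
        i x hx, map_zero, S.zero_apply]
  · have s1 : ∀ a, Cgo1Small Ω fun τ => Rm τ a := fun a => ⟨hR00 a, fun i => (hR1 a i).inv_smul hb⟩
    have s2 : Cgo1Small Ω fun τ => (τ : ℂ) • Rm τ none := ⟨hR0 none, fun i =>
      cgo1_conv_congr (hR1 none i) fun τ hτ => by
        rw [Derivation.map_smul, inv_smul_smul₀ (Complex.ofReal_ne_zero.2 hτ)]⟩
    have s3 : Cgo1Small Ω fun τ => pd j (Rm τ none) := ⟨hR1 none j, fun i => hR2 none i j⟩
    have s4 : ∀ W : S, Cgo1Small Ω fun τ => (τ : ℂ)⁻¹ • W := fun W =>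
      ⟨(Conv.const W).inv_smul hb, fun i => by
        simpa only [Derivation.map_smul] using
          ((Conv.const (U := Ω) (pd i W)).inv_smul hb).inv_smul hb⟩
    have s5 := (((((s4 (ξ₁ j + pd j η₁ + η₁ * pd j M.m)).add hb (s1 (some j))).add hb
      (s2.mul hb (algebraMap ℂ S (θ j)))).add hb s3).add hb ((s1 none).mul hb (pd j M.m))).mul hb
      (S.exp (-M.m))
    have c1 := (((Conv.const (U := Ω) (M.ampA θ c n η₁ j)).add hb s5.1).smul (θ i)).add hb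
      (cgo1_add0 hb ((Conv.const (U := Ω) (pd i (M.ampA θ c n η₁ j))).inv_smul hb) (s5.2 i))
    rw [add_zero, add_zero] at c1
    refine cgo1_conv_congr c1 fun τ hτ => ?_
    beta_reduce
    rw [cgo1_y_ex, cgo1_inv_pd_ex hτ, ← smul_add, ← map_add]
    have h3 := cgo1_alg_inv hτ
    refine congrArg (fun v => θ i • v + (τ : ℂ)⁻¹ • pd i v) ?_
    simp only [hξ, hη, Med.ampA, map_add, map_zero, smul_eq_alg, pd_mul, pd_alg]
    linear_combination (-S.exp (-M.m) * algebraMap ℂ S (θ j) * η₁) * h3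
  · have c0 : Conv Ω (fun τ => ∑ j, (pd j (Rm τ (some j)) + θ j • ((τ : ℂ) • Rm τ (some j)) +
        (-2 * pd j M.m) * Rm τ (some j))) 0 := by
      simpa only [Finset.sum_const_zero] using Conv.sum hb Finset.univ fun j _ =>
        cgo1_add0 hb (cgo1_add0 hb (hR1 (some j) j) (cgo1_smul0 (hR0 (some j)) (θ j)))
          (cgo1_mul0 hb (hR00 (some j)) (-2 * pd j M.m))
    have c1 := (Conv.const (U := Ω) ((1 - M.β) * M.ampD θ c n ξ₁)).add hb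
      (cgo1_mul0 hb (cgo1_add0 hb (cgo1_add0 hb ((Conv.const (U := Ω)
        (dv ξ₁ - 2 * ∑ j, ξ₁ j * pd j M.m + 2 * η₁ * ∑ j, M.H j j)).inv_smul hb) c0)
        (cgo1_mul0 hb (hR00 none) (2 * ∑ j, M.H j j))) (S.exp (-M.m) * (1 - M.β)))
    rw [add_zero] at c1
    refine c1.congr ho.measurableSet ?_ fun _ _ => rfl
    filter_upwards [hI, eventually_ne_atTop 0] with τ hτ hτ0 x hx
    have e : ex (-τ) θ * dv (M.y (fun j => ex τ θ * ξ τ j) (ex τ θ * η τ)) =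
        ((1 - M.β) * M.ampD θ c n ξ₁ + S.exp (-M.m) * (1 - M.β) *
          ((τ : ℂ)⁻¹ • (dv ξ₁ - 2 * ∑ j, ξ₁ j * pd j M.m + 2 * η₁ * ∑ j, M.H j j) +
            ∑ j, (pd j (Rm τ (some j)) + θ j • ((τ : ℂ) • Rm τ (some j)) +
              (-2 * pd j M.m) * Rm τ (some j)) + (2 * ∑ j, M.H j j) * Rm τ none)) +
          ex (-τ) θ * S.exp (-M.m) * M.I2 (fun j => ex τ θ * ξ τ j) (ex τ θ * η τ) := by
      rw [M.dv_y, cgo1_dv_ex]
      generalize M.I2 (fun j => ex τ θ * ξ τ j) (ex τ θ * η τ) = I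
      have h3 := cgo1_alg_inv hτ0
      have h4 := ex_mul_ex_neg τ θ
      have h5 := M.dotS_xi0 hn c
      have e1 : ex (-τ) θ * (S.exp (-M.m) * (I + (1 - M.β) *
          (ex τ θ * (dv (ξ τ) + (τ : ℂ) • dotS θ (ξ τ)) - 2 * ∑ j, ex τ θ * ξ τ j * pd j M.m +
            2 * (ex τ θ * η τ) * ∑ j, M.H j j))) =
          S.exp (-M.m) * (1 - M.β) * (dv (ξ τ) + (τ : ℂ) • dotS θ (ξ τ) -
            2 * ∑ j, ξ τ j * pd j M.m + 2 * η τ * ∑ j, M.H j j) +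
            ex (-τ) θ * S.exp (-M.m) * I := by
        simp only [Fin.sum_univ_three]
        linear_combination (S.exp (-M.m) * (1 - M.β) * (dv (ξ τ) + (τ : ℂ) • dotS θ (ξ τ) -
            2 * (ξ τ 0 * pd 0 M.m + ξ τ 1 * pd 1 M.m + ξ τ 2 * pd 2 M.m) +
              2 * η τ * (M.H 0 0 + M.H 1 1 + M.H 2 2))) * h4
      rw [e1]
      congr 1
      simp only [hξ, hη, Med.ampD, dv, dotS, Fin.sum_univ_three, map_add, smul_eq_alg, pd_mul,
        pd_alg] at h5 ⊢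
      linear_combination S.exp (-M.m) * (1 - M.β) * (algebraMap ℂ S (τ : ℂ) * h5 +
        (algebraMap ℂ S (θ 0) * ξ₁ 0 + algebraMap ℂ S (θ 1) * ξ₁ 1 + algebraMap ℂ S (θ 2) * ξ₁ 2) * h3)
    rw [e, S.add_apply _ (_ * M.I2 _ _), S.mul_apply _ (M.I2 _ _), (hτ x hx).2, mul_zero, add_zero]

end Crest.Agent.R080
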