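import Crest.Agent.R080.Ike
import Crest.Agent.R080.Exist

/-!
Row 80: the dual family of exponentially growing solutions.

Let `Rm` come from `Sys.small` for Ikehata's system, `-θ`, and
`G = (∇ψ₀ - I1 ξ η, - (1 - β) ψ₀ - I2 ξ η)`; put `Z τ = ex τ (-θ) * (τ⁻¹ (ξ, η) + Rm τ)` and
`χ τ = τ⁻¹ ex τ (-θ) ψ₀`. On `Ω`: `I1 (Z τ) = ∇ χ τ`, `I2 (Z τ) = - (1 - β) χ τ`, so by `Lop_y` and
`β_w` the displacement `y (Z τ)` solves the elasticity system.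
-/

set_option autoImplicit false

open MeasureTheory Set Metric Filter Topology
open scoped ContDiff

noncomputable section

namespace Crest.Agent.R080

theorem Med.dual (M : Med) {Ω : Set R3} (ho : IsOpen Ω) (hb : Bornology.IsBounded Ω) {θ : C3}
    (hθ : Null θ) (ξ : Fin 3 → S) (η ψ₀ : S)
    (h1 : ∀ x ∈ Ω, ∀ i, M.P1 θ ξ η i x = θ i * ψ₀ x) (h2 : ∀ x ∈ Ω, M.P2 θ ξ η x = 0) :
    ∃ (X : ℝ → Fin 3 → S) (Y : ℝ → S),
      (∀ᶠ τ in atTop, ∀ x ∈ Ω, ∀ i, Lop M.lam M.mu (M.y (X τ) (Y τ)) i x = 0) ∧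
      (∀ i, Conv Ω (fun τ => (τ : ℂ) • (ex τ θ * X τ i)) (ξ i)) ∧
      Conv Ω (fun τ => (τ : ℂ) • (ex τ θ * Y τ)) η ∧
      Conv Ω (fun τ => ex τ θ * dv (X τ)) (-dotS θ ξ) ∧
      Conv Ω (fun τ => ex τ θ * M.I2 (X τ) (Y τ)) 0 := by
  obtain ⟨P, hP⟩ := M.exists_sys
  obtain ⟨Rm, hR, hR0, hR1, -⟩ := P.small hθ.neg.re_ne hb (fun a => match a with
    | some i => pd i ψ₀ - M.I1 ξ η i
    | none => -((1 - M.β) * ψ₀) - M.I2 ξ η)
  have hE : ∀ (τ : ℝ) (x : R3), ex τ θ x * ex τ (-θ) x = 1 := fun τ x => by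
    rw [ex_neg, ← S.mul_apply, ex_mul_ex_neg, S.one_apply]
  have hne : ∀ᶠ τ : ℝ in atTop, (τ : ℂ) ≠ 0 :=
    (eventually_ne_atTop 0).mono fun τ h => Complex.ofReal_ne_zero.2 h
  have hI : ∀ᶠ τ : ℝ in atTop, ∀ x ∈ Ω,
      (∀ i, M.I1 (fun j => (τ : ℂ)⁻¹ • (ex τ (-θ) * ξ j) + ex τ (-θ) * Rm τ (some j))
        ((τ : ℂ)⁻¹ • (ex τ (-θ) * η) + ex τ (-θ) * Rm τ none) i x =
          pd i ((τ : ℂ)⁻¹ • (ex τ (-θ) * ψ₀)) x) ∧
      M.I2 (fun j => (τ : ℂ)⁻¹ • (ex τ (-θ) * ξ j) + ex τ (-θ) * Rm τ (some j))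
        ((τ : ℂ)⁻¹ • (ex τ (-θ) * η) + ex τ (-θ) * Rm τ none) x =
          (-((1 - M.β) * ((τ : ℂ)⁻¹ • (ex τ (-θ) * ψ₀))) : S) x := by
    filter_upwards [hR, hne] with τ hτ h0 x hx
    constructor
    · intro i
      have e := hτ x hx (some i)
      rw [(hP _).1 i] at e
      rw [M.I1_add, M.I1_smul, M.I1_ex hθ.neg.1, M.P1_neg, S.add_apply, e, Derivation.map_smul,
        pd_mul, pd_ex]
      simp only [S.smul_apply, S.mul_apply, S.add_apply, S.sub_apply, S.neg_apply, h1 x hx i,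
        Pi.neg_apply]
      field_simp
      ring
    · have e := hτ x hx none
      rw [(hP _).2] at e
      rw [M.I2_add, M.I2_smul, M.I2_ex hθ.neg.1, M.P2_neg, S.add_apply, e]
      simp only [S.smul_apply, S.mul_apply, S.add_apply, S.sub_apply, S.neg_apply, h2 x hx]
      ring
  have hc : ∀ (f : S) (a : Option (Fin 3)), Conv Ω (fun τ => (τ : ℂ) •
      (ex τ θ * ((τ : ℂ)⁻¹ • (ex τ (-θ) * f) + ex τ (-θ) * Rm τ a))) f := by
    intro f a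
    refine ((Conv.const f).add hb (hR0 a)).congr ho.measurableSet ?_ (fun x _ => by simp)
    filter_upwards [hne] with τ h0 x _
    simp only [S.smul_apply, S.mul_apply, S.add_apply]
    have h3 := mul_inv_cancel₀ h0
    linear_combination (-(f x) - τ * Rm τ a x) * hE τ x - ex τ θ x * ex τ (-θ) x * f x * h3
  refine ⟨fun τ j => (τ : ℂ)⁻¹ • (ex τ (-θ) * ξ j) + ex τ (-θ) * Rm τ (some j),
    fun τ => (τ : ℂ)⁻¹ • (ex τ (-θ) * η) + ex τ (-θ) * Rm τ none, ?_, fun i => hc _ _, hc _ _,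
    ?_, ?_⟩
  · filter_upwards [hI] with τ hτ x hx i
    have e : ∀ x ∈ Ω, (M.w * M.I2
        (fun j => (τ : ℂ)⁻¹ • (ex τ (-θ) * ξ j) + ex τ (-θ) * Rm τ (some j))
        ((τ : ℂ)⁻¹ • (ex τ (-θ) * η) + ex τ (-θ) * Rm τ none)) x =
          (-((τ : ℂ)⁻¹ • (ex τ (-θ) * ψ₀)) : S) x := by
      intro x hx
      have hw := congrArg (fun f : S => f x) M.β_w
      rw [S.mul_apply, (hτ x hx).2]
      simp only [S.mul_apply, S.neg_apply, S.one_apply] at hw ⊢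
      linear_combination (-(((τ : ℂ)⁻¹ • (ex τ (-θ) * ψ₀) : S) x)) * hw
    rw [M.Lop_y, S.add_apply, pd_congr ho e i x hx, (hτ x hx).1 i, map_neg, S.neg_apply,
      add_neg_cancel]
  · have h3 := (((Conv.const (-dotS θ ξ)).sub hb
      (Conv.sum hb Finset.univ fun i _ => (hR0 (some i)).smul (θ i))).add hb
      (Conv.inv_smul hb (Conv.const (dv ξ)))).add hb
      (Conv.sum hb Finset.univ fun i _ => hR1 (some i) i)
    refine h3.congr ho.measurableSet ?_ (fun x _ => by simp)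
    filter_upwards [hne] with τ h0 x _
    simp only [dv, dotS, Fin.sum_univ_three, map_add, Derivation.map_smul, pd_mul, pd_ex,
      S.smul_apply, S.mul_apply, S.add_apply, S.sub_apply, S.neg_apply, Pi.neg_apply]
    have h4 := mul_inv_cancel₀ h0
    linear_combination (-(τ : ℂ)⁻¹ * (pd 0 (ξ 0) x + pd 1 (ξ 1) x + pd 2 (ξ 2) x) -
      (pd 0 (Rm τ (some 0)) x + pd 1 (Rm τ (some 1)) x + pd 2 (Rm τ (some 2)) x) +
      τ * (θ 0 * Rm τ (some 0) x + θ 1 * Rm τ (some 1) x + θ 2 * Rm τ (some 2) x) +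
      (θ 0 * ξ 0 x + θ 1 * ξ 1 x + θ 2 * ξ 2 x)) * hE τ x +
      ex τ θ x * ex τ (-θ) x * (θ 0 * ξ 0 x + θ 1 * ξ 1 x + θ 2 * ξ 2 x) * h4
  · refine (Conv.inv_smul hb (Conv.const (-((1 - M.β) * ψ₀)))).congr ho.measurableSet ?_
      (fun x _ => rfl)
    filter_upwards [hI] with τ hτ x hx
    rw [S.mul_apply, (hτ x hx).2]
    simp only [S.smul_apply, S.mul_apply, S.neg_apply]
    linear_combination ((τ : ℂ)⁻¹ * (1 - M.β) x * ψ₀ x) * hE τ x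

end Crest.Agent.R080
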