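import Crest.Agent.R080.L2

/-!
Row 80: the Carleman estimate for the Laplacian with a convexified linear weight.

Let `t = ⟪η, x⟫`, `Φ = τ t + K t² / 2`, `φ' = τ + K t`, `∇Φ = φ' η`, `v = exp Φ * f`. Then
`exp Φ * Δ f = Sv + Av`, `Sv = Δ v + ‖η‖² φ'² v`, `Av = - 2 φ' η·∇v - K ‖η‖² v`, and
`∫ (Sv conj (Av) + conj (Sv) Av) = 4 K ∫ |η·∇v|² + 4 K ‖η‖⁴ ∫ φ'² |v|²`
(an identity in the differential ring `S`: for `v, w : S`, `Sv * Aw + Sw * Av` is
`4 K (η·∇v)(η·∇w) + 4 K ‖η‖⁴ φ'² v w` plus a divergence; take `w = conj v`, use `integral_pd`).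
So `‖exp Φ Δ f‖² ≥ ‖Sv‖² + 4 K ‖η‖⁴ ∫ φ'² |v|²`, while
`‖∇v‖² = - ∫ Sv conj v + ‖η‖² ∫ φ'² |v|²`. On `ball 0 R`, `τ / 2 ≤ φ' ≤ 3 τ / 2` once
`τ ≥ 2 K ‖η‖ R`. Finally `exp Φ ∇f = ∇v - φ' η v`.
-/

set_option autoImplicit false

open MeasureTheory Set Metric Filter Topology
open scoped ContDiff

noncomputable section

namespace Crest.Agent.R080

/-- `η·∇` -/
def carlD (c : Fin 3 → S) (v : S) : S := ∑ i, c i * pd i v

/-- the symmetric part -/
def carlS (c : Fin 3 → S) (p v : S) : S := lap v + (∑ i, c i * c i) * (p * p) * v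

/-- the antisymmetric part -/
def carlA (c : Fin 3 → S) (k p v : S) : S := -(2 * p * carlD c v) - k * (∑ i, c i * c i) * v

/-- the vector field in the commutator identity -/
def carlX (c : Fin 3 → S) (k p v w : S) (i : Fin 3) : S :=
  -(2 * p * (pd i v * carlD c w + pd i w * carlD c v)) + 2 * c i * p * (∑ j, pd j v * pd j w) -
    k * (∑ j, c j * c j) * (pd i v * w + pd i w * v) -
    2 * (∑ j, c j * c j) * c i * (p * p * p) * (v * w)

theorem carl_id {c : Fin 3 → S} {k p : S} (hc : ∀ i j, pd i (c j) = 0) (hk : ∀ i, pd i k = 0)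
    (hp : ∀ i, pd i p = k * c i) (v w : S) :
    carlS c p v * carlA c k p w + carlS c p w * carlA c k p v =
      2 * 2 * k * (carlD c v * carlD c w) +
        2 * 2 * k * ((∑ i, c i * c i) * (∑ i, c i * c i)) * (p * v * (p * w)) +
        ∑ i, pd i (carlX c k p v w i) := by
  simp only [carlS, carlA, carlD, carlX, lap, Fin.sum_univ_three, map_add, map_sub, map_neg, pd_mul,
    hc, hk, hp, pd_two, pd_comm 1 0, pd_comm 2 0, pd_comm 2 1]
  ring

theorem carl_conj {c : Fin 3 → S} {k p E : S} (hc : ∀ i j, pd i (c j) = 0)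
    (hp : ∀ i, pd i p = k * c i) (hE : ∀ i, pd i E = E * (c i * p)) (f : S) :
    E * lap f = carlS c p (E * f) + carlA c k p (E * f) := by
  simp only [carlS, carlA, carlD, lap, Fin.sum_univ_three, map_add, pd_mul, hc, hp, hE]
  ring

theorem carl_grad (c : Fin 3 → S) (p v w : S) :
    ∑ i, pd i v * pd i w = ∑ i, pd i (w * pd i v) - w * carlS c p v +
      (∑ i, c i * c i) * (p * v * (p * w)) := by
  simp only [carlS, lap, Fin.sum_univ_three, pd_mul]
  ring

theorem carl_real {K N τ A B Dd P V G d₁ d₂ r T F : ℝ} (hK : 1 ≤ K) (hN : 0 < N) (hτ : K ≤ τ)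
    (hA : 0 ≤ A) (hB : 0 ≤ B) (hD : 0 ≤ Dd) (hP : 0 ≤ P) (hV : 0 ≤ V)
    (h1 : T = A + B + (4 * K * Dd + 4 * K * (N * N) * P + d₁)) (h2 : G = d₂ - r + N * P)
    (h3 : τ ^ 2 * V ≤ 4 * P) (h4 : -(2 * K * r) ≤ K ^ 2 * V + A) (h5 : F ≤ 2 * G + 2 * N * P) :
    K * (τ ^ 2 * V + F) ≤ (1 + (2 + N) / (N * N)) * T +
      (2 * K * d₂ - (1 + (2 + N) / (N * N)) * d₁) := by
  have hK0 : 0 ≤ K := by linarith
  have t1 : K ^ 2 * V ≤ 4 * K * P := by
    have : K ≤ τ ^ 2 := by nlinarith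
    nlinarith [mul_le_mul_of_nonneg_right this hV]
  have t2 : K * (τ ^ 2 * V + F) ≤ A + 4 * K * (2 + N) * P + 2 * K * d₂ := by
    have a1 := mul_le_mul_of_nonneg_left h3 hK0
    have a2 := mul_le_mul_of_nonneg_left h5 hK0
    rw [h2] at a2
    nlinarith
  have hq : 0 ≤ (2 + N) / (N * N) := by positivity
  have t3 : (2 + N) / (N * N) * (4 * K * (N * N) * P) = 4 * K * (2 + N) * P := by
    field_simp
  have t4 : 0 ≤ (2 + N) / (N * N) * (A + B + 4 * K * Dd) := by positivity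
  have t5 : 0 ≤ B + 4 * K * Dd + 4 * K * (N * N) * P := by positivity
  rw [h1]
  nlinarith

theorem carl_point {c : Fin 3 → S} {k p E : S} (hc : ∀ i j, pd i (c j) = 0) (hk : ∀ i, pd i k = 0)
    (hp : ∀ i, pd i p = k * c i) (hE : ∀ i, pd i E = E * (c i * p)) (f : S) (x : R3)
    {η : Fin 3 → ℝ} {K τ q : ℝ} (hcx : ∀ i, c i x = η i) (hkx : k x = K) (hpx : p x = q)
    (hK : 1 ≤ K) (hN : 0 < ∑ i, η i * η i) (hτ : K ≤ τ) (hq : f x = 0 ∨ τ ^ 2 ≤ 4 * q ^ 2) :
    K * (τ ^ 2 * ‖(E * f) x‖ ^ 2 + ∑ i, ‖(E * pd i f) x‖ ^ 2) ≤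
      (1 + (2 + ∑ i, η i * η i) / ((∑ i, η i * η i) * ∑ i, η i * η i)) * ‖(E * lap f) x‖ ^ 2 +
      (2 * K * ((∑ i, pd i (S.conj (E * f) * pd i (E * f))) x).re -
        (1 + (2 + ∑ i, η i * η i) / ((∑ i, η i * η i) * ∑ i, η i * η i)) *
          ((∑ i, pd i (carlX c k p (E * f) (S.conj (E * f)) i)) x).re) := by
  have hdf : ∀ i, E * pd i f = pd i (E * f) - c i * (p * (E * f)) := fun i => by
    rw [pd_mul, hE]; ring
  rw [carl_conj hc hp hE]
  simp only [hdf]
  have hq' : τ ^ 2 * ‖(E * f) x‖ ^ 2 ≤ 4 * ‖(p * (E * f)) x‖ ^ 2 := by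
    rcases hq with hq | hq
    · simp [hq]
    · rw [S.mul_apply p, norm_mul, hpx, Complex.norm_real, mul_pow, Real.norm_eq_abs, sq_abs,
        ← mul_assoc]
      exact mul_le_mul_of_nonneg_right hq (sq_nonneg _)
  generalize E * f = v at hq' ⊢
  set N := ∑ i, η i * η i with hNd
  have hNx : (∑ i, c i * c i) x = N := by
    simp only [S.sum_apply, S.mul_apply, hcx, hNd]
    push_cast
    rfl
  have hD : carlD c (S.conj v) x = (starRingEnd ℂ) (carlD c v x) := by
    simp only [carlD, pd_conj, S.sum_apply, S.mul_apply, S.conj_apply, hcx, map_sum, map_mul,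
      Complex.conj_ofReal]
  have hS : carlS c p (S.conj v) x = (starRingEnd ℂ) (carlS c p v x) := by
    simp only [carlS, lap, pd_conj, S.add_apply, S.sum_apply, S.mul_apply, S.conj_apply, hcx, hpx,
      map_add, map_sum, map_mul, Complex.conj_ofReal]
  have hA : carlA c k p (S.conj v) x = (starRingEnd ℂ) (carlA c k p v x) := by
    simp only [carlA, S.sub_apply, S.neg_apply, S.mul_apply, S.two_apply, hD, hNx, S.conj_apply,
      hkx, hpx, map_sub, map_neg, map_mul, Complex.conj_ofReal, map_ofNat]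
  have hpv : (p * S.conj v) x = (starRingEnd ℂ) ((p * v) x) := by
    simp only [S.mul_apply, S.conj_apply, hpx, map_mul, Complex.conj_ofReal]
  have hn : ∀ z : ℂ, z * (starRingEnd ℂ) z = ((‖z‖ ^ 2 : ℝ) : ℂ) := fun z => by
    rw [Complex.mul_conj, Complex.normSq_eq_norm_sq]
  have e1 := congrArg (fun u : S => (u x).re) (carl_id hc hk hp v (S.conj v))
  have e2 := congrArg (fun u : S => (u x).re) (carl_grad c p v (S.conj v))
  simp only [S.add_apply, S.sub_apply, S.mul_apply _ (_ * _), S.mul_apply (carlS _ _ _),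
    S.mul_apply (carlD _ _), S.mul_apply (_ * _), S.mul_apply (S.conj _), S.mul_apply (2 : S),
    S.mul_apply (∑ i, c i * c i), S.two_apply, hS, hA, hD, hNx, hkx] at e1 e2
  refine carl_real (A := ‖carlS c p v x‖ ^ 2) (B := ‖carlA c k p v x‖ ^ 2)
    (Dd := ‖carlD c v x‖ ^ 2) (P := ‖(p * v) x‖ ^ 2) (G := ∑ i, ‖pd i v x‖ ^ 2)
    (r := ((starRingEnd ℂ) (v x) * carlS c p v x).re) hK hN hτ (sq_nonneg _) (sq_nonneg _)
    (sq_nonneg _) (sq_nonneg _) (sq_nonneg _) ?_ ?_ hq' ?_ ?_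
  · rw [hpv, hn, hn] at e1
    have h1 : ∀ a b : ℂ, ‖a + b‖ ^ 2 = ‖a‖ ^ 2 + ‖b‖ ^ 2 +
        (a * (starRingEnd ℂ) b + (starRingEnd ℂ) a * b).re := fun a b => by
      simp only [← Complex.normSq_eq_norm_sq, Complex.normSq_apply, Complex.add_re, Complex.add_im,
        Complex.mul_re, Complex.conj_re, Complex.conj_im]
      ring
    rw [S.add_apply, h1, e1]
    simp only [Complex.add_re, Complex.mul_re, Complex.mul_im, Complex.ofReal_re, Complex.ofReal_im,
      Complex.re_ofNat, Complex.im_ofNat]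
    ring
  · rw [hpv, hn, S.conj_apply, Complex.add_re, Complex.sub_re, ← Complex.ofReal_mul,
      Complex.ofReal_re] at e2
    rw [← e2, S.sum_apply, Complex.re_sum]
    refine Finset.sum_congr rfl fun i _ => ?_
    rw [S.mul_apply, pd_conj, S.conj_apply, hn, Complex.ofReal_re]
  · have h1 := Complex.abs_re_le_norm ((starRingEnd ℂ) (v x) * carlS c p v x)
    rw [norm_mul, Complex.norm_conj] at h1
    have h2 := (abs_le.1 h1).1
    nlinarith [sq_nonneg (K * ‖v x‖ - ‖carlS c p v x‖)]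
  · rw [hNd, Finset.mul_sum, Finset.mul_sum, Finset.sum_mul, ← Finset.sum_add_distrib]
    refine Finset.sum_le_sum fun i _ => ?_
    have h1 := norm_sub_le (pd i v x) (c i x * (p * v) x)
    rw [norm_mul, hcx, Complex.norm_real, Real.norm_eq_abs] at h1
    rw [S.sub_apply, S.mul_apply (c i), hcx]
    have h2 := pow_le_pow_left₀ (norm_nonneg _) h1 2
    have h3 : η i * η i = |η i| ^ 2 := by rw [sq_abs, sq]
    rw [h3]
    nlinarith [sq_nonneg (‖pd i v x‖ - |η i| * ‖(p * v) x‖)]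

theorem carleman {η : R3} (hη : η ≠ 0) : ∃ C₀ : ℝ, 0 < C₀ ∧ ∀ K : ℝ, 1 ≤ K → ∀ R : ℝ, 0 < R →
    ∃ τ₀ : ℝ, ∀ τ : ℝ, τ₀ ≤ τ → ∀ f : S, Cs (ball 0 R) f →
      K * (τ ^ 2 * (∫ x, wt η K τ x * ‖f x‖ ^ 2) + ∑ i, ∫ x, wt η K τ x * ‖pd i f x‖ ^ 2) ≤
        C₀ * ∫ x, wt η K τ x * ‖lap f x‖ ^ 2 := by
  have hin : ∀ x : R3, inner ℝ η x = ∑ i, η i * x i := fun x => by
    simp only [PiLp.inner_apply, RCLike.inner_apply, conj_trivial, mul_comm]
  have hNn : ∑ i, η i * η i = ‖η‖ ^ 2 := by rw [← hin, real_inner_self_eq_norm_sq]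
  have hη0 : 0 < ‖η‖ := norm_pos_iff.2 hη
  have hN : 0 < ∑ i, η i * η i := by rw [hNn]; positivity
  refine ⟨1 + (2 + ∑ i, η i * η i) / ((∑ i, η i * η i) * ∑ i, η i * η i), by positivity,
    fun K hK R hR => ⟨max K (2 * K * ‖η‖ * R), fun τ hτ f hf => ?_⟩⟩
  set C₀ := 1 + (2 + ∑ i, η i * η i) / ((∑ i, η i * η i) * ∑ i, η i * η i) with hC₀
  let c : Fin 3 → S := fun i => algebraMap ℂ S (η i)
  let k : S := algebraMap ℂ S K
  let t : S := ∑ i, c i * crd i
  let p : S := algebraMap ℂ S τ + k * t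
  let E : S := S.exp (algebraMap ℂ S τ * t + algebraMap ℂ S (1 / 2) * (k * (t * t)))
  have hc : ∀ i j, pd i (c j) = 0 := fun i j => (pd i).map_algebraMap _
  have hk : ∀ i, pd i k = 0 := fun i => (pd i).map_algebraMap _
  have ht : ∀ i, pd i t = c i := fun i => by
    simp only [t, map_sum, pd_mul, hc, pd_crd, mul_zero, add_zero, mul_ite, mul_one,
      Finset.sum_ite_eq, Finset.mem_univ, if_true]
  have hp : ∀ i, pd i p = k * c i := fun i => by
    simp only [p, map_add, pd_mul, hk, ht, Derivation.map_algebraMap, mul_zero, add_zero, zero_add]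
  have hE : ∀ i, pd i E = E * (c i * p) := fun i => by
    rw [pd_exp]
    congr 1
    simp only [map_add, pd_mul, hk, ht, Derivation.map_algebraMap, mul_zero, add_zero, p]
    refine S.ext fun x => ?_
    simp only [S.add_apply, S.mul_apply, S.algebraMap_apply]
    ring
  have htx : ∀ x, t x = ((inner ℝ η x : ℝ) : ℂ) := fun x => by
    rw [hin]
    simp only [t, c, S.sum_apply, S.mul_apply, S.algebraMap_apply, crd_apply]
    push_cast
    rfl
  have hpx : ∀ x, p x = ((τ + K * inner ℝ η x : ℝ) : ℂ) := fun x => by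
    simp only [p, k, S.add_apply, S.mul_apply, S.algebraMap_apply, htx]
    push_cast
    rfl
  have hw : ∀ (u : S) x, wt η K τ x * ‖u x‖ ^ 2 = ‖(E * u) x‖ ^ 2 := fun u x => by
    rw [S.mul_apply, norm_mul, mul_pow]
    congr 1
    have : E x = Complex.exp ((τ * inner ℝ η x + K / 2 * inner ℝ η x ^ 2 : ℝ) : ℂ) := by
      simp only [E, k, S.exp_apply, S.add_apply, S.mul_apply, S.algebraMap_apply, htx]
      congr 1
      push_cast
      ring
    rw [this, Complex.norm_exp_ofReal, wt, sq (Real.exp _), ← Real.exp_add, two_mul]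
  simp only [hw]
  have hint : ∀ u : S, Cs (ball 0 R) u → Integrable fun x => ‖u x‖ ^ 2 := fun u hu =>
    Continuous.integrable_of_hasCompactSupport (f := (fun z : ℂ => ‖z‖ ^ 2) ∘ (u : R3 → ℂ))
      ((continuous_norm.pow 2).comp u.cont)
      (hu.1.comp_left (g := fun z : ℂ => ‖z‖ ^ 2) (by simp))
  have hv : Cs (ball 0 R) (E * f) := hf.mul_left E
  have hdiv : ∀ X : Fin 3 → S, (∀ i, Cs (ball 0 R) (X i)) →
      Integrable (fun x => ((∑ i, pd i (X i)) x).re) ∧ ∫ x, ((∑ i, pd i (X i)) x).re = 0 := by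
    intro X hX
    have h1 : Integrable ((∑ i, pd i (X i) : S) : R3 → ℂ) :=
      S.integrable (Cs.sum _ fun i _ => (hX i).pd i).1
    refine ⟨h1.re, ?_⟩
    have h2 : ∫ x, (∑ i, pd i (X i)) x = 0 := by
      simp only [S.sum_apply]
      rw [integral_finsetSum _ fun i _ => S.integrable ((hX i).pd i).1]
      exact Finset.sum_eq_zero fun i _ => integral_pd (hX i).1 i
    have h3 := integral_re h1
    rw [h2] at h3
    simpa using h3
  obtain ⟨i1, z1⟩ := hdiv (fun i => S.conj (E * f) * pd i (E * f)) fun i => (hv.pd i).mul_left _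
  obtain ⟨i2, z2⟩ := hdiv (carlX c k p (E * f) (S.conj (E * f))) fun i => by
    refine ((Cs.add (Cs.neg (Cs.mul_left (Cs.add ?_ ?_) _)) (Cs.mul_left (Cs.sum _ fun j _ => ?_) _)).sub
      (Cs.mul_left (Cs.add ?_ ?_) _)).sub (Cs.mul_left ?_ _)
    · exact (hv.pd i).mul_right _
    · exact (hv.conj.pd i).mul_right _
    · exact (hv.pd j).mul_right _
    · exact (hv.pd i).mul_right _
    · exact hv.mul_left _
    · exact hv.mul_right _
  have i3 := hint _ hv
  have i4 : ∀ i, Integrable fun x => ‖(E * pd i f) x‖ ^ 2 := fun i => hint _ ((hf.pd i).mul_left E)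
  have i5 := hint _ (hf.lap.mul_left E)
  have i6 : Integrable fun x => ∑ i, ‖(E * pd i f) x‖ ^ 2 := integrable_finsetSum _ fun i _ => i4 i
  have key := integral_mono (((i3.const_mul (τ ^ 2)).add i6).const_mul K)
    ((i5.const_mul C₀).add ((i1.const_mul (2 * K)).sub (i2.const_mul C₀))) fun x =>
    carl_point hc hk hp hE f x (η := fun i => η i) (fun _ => rfl) rfl (hpx x) hK hN
      ((le_max_left _ _).trans hτ) (by
        by_cases hx : x ∈ ball (0 : R3) R
        · right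
          rw [mem_ball_zero_iff] at hx
          have h1 := (abs_le.1 (abs_real_inner_le_norm η x)).1
          have h2 := (le_max_right _ _).trans hτ
          have h3 : K * (‖η‖ * ‖x‖) ≤ K * (‖η‖ * R) := by gcongr
          have h4 : τ ≤ 2 * (τ + K * inner ℝ η x) := by nlinarith
          have h5 : 0 ≤ τ := by linarith [(le_max_left _ _).trans hτ]
          nlinarith
        · exact Or.inl (hf.eq_zero hx))
  simp only [Pi.add_apply, Pi.sub_apply] at key
  rw [integral_const_mul, integral_add (i3.const_mul _) i6, integral_const_mul,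
    integral_finsetSum _ fun i _ => i4 i, integral_add (i5.const_mul _)
      (by exact (i1.const_mul (2 * K)).sub (i2.const_mul C₀)),
    integral_sub (i1.const_mul _) (i2.const_mul _), integral_const_mul, integral_const_mul,
    integral_const_mul, z1, z2, mul_zero, mul_zero, sub_zero, add_zero] at key
  exact key

end Crest.Agent.R080
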