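import Crest.Agent.R080.L2

/-!
Row 80: algebra of systems, conjugation, transpose.
-/

set_option autoImplicit false
set_option linter.unusedSimpArgs false

open MeasureTheory Set Metric Filter Topology
open scoped ContDiff

noncomputable section

namespace Crest.Agent.R080

theorem lap_ex (τ : ℝ) (θ : C3) (f : S) : lap (ex τ θ * f) =
    ex τ θ * (lap f + ∑ i, (2 * (τ : ℂ) * θ i) • pd i f + ((τ : ℂ) ^ 2 * dot θ θ) • f) := by
  refine S.ext fun x => ?_
  simp only [lap, dot, Fin.sum_univ_three, pd_mul, map_add, pd_ex, Derivation.map_smul, S.add_apply,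
    S.mul_apply, S.smul_apply]
  ring

theorem integral_mul_lap (f : S) {g : S} (hg : HasCompactSupport (g : R3 → ℂ)) :
    ∫ x, (f * lap g) x = ∫ x, (lap f * g) x := by
  have hg' : Cs univ g := ⟨hg, subset_univ _⟩
  simp only [lap, Finset.mul_sum, Finset.sum_mul, S.sum_apply]
  rw [integral_finsetSum _ fun i _ => S.integrable (((hg'.pd i).pd i).mul_left f).1,
    integral_finsetSum _ fun i _ => S.integrable (hg'.mul_left _).1]
  refine Finset.sum_congr rfl fun i _ => ?_
  rw [integral_mul_pd f (hg'.pd i).1, integral_mul_pd _ hg, neg_neg]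

namespace Sys
variable {ι : Type} [Fintype ι] (P : Sys ι)

theorem app_add (Z W : ι → S) (a : ι) :
    P.app (fun b => Z b + W b) a = P.app Z a + P.app W a := by
  simp only [app, lap, map_add, mul_add, Finset.sum_add_distrib]
  ring

theorem app_sub (Z W : ι → S) (a : ι) :
    P.app (fun b => Z b - W b) a = P.app Z a - P.app W a := by
  simp only [app, lap, map_sub, mul_sub, Finset.sum_sub_distrib]
  ring

theorem app_smul (c : ℂ) (Z : ι → S) (a : ι) : P.app (fun b => c • Z b) a = c • P.app Z a := by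
  simp only [app, lap, Derivation.map_smul, mul_smul_comm, smul_add, Finset.smul_sum]

theorem app_congr {U : Set R3} (hU : IsOpen U) {Z W : ι → S} (h : ∀ x ∈ U, ∀ b, Z b x = W b x)
    (a : ι) : ∀ x ∈ U, P.app Z a x = P.app W a x := by
  intro x hx
  have h1 : ∀ b i, ∀ x ∈ U, pd i (Z b) x = pd i (W b) x := fun b i =>
    pd_congr hU (fun x hx => h x hx b) i
  simp only [app, lap, S.add_apply, S.sum_apply, S.mul_apply, h x hx, h1 _ _ x hx,
    pd_congr hU (h1 a _) _ x hx]

theorem app_cs {U : Set R3} {Z : ι → S} (h : ∀ b, Cs U (Z b)) (a : ι) : Cs U (P.app Z a) := by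
  exact ((h a).lap.add (Cs.sum _ fun i _ => Cs.sum _ fun b _ => ((h b).pd i).mul_left _)).add
    (Cs.sum _ fun b _ => (h b).mul_left _)

theorem conj_app [DecidableEq ι] (τ : ℝ) (θ : C3) (Z : ι → S) (a : ι) :
    P.app (fun b => ex τ θ * Z b) a = ex τ θ * (P.conj τ θ).app Z a := by
  refine S.ext fun x => ?_
  simp only [app, conj, lap_ex, pd_mul, pd_ex, add_mul, ite_mul, zero_mul, Finset.sum_add_distrib,
    Finset.sum_ite_eq, Finset.mem_univ, if_true, Finset.sum_mul, Fin.sum_univ_three, mul_add,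
    Finset.mul_sum, S.add_apply, S.mul_apply, S.smul_apply, S.sum_apply, S.algebraMap_apply]
  simp only [mul_comm, mul_left_comm, mul_assoc]
  ring

theorem conj_tr [DecidableEq ι] (τ : ℝ) (θ : C3) : (P.conj τ θ).tr = P.tr.conj τ (-θ) := by
  simp only [conj, tr, Sys.mk.injEq]
  constructor
  · funext i a b
    by_cases h : a = b
    · subst h
      simp [add_comm]
    · simp [h, Ne.symm h]
  · funext a b
    by_cases h : a = b
    · subst h
      simp [dot]
      ring
    · simp [h, Ne.symm h]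
      ring

/-- Green's identity for a compactly supported test function -/
theorem integral_tr (Z φ : ι → S) (hφ : ∀ a, HasCompactSupport (φ a : R3 → ℂ)) :
    ∑ a, ∫ x, (Z a * P.tr.app φ a) x = ∑ a, ∫ x, (P.app Z a * φ a) x := by
  have hφ' : ∀ a, Cs univ (φ a) := fun a => ⟨hφ a, subset_univ _⟩
  have h1 : ∀ a, ∫ x, (Z a * P.tr.app φ a) x = (∫ x, (lap (Z a) * φ a) x) +
      (∑ i, ∑ b, ∫ x, (P.A i b a * pd i (Z a) * φ b) x) + ∑ b, ∫ x, (P.V b a * Z a * φ b) x := by
    intro a
    have e : Z a * P.tr.app φ a = Z a * lap (φ a) +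
        ∑ i, ∑ b, (P.A i b a * pd i (Z a) * φ b - pd i (P.A i b a * Z a * φ b)) +
        ∑ b, P.V b a * Z a * φ b := by
      simp only [app, tr, pd_mul, Fin.sum_univ_three, mul_add, Finset.mul_sum, ← Finset.sum_add_distrib,
        add_assoc]
      congr 1
      exact Finset.sum_congr rfl fun b _ => by ring
    have c1 : ∀ i b, Cs univ (P.A i b a * pd i (Z a) * φ b - pd i (P.A i b a * Z a * φ b)) :=
      fun i b => ((hφ' b).mul_left _).sub (((hφ' b).mul_left _).pd i)
    rw [e]
    simp only [S.add_apply, S.sum_apply]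
    rw [integral_add, integral_add, integral_mul_lap _ (hφ a), integral_finsetSum, integral_finsetSum]
    · congr 2
      refine Finset.sum_congr rfl fun i _ => ?_
      rw [integral_finsetSum _ fun b _ => S.integrable (c1 i b).1]
      refine Finset.sum_congr rfl fun b _ => ?_
      simp only [S.sub_apply]
      rw [integral_sub (S.integrable ((hφ' b).mul_left _).1)
        (S.integrable (((hφ' b).mul_left _).pd i).1), integral_pd ((hφ' b).mul_left _).1, sub_zero]
    · exact fun b _ => S.integrable ((hφ' b).mul_left _).1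
    · exact fun i _ => integrable_finsetSum _ fun b _ => S.integrable (c1 i b).1
    · exact S.integrable ((hφ' a).lap.mul_left _).1
    · exact integrable_finsetSum _ fun i _ => integrable_finsetSum _ fun b _ => S.integrable (c1 i b).1
    · exact (S.integrable ((hφ' a).lap.mul_left _).1).add
        (integrable_finsetSum _ fun i _ => integrable_finsetSum _ fun b _ => S.integrable (c1 i b).1)
    · exact integrable_finsetSum _ fun b _ => S.integrable ((hφ' b).mul_left _).1
  have h2 : ∀ a, ∫ x, (P.app Z a * φ a) x = (∫ x, (lap (Z a) * φ a) x) +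
      (∑ i, ∑ b, ∫ x, (P.A i a b * pd i (Z b) * φ a) x) + ∑ b, ∫ x, (P.V a b * Z b * φ a) x := by
    intro a
    have c : ∀ g : S, Integrable ((g * φ a : S) : R3 → ℂ) := fun g => S.integrable ((hφ' a).mul_left g).1
    simp only [app, add_mul, Finset.sum_mul, S.add_apply, S.sum_apply]
    rw [integral_add, integral_add, integral_finsetSum, integral_finsetSum]
    · congr 2
      exact Finset.sum_congr rfl fun i _ => integral_finsetSum _ fun b _ => c _
    · exact fun b _ => c _
    · exact fun i _ => integrable_finsetSum _ fun b _ => c _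
    · exact c _
    · exact integrable_finsetSum _ fun i _ => integrable_finsetSum _ fun b _ => c _
    · exact (c _).add (integrable_finsetSum _ fun i _ => integrable_finsetSum _ fun b _ => c _)
    · exact integrable_finsetSum _ fun b _ => c _
  simp only [h1, h2, Finset.sum_add_distrib]
  congr 1
  · congr 1
    rw [Finset.sum_comm]
    conv_rhs => rw [Finset.sum_comm]
    exact Finset.sum_congr rfl fun i _ => Finset.sum_comm
  · exact Finset.sum_comm

/-- size of the coefficients of the conjugated system -/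
theorem conj_bound [DecidableEq ι] (θ : C3) {U : Set R3} (hU : Bornology.IsBounded U) :
    ∃ M : ℝ, 0 ≤ M ∧ ∀ τ : ℝ, 1 ≤ τ →
      (∀ x ∈ U, ∀ i a b, ‖(P.conj τ θ).A i a b x‖ ≤ M * τ) ∧
      ∀ x ∈ U, ∀ a b, ‖(P.conj τ θ).V a b x‖ ≤ M * τ ^ 2 := by
  choose CA hCA0 hCA using fun p : Fin 3 × ι × ι => S.bdd_on hU (P.A p.1 p.2.1 p.2.2)
  choose CV hCV0 hCV using fun p : ι × ι => S.bdd_on hU (P.V p.1 p.2)
  set a : ℝ := ∑ p, CA p
  set v : ℝ := ∑ p, CV p
  have ha0 : 0 ≤ a := Finset.sum_nonneg fun p _ => hCA0 p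
  have hv0 : 0 ≤ v := Finset.sum_nonneg fun p _ => hCV0 p
  have ha : ∀ x ∈ U, ∀ i p q, ‖P.A i p q x‖ ≤ a := fun x hx i p q =>
    (hCA (i, p, q) x hx).trans (Finset.single_le_sum (fun p _ => hCA0 p) (Finset.mem_univ _))
  have hv : ∀ x ∈ U, ∀ p q, ‖P.V p q x‖ ≤ v := fun x hx p q =>
    (hCV (p, q) x hx).trans (Finset.single_le_sum (fun p _ => hCV0 p) (Finset.mem_univ _))
  have hθ0 := norm_nonneg θ
  have hd0 := norm_nonneg (dot θ θ)
  refine ⟨a + 2 * ‖θ‖ + v + 3 * ‖θ‖ * a + ‖dot θ θ‖, by positivity, fun τ hτ => ⟨?_, ?_⟩⟩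
  · intro x hx i p q
    have hτ' : ‖(τ : ℂ)‖ = τ := by rw [Complex.norm_real, Real.norm_of_nonneg (by linarith)]
    have h1 : ‖(if p = q then algebraMap ℂ S (2 * (τ : ℂ) * θ i) else 0 : S) x‖ ≤ 2 * τ * ‖θ‖ := by
      split_ifs
      · simp only [S.algebraMap_apply, norm_mul, hτ', Complex.norm_two]
        exact mul_le_mul_of_nonneg_left (norm_le_pi_norm θ i) (by linarith)
      · simp only [S.zero_apply, norm_zero]
        have : 0 ≤ τ := by linarith
        positivity
    refine (norm_add_le _ _).trans ((add_le_add (ha x hx i p q) h1).trans ?_)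
    nlinarith [mul_nonneg hθ0 ha0]
  · intro x hx p q
    have hτ0 : 0 ≤ τ := by linarith
    have hτ' : ‖(τ : ℂ)‖ = τ := by rw [Complex.norm_real, Real.norm_of_nonneg hτ0]
    have h1 : ‖(if p = q then algebraMap ℂ S ((τ : ℂ) ^ 2 * dot θ θ) else 0 : S) x‖ ≤
        τ ^ 2 * ‖dot θ θ‖ := by
      split_ifs
      · simp only [S.algebraMap_apply, norm_mul, norm_pow, hτ', le_refl]
      · simp only [S.zero_apply, norm_zero]
        positivity
    have h2 : ‖(∑ i, ((τ : ℂ) * θ i) • P.A i p q : S) x‖ ≤ 3 * (τ * ‖θ‖ * a) := by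
      simp only [S.sum_apply, S.smul_apply]
      refine (norm_sum_le _ _).trans ((Finset.sum_le_card_nsmul _ _ (τ * ‖θ‖ * a) fun i _ => ?_).trans
        (by simp))
      rw [norm_mul, norm_mul, hτ']
      exact mul_le_mul (mul_le_mul_of_nonneg_left (norm_le_pi_norm θ i) hτ0) (ha x hx i p q)
        (norm_nonneg _) (by positivity)
    refine (norm_add_le _ _).trans ((add_le_add ((norm_add_le _ _).trans
      (add_le_add (hv x hx p q) h2)) h1).trans ?_)
    have h3 : τ ≤ τ ^ 2 := by nlinarith
    have h4 : 1 ≤ τ ^ 2 := by nlinarith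
    nlinarith [mul_nonneg hθ0 ha0, mul_le_mul_of_nonneg_left h3 (mul_nonneg hθ0 ha0),
      mul_le_mul_of_nonneg_left h4 hv0, mul_nonneg ha0 (sq_nonneg τ), mul_nonneg hθ0 (sq_nonneg τ)]

end Sys

end Crest.Agent.R080
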