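import Crest.Agent.R080.Carl
import Crest.Agent.R080.Sy

/-!
Row 80: the Carleman estimate for systems.
-/

set_option autoImplicit false

open MeasureTheory Set Metric Filter Topology
open scoped ContDiff

noncomputable section

namespace Crest.Agent.R080

/-- the square root of the weight as an element of `S` -/
def wS (η : R3) (K τ : ℝ) : S :=
  S.exp (S.ofR (fun x => τ * inner ℝ η x + K / 2 * inner ℝ η x ^ 2)
    ((contDiff_const.mul (contDiff_const.inner ℝ contDiff_id)).add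
      (contDiff_const.mul ((contDiff_const.inner ℝ contDiff_id).pow 2))))

theorem norm_wS (η : R3) (K τ : ℝ) (x : R3) :
    ‖wS η K τ x‖ = Real.exp (τ * inner ℝ η x + K / 2 * inner ℝ η x ^ 2) := by
  rw [wS, S.exp_apply, S.ofR_apply, Complex.norm_exp, Complex.ofReal_re]

theorem integral_wt {U : Set R3} (η : R3) (K τ : ℝ) {f : S} (hf : Cs U f) :
    ∫ x, wt η K τ x * ‖f x‖ ^ 2 = nsq U (wS η K τ * f : S) := by
  rw [← nsq_univ_of_cs (hf.mul_left _), nsq, Measure.restrict_univ]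
  refine integral_congr_ae (ae_of_all _ fun x => ?_)
  simp only [S.mul_apply, norm_mul, norm_wS, mul_pow, wt]
  rw [← Real.exp_nat_mul]
  norm_num

theorem norm_wS_ex {θ : C3} {η : R3} (hη : ∀ i, η i = -(θ i).re) (K τ : ℝ) (x : R3) :
    ‖(wS η K τ * ex τ θ : S) x‖ = Real.exp (K / 2 * inner ℝ η x ^ 2) := by
  rw [S.mul_apply, norm_mul, norm_wS, ex, S.exp_apply, Complex.norm_exp, ← Real.exp_add]
  congr 1
  have : inner ℝ η x = -∑ i, (θ i).re * x i := by
    simp only [PiLp.inner_apply, hη, ← Finset.sum_neg_distrib]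
    exact Finset.sum_congr rfl fun i _ => by simp [mul_comm]
  simp only [dotS, S.smul_apply, S.sum_apply, crd_apply, Complex.re_ofReal_mul, Complex.re_sum,
    Complex.re_mul_ofReal]
  rw [this]
  ring

/-- the lower order terms -/
theorem Sys.nsq_lap_le {ι : Type} [Fintype ι] (P : Sys ι) {U : Set R3}
    (hU : Bornology.IsBounded U) (hm : MeasurableSet U) :
    ∃ N : ℝ, 0 ≤ N ∧ ∀ (w : S) (f : ι → S),
      ∑ a, nsq U (w * lap (f a) : S) ≤ 2 * ∑ a, nsq U (w * P.app f a : S) +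
        N * (∑ a, nsq U (w * f a : S) + ∑ a, ∑ i, nsq U (w * pd i (f a) : S)) := by
  choose CA hCA0 hCA using fun p : Fin 3 × ι × ι => S.bdd_on hU (P.A p.1 p.2.1 p.2.2)
  choose CV hCV0 hCV using fun p : ι × ι => S.bdd_on hU (P.V p.1 p.2)
  set M : ℝ := ∑ p, CA p + ∑ p, CV p with hM
  have ha0 : 0 ≤ ∑ p, CA p := Finset.sum_nonneg fun p _ => hCA0 p
  have hv0 : 0 ≤ ∑ p, CV p := Finset.sum_nonneg fun p _ => hCV0 p
  have ha : ∀ i p q, ∀ x ∈ U, ‖P.A i p q x‖ ≤ M := fun i p q x hx =>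
    ((hCA (i, p, q) x hx).trans (Finset.single_le_sum (fun p _ => hCA0 p)
      (Finset.mem_univ _))).trans (le_add_of_nonneg_right hv0)
  have hv : ∀ p q, ∀ x ∈ U, ‖P.V p q x‖ ≤ M := fun p q x hx =>
    ((hCV (p, q) x hx).trans (Finset.single_le_sum (fun p _ => hCV0 p)
      (Finset.mem_univ _))).trans (le_add_of_nonneg_left ha0)
  set n : ℝ := (Fintype.card ι : ℝ) with hn
  have hn0 : 0 ≤ n := Nat.cast_nonneg _
  refine ⟨n * (12 * n * M ^ 2), by positivity, fun w f => ?_⟩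
  set X := ∑ a, nsq U (w * f a : S) with hX
  set Y := ∑ a, ∑ i, nsq U (w * pd i (f a) : S) with hY
  have hX0 : 0 ≤ X := Finset.sum_nonneg fun a _ => nsq_nonneg _ _
  have hY0 : 0 ≤ Y := Finset.sum_nonneg fun a _ => Finset.sum_nonneg fun i _ => nsq_nonneg _ _
  have key : ∀ a, nsq U (w * lap (f a) : S) ≤ 2 * nsq U (w * P.app f a : S) +
      12 * n * M ^ 2 * (X + Y) := by
    intro a
    have e : w * lap (f a) = w * P.app f a + -(∑ i, ∑ b, P.A i a b * (w * pd i (f b)) +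
        ∑ b, P.V a b * (w * f b)) := by
      simp only [Sys.app, mul_add, Finset.mul_sum, mul_left_comm w]
      ring
    have h0 : ∀ (c g : ι → S), (∀ b, ∀ x ∈ U, ‖c b x‖ ≤ M) →
        nsq U (∑ b, c b * g b : S) ≤ n * (M ^ 2 * ∑ b, nsq U (g b)) := by
      intro c g hc
      refine (nsq_sum_le hU _ _).trans ?_
      rw [Finset.card_univ]
      refine mul_le_mul_of_nonneg_left ?_ hn0
      rw [Finset.mul_sum]
      exact Finset.sum_le_sum fun b _ => nsq_mul_le hU hm (hc b) _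
    have h1 : nsq U (∑ i, ∑ b, P.A i a b * (w * pd i (f b)) : S) ≤ 3 * (n * (M ^ 2 * Y)) := by
      refine (nsq_sum_le hU _ _).trans ?_
      simp only [Finset.card_univ, Fintype.card_fin, Nat.cast_ofNat]
      refine mul_le_mul_of_nonneg_left ?_ (by norm_num)
      rw [hY, Finset.sum_comm, Finset.mul_sum, Finset.mul_sum]
      exact Finset.sum_le_sum fun i _ => h0 _ _ (ha i a)
    have h2 : nsq U (∑ b, P.V a b * (w * f b) : S) ≤ n * (M ^ 2 * X) := h0 _ _ (hv a)
    rw [e]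
    refine (nsq_add_le hU _ _).trans ?_
    rw [nsq_neg]
    have h3 := nsq_add_le hU (∑ i, ∑ b, P.A i a b * (w * pd i (f b))) (∑ b, P.V a b * (w * f b))
    have h4 : 0 ≤ n * (M ^ 2 * X) := by positivity
    nlinarith
  refine (Finset.sum_le_sum fun a _ => key a).trans (le_of_eq ?_)
  rw [Finset.sum_add_distrib, ← Finset.mul_sum, Finset.sum_const, Finset.card_univ, nsmul_eq_mul]
  ring

/-- Apply `carleman` with `η = - Re θ` to `f a = ex τ θ * φ a`; `lap (f a) = P.app f a -` lower order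
terms, whose coefficients are bounded on the ball; absorb them by choosing `K` large. By
`Sys.conj_app`, `P.app f a = ex τ θ * (P.conj τ θ).app φ a`, and on the ball
`wt η K τ x * ‖ex τ θ x‖²` lies between `1` and `exp (K ‖η‖² R²)`. -/
theorem Sys.carleman {ι : Type} [Fintype ι] [DecidableEq ι] (P : Sys ι) {θ : C3}
    (hθ : ∃ i, (θ i).re ≠ 0) {R : ℝ} (hR : 0 < R) :
    ∃ C τ₀ : ℝ, 0 < C ∧ ∀ τ : ℝ, τ₀ ≤ τ → ∀ φ : ι → S, (∀ a, Cs (ball 0 R) (φ a)) →
      τ ^ 2 * ∑ a, nsq univ (φ a) ≤ C * ∑ a, nsq univ ((P.conj τ θ).app φ a) := by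
  set η : R3 := WithLp.toLp 2 fun i => -(θ i).re with hηdef
  have hηi : ∀ i, η i = -(θ i).re := fun i => rfl
  have hη : η ≠ 0 := by
    obtain ⟨i, hi⟩ := hθ
    intro h
    have := hηi i
    rw [h] at this
    exact hi (by simpa using this.symm)
  obtain ⟨C₀, hC₀, hC⟩ := R080.carleman hη
  have hb : Bornology.IsBounded (ball (0 : R3) R) := isBounded_ball
  obtain ⟨N, hN, hlap⟩ := P.nsq_lap_le hb measurableSet_ball
  set K : ℝ := C₀ * N + 1 with hK
  have hK1 : 1 ≤ K := le_add_of_nonneg_left (by positivity)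
  obtain ⟨τ₀, hτ₀⟩ := hC K hK1 R hR
  set E : ℝ := Real.exp (K / 2 * (‖η‖ * R) ^ 2) with hE
  have hE0 : 0 < E := Real.exp_pos _
  refine ⟨2 * C₀ * E ^ 2, max τ₀ 1, by positivity, fun τ hτ φ hφ => ?_⟩
  have hτ1 : 1 ≤ τ := (le_max_right _ _).trans hτ
  set w := wS η K τ with hw
  set f : ι → S := fun a => ex τ θ * φ a with hf
  have hfc : ∀ a, Cs (ball 0 R) (f a) := fun a => (hφ a).mul_left _
  have h1 := hlap w f
  have h2 : ∀ a, K * (τ ^ 2 * nsq (ball 0 R) (w * f a : S) +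
      ∑ i, nsq (ball 0 R) (w * pd i (f a) : S)) ≤ C₀ * nsq (ball 0 R) (w * lap (f a) : S) := by
    intro a
    have := hτ₀ τ ((le_max_left _ _).trans hτ) (f a) (hfc a)
    rwa [integral_wt η K τ (hfc a), integral_wt η K τ (hfc a).lap,
      Finset.sum_congr rfl fun i _ => integral_wt η K τ ((hfc a).pd i)] at this
  have h3 := Finset.sum_le_sum fun a (_ : a ∈ Finset.univ) => h2 a
  rw [← Finset.mul_sum, ← Finset.mul_sum, Finset.sum_add_distrib, ← Finset.mul_sum] at h3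
  have h4 : ∑ a, nsq univ (φ a) ≤ ∑ a, nsq (ball 0 R) (w * f a : S) := by
    refine Finset.sum_le_sum fun a _ => ?_
    rw [nsq_univ_of_cs (hφ a)]
    refine integral_mono (S.integrableOn_sq hb _) (S.integrableOn_sq hb _) fun x => ?_
    refine pow_le_pow_left₀ (norm_nonneg _) ?_ 2
    rw [hf, ← mul_assoc, S.mul_apply, norm_mul, norm_wS_ex hηi]
    exact le_mul_of_one_le_left (norm_nonneg _) (Real.one_le_exp (by positivity))
  have h5 : ∑ a, nsq (ball 0 R) (w * P.app f a : S) ≤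
      E ^ 2 * ∑ a, nsq univ ((P.conj τ θ).app φ a) := by
    rw [Finset.mul_sum]
    refine Finset.sum_le_sum fun a _ => ?_
    rw [nsq_univ_of_cs ((P.conj τ θ).app_cs hφ a), hf, P.conj_app, ← mul_assoc]
    refine nsq_mul_le hb measurableSet_ball (fun x hx => ?_) _
    rw [norm_wS_ex hηi]
    refine Real.exp_le_exp.2 (mul_le_mul_of_nonneg_left ?_ (by positivity))
    rw [← sq_abs]
    refine pow_le_pow_left₀ (abs_nonneg _) ((abs_real_inner_le_norm _ _).trans ?_) 2
    exact mul_le_mul_of_nonneg_left (mem_ball_zero_iff.1 hx).le (norm_nonneg _)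
  set X := ∑ a, nsq (ball 0 R) (w * f a : S)
  set Y := ∑ a, ∑ i, nsq (ball 0 R) (w * pd i (f a) : S)
  set Z := ∑ a, nsq (ball 0 R) (w * P.app f a : S)
  have hX0 : 0 ≤ X := Finset.sum_nonneg fun a _ => nsq_nonneg _ _
  have hY0 : 0 ≤ Y := Finset.sum_nonneg fun a _ => Finset.sum_nonneg fun i _ => nsq_nonneg _ _
  have h6 : X ≤ τ ^ 2 * X := le_mul_of_one_le_left hX0 (one_le_pow₀ hτ1)
  have h7 := mul_le_mul_of_nonneg_left h1 hC₀.le
  have h8 := mul_le_mul_of_nonneg_left h6 (mul_nonneg hC₀.le hN)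
  have h9 : τ ^ 2 * X ≤ 2 * C₀ * Z := by
    rw [hK] at h3
    nlinarith
  have h10 := mul_le_mul_of_nonneg_left h4 (sq_nonneg τ)
  have h11 := mul_le_mul_of_nonneg_left h5 (by positivity : 0 ≤ 2 * C₀)
  linarith

end Crest.Agent.R080
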