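import Crest.Agent.R080.Defs

/-!
Row 80: smooth families of bounded continuous functions.
-/

set_option autoImplicit false

open MeasureTheory Set Metric Filter Topology
open scoped ContDiff BoundedContinuousFunction

noncomputable section

namespace Crest.Agent.R080

theorem dba_cont {E : Type} [NormedAddCommGroup E] (F : R3 → R3 → E)
    (hF : Continuous (Function.uncurry F)) {R₀ : ℝ} (h0 : ∀ t x, R₀ < ‖x + t‖ → F t x = 0) :
    ∃ Φ : R3 → (R3 →ᵇ E), Continuous Φ ∧ ∀ t x, Φ t x = F t x := by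
  have hc : ∀ t, Continuous (F t) := fun t => hF.comp (Continuous.prodMk_right t)
  have hz : ∀ t s x, ‖s - t‖ < 1 → x ∉ closedBall (0 : R3) (R₀ + ‖t‖ + 1) → F s x = 0 := by
    intro t s x hs hx
    rw [mem_closedBall_zero_iff, not_le] at hx
    refine h0 s x ?_
    have h1 : ‖x‖ ≤ ‖x + s‖ + ‖s - t‖ + ‖t‖ := by
      have e : x = (x + s) - (s - t) - t := by abel
      calc ‖x‖ = ‖(x + s) - (s - t) - t‖ := by rw [← e]
        _ ≤ ‖(x + s) - (s - t)‖ + ‖t‖ := norm_sub_le _ _
        _ ≤ _ := by gcongr; exact norm_sub_le _ _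
    linarith
  have hb : ∀ t, ∃ C, ∀ x, ‖F t x‖ ≤ C := fun t =>
    (hc t).bounded_above_of_compact_support (HasCompactSupport.intro
      (isCompact_closedBall (0 : R3) (R₀ + ‖t‖ + 1)) fun x hx => hz t t x (by simp) hx)
  choose C hC using hb
  refine ⟨fun t => BoundedContinuousFunction.ofNormedAddCommGroup (F t) (hc t) (C t) (hC t),
    continuous_iff_continuousAt.2 fun t => ?_, fun _ _ => rfl⟩
  rw [Metric.continuousAt_iff']
  intro ε hε
  obtain ⟨v, hv, hv'⟩ := (isCompact_closedBall (0 : R3) (R₀ + ‖t‖ + 1)).mem_uniformity_of_prod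
    (f := F) (s := univ) (q := t) hF.continuousOn (mem_univ _) (dist_mem_uniformity (half_pos hε))
  rw [nhdsWithin_univ] at hv
  filter_upwards [hv, ball_mem_nhds t one_pos] with s hs hs'
  refine lt_of_le_of_lt ((BoundedContinuousFunction.dist_le (half_pos hε).le).2 fun x => ?_)
    (half_lt_self hε)
  show dist (F s x) (F t x) ≤ ε / 2
  by_cases hx : x ∈ closedBall (0 : R3) (R₀ + ‖t‖ + 1)
  · exact le_of_lt (hv' s hs x hx)
  · rw [hz t s x (by rwa [mem_ball, dist_eq_norm] at hs') hx, hz t t x (by simp) hx, dist_self]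
    exact (half_pos hε).le

theorem dba_contDiff (n : ℕ) : ∀ (F : R3 → R3 → ℂ) (_ : ContDiff ℝ ∞ (Function.uncurry F))
    {R₀ : ℝ} (_ : ∀ t x, R₀ < ‖x + t‖ → F t x = 0) (Φ : R3 → (R3 →ᵇ ℂ))
    (_ : ∀ t x, Φ t x = F t x), ContDiff ℝ n Φ := by
  induction n with
  | zero =>
    intro F hF R₀ h0 Φ hΦ
    obtain ⟨Φ', h1, h2⟩ := dba_cont F hF.continuous h0
    obtain rfl : Φ = Φ' := by
      funext t
      ext x
      rw [hΦ, h2]
    exact contDiff_zero.2 h1
  | succ n ih =>
    intro F hF R₀ h0 Φ hΦ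
    set D : R3 → R3 → (R3 →L[ℝ] ℂ) := fun t x =>
      (fderiv ℝ (Function.uncurry F) (t, x)).comp (ContinuousLinearMap.inl ℝ R3 R3) with hD
    have hDs : ContDiff ℝ ∞ (Function.uncurry D) :=
      (hF.fderiv_right (m := ∞) (by norm_cast)).clm_comp contDiff_const
    have hD0 : ∀ t x, R₀ < ‖x + t‖ → D t x = 0 := by
      intro t x h
      have h1 : Function.uncurry F =ᶠ[𝓝 (t, x)] fun _ => 0 := by
        have : IsOpen {p : R3 × R3 | R₀ < ‖p.2 + p.1‖} := isOpen_lt continuous_const (by fun_prop)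
        filter_upwards [this.mem_nhds h] with p hp
        exact h0 p.1 p.2 hp
      simp only [hD]
      rw [h1.fderiv_eq, fderiv_fun_const]
      simp
    have hder : ∀ t x, HasFDerivAt (fun s => F s x) (D t x) t := fun t x =>
      HasFDerivAt.comp (g := Function.uncurry F) (f := fun s => (s, x)) t
        ((hF.differentiable (by simp)) (t, x)).hasFDerivAt (hasFDerivAt_prodMk_left (𝕜 := ℝ) t x)
    obtain ⟨Ψ, hΨc, hΨ⟩ := dba_cont D hDs.continuous hD0
    let L : R3 → (R3 →ₗ[ℝ] (R3 →ᵇ ℂ)) := fun t =>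
      { toFun := fun v => (ContinuousLinearMap.apply ℝ ℂ v).compLeftContinuousBounded R3 (Ψ t)
        map_add' := fun v w => by ext x; simp
        map_smul' := fun c v => by ext x; simp }
    have hL : ∀ t v x, LinearMap.toContinuousLinearMap (L t) v x = D t x v := fun t v x => by
      rw [← hΨ]; rfl
    have hΦd : ∀ t, HasFDerivAt Φ (LinearMap.toContinuousLinearMap (L t)) t := by
      intro t
      rw [hasFDerivAt_iff_isLittleO_nhds_zero, Asymptotics.isLittleO_iff]
      intro ε hε
      obtain ⟨δ, hδ, hδ'⟩ := Metric.continuousAt_iff.1 (hΨc.continuousAt (x := t)) ε hε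
      filter_upwards [ball_mem_nhds (0 : R3) hδ] with h hh
      refine (BoundedContinuousFunction.norm_le (by positivity)).2 fun x => ?_
      have h1 := (convex_ball t δ).norm_image_sub_le_of_norm_hasFDerivWithin_le'
        (f := fun s => F s x) (f' := fun s => D s x) (φ := D t x) (C := ε)
        (fun s _ => (hder s x).hasFDerivWithinAt)
        (fun s hs => by
          rw [← hΨ, ← hΨ, ← dist_eq_norm]
          exact (BoundedContinuousFunction.dist_coe_le_dist x).trans (hδ' hs).le)
        (mem_ball_self hδ) (y := t + h) (by simpa using hh)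
      rw [add_sub_cancel_left] at h1
      rw [BoundedContinuousFunction.sub_apply, BoundedContinuousFunction.sub_apply, hL, hΦ, hΦ]
      exact h1
    rw [Nat.cast_succ, contDiff_succ_iff_fderiv_apply]
    refine ⟨fun t => (hΦd t).differentiableAt, by simp, fun v => ?_⟩
    refine ih (fun t x => D t x v) (hDs.clm_apply contDiff_const) (R₀ := R₀)
      (fun t x h => by rw [hD0 t x h]; rfl) _ fun t x => ?_
    rw [(hΦd t).fderiv, hL]

/-- Induction on `n` (for all such `F` at once): the family is `ContDiff ℝ n`. It is continuous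
(uniform continuity on compact sets), and differentiable in `t` with derivative in the direction `v`
the family of `fun t x => fderiv ℝ (uncurry F) (t, x) (v, 0)`, which satisfies the same hypotheses
(with a larger `R₀`); `contDiff_succ_iff_fderiv_apply`. -/
theorem exists_family (F : R3 → R3 → ℂ) (hF : ContDiff ℝ ∞ (Function.uncurry F)) {R₀ : ℝ}
    (h0 : ∀ t x, R₀ < ‖x + t‖ → F t x = 0) :
    ∃ Φ : R3 → (R3 →ᵇ ℂ), ContDiff ℝ ∞ Φ ∧ ∀ t x, Φ t x = F t x := by
  obtain ⟨Φ, -, hΦ⟩ := dba_cont F hF.continuous h0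
  exact ⟨Φ, contDiff_infty.2 fun n => dba_contDiff n F hF h0 Φ hΦ, hΦ⟩

end Crest.Agent.R080
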