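import Crest.Agent.R080.Defs

/-!
Row 80: the planar integral operator on bounded continuous functions.
-/

set_option autoImplicit false

open MeasureTheory Set Metric Filter Topology
open scoped ContDiff BoundedContinuousFunction

noncomputable section

namespace Crest.Agent.R080

variable {a b : R3}

theorem zl_iota (ha : ‖a‖ = 1) (hb : ‖b‖ = 1) (hab : inner ℝ a b = (0 : ℝ)) (w : ℂ) :
    zl a b (iota a b w) = w := by
  have hba : inner ℝ b a = (0 : ℝ) := by rw [real_inner_comm, hab]
  simp only [zl, iota, inner_add_right, real_inner_smul_right, real_inner_self_eq_norm_sq, ha, hb,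
    hab, hba]
  apply Complex.ext <;> simp

theorem zl_add (a b x y : R3) : zl a b (x + y) = zl a b x + zl a b y := by
  simp only [zl, inner_add_right]
  push_cast
  ring

theorem zl_sub (a b x y : R3) : zl a b (x - y) = zl a b x - zl a b y := by
  simp only [zl, inner_sub_right]
  push_cast
  ring

theorem norm_zl_le (ha : ‖a‖ = 1) (hb : ‖b‖ = 1) (x : R3) : ‖zl a b x‖ ≤ 2 * ‖x‖ := by
  have h1 := abs_real_inner_le_norm a x
  have h2 := abs_real_inner_le_norm b x
  rw [ha, one_mul] at h1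
  rw [hb, one_mul] at h2
  refine (norm_add_le _ _).trans ?_
  rw [norm_mul, Complex.norm_I, one_mul, Complex.norm_real, Complex.norm_real, Real.norm_eq_abs,
    Real.norm_eq_abs]
  linarith

theorem norm_dker (a b x₀ : R3) (K : ℝ) (x : R3) (w : ℂ) :
    ‖dker a b x₀ K x w‖ = (2 * Real.pi)⁻¹ * ‖w‖⁻¹ * Real.exp (-(K * ‖w‖ ^ 2 / 2)) := by
  rw [dker, norm_mul, norm_mul, norm_inv, norm_inv, norm_mul, Complex.norm_real,
    Real.norm_of_nonneg Real.pi_pos.le, Complex.norm_exp, Complex.add_re, Complex.neg_re,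
    Complex.ofReal_re, Complex.mul_re, Complex.ofReal_im]
  simp

/-- polar coordinates (`Complex.integral_comp_polarCoord_symm`), `integral_gaussian_Ioi` -/
theorem integral_majorant {K : ℝ} (hK : 0 < K) :
    Integrable (fun w : ℂ => (2 * Real.pi)⁻¹ * ‖w‖⁻¹ * Real.exp (-(K * ‖w‖ ^ 2 / 2))) ∧
    ∫ w : ℂ, (2 * Real.pi)⁻¹ * ‖w‖⁻¹ * Real.exp (-(K * ‖w‖ ^ 2 / 2)) = √(Real.pi / (2 * K)) := by
  have key : ∀ y ∈ Ioi (0 : ℝ), y ^ (Module.finrank ℝ ℂ - 1) •
      ((2 * Real.pi)⁻¹ * y⁻¹ * Real.exp (-(K * y ^ 2 / 2))) =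
      (2 * Real.pi)⁻¹ * Real.exp (-(K / 2) * y ^ 2) := by
    intro y hy
    have hy' : y ≠ 0 := ne_of_gt hy
    rw [Complex.finrank_real_complex, smul_eq_mul,
      show -(K / 2) * y ^ 2 = -(K * y ^ 2 / 2) by ring]
    norm_num
    field_simp
  constructor
  · refine (integrable_fun_norm_addHaar (volume : Measure ℂ)
      (f := fun y : ℝ => (2 * Real.pi)⁻¹ * y⁻¹ * Real.exp (-(K * y ^ 2 / 2)))).2 ?_
    refine (integrableOn_congr_fun key measurableSet_Ioi).2 ?_
    exact ((integrable_exp_neg_mul_sq (half_pos hK)).const_mul _).integrableOn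
  · rw [integral_fun_norm_addHaar (volume : Measure ℂ)
      (fun y : ℝ => (2 * Real.pi)⁻¹ * y⁻¹ * Real.exp (-(K * y ^ 2 / 2))),
      setIntegral_congr_fun measurableSet_Ioi key, integral_const_mul, integral_gaussian_Ioi,
      Complex.finrank_real_complex, Measure.real, Complex.volume_ball]
    have h1 : √(Real.pi / (K / 2)) = 2 * √(Real.pi / (2 * K)) := by
      rw [show Real.pi / (K / 2) = 2 ^ 2 * (Real.pi / (2 * K)) by field_simp,
        Real.sqrt_mul (by norm_num), Real.sqrt_sq (by norm_num)]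
    rw [h1]
    have := Real.pi_pos
    simp
    field_simp

theorem continuous_zl (a b : R3) : Continuous (zl a b) := by
  unfold zl
  fun_prop

theorem continuous_iota (a b : R3) : Continuous (iota a b) := by
  unfold iota
  fun_prop

theorem measurable_dker (a b x₀ : R3) (K : ℝ) (x : R3) : Measurable (dker a b x₀ K x) := by
  unfold dker
  exact (measurable_const.mul measurable_inv).mul (Continuous.measurable (by fun_prop))

theorem continuous_dker (a b x₀ : R3) (K : ℝ) (w : ℂ) : Continuous (fun x => dker a b x₀ K x w) := by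
  have := continuous_zl a b
  unfold dker
  fun_prop

theorem norm_dker_mul_le (a b x₀ : R3) (K : ℝ) (h : R3 →ᵇ ℂ) (x : R3) (w : ℂ) :
    ‖dker a b x₀ K x w * h (x - iota a b w)‖ ≤
      (2 * Real.pi)⁻¹ * ‖w‖⁻¹ * Real.exp (-(K * ‖w‖ ^ 2 / 2)) * ‖h‖ := by
  rw [norm_mul, ← norm_dker a b x₀ K x w]
  exact mul_le_mul_of_nonneg_left (h.norm_coe_le_norm _) (norm_nonneg _)

theorem aesm_dker_mul (a b x₀ : R3) (K : ℝ) (h : R3 →ᵇ ℂ) (x : R3) :
    AEStronglyMeasurable (fun w => dker a b x₀ K x w * h (x - iota a b w)) volume :=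
  ((measurable_dker a b x₀ K x).mul
    (h.continuous.comp (continuous_const.sub (continuous_iota a b))).measurable).aestronglyMeasurable

theorem integrable_dker_mul (a b x₀ : R3) {K : ℝ} (hK : 0 < K) (h : R3 →ᵇ ℂ) (x : R3) :
    Integrable (fun w => dker a b x₀ K x w * h (x - iota a b w)) :=
  ((integral_majorant hK).1.mul_const ‖h‖).mono' (aesm_dker_mul a b x₀ K h x)
    (Eventually.of_forall (norm_dker_mul_le a b x₀ K h x))

theorem exists_T (a b x₀ : R3) {K : ℝ} (hK : 0 < K) :
    ∃ T : (R3 →ᵇ ℂ) →L[ℂ] (R3 →ᵇ ℂ), ‖T‖ ≤ √(Real.pi / (2 * K)) ∧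
      ∀ h x, T h x = ∫ w : ℂ, dker a b x₀ K x w * h (x - iota a b w) := by
  have hc : ∀ h : R3 →ᵇ ℂ, Continuous fun x => ∫ w : ℂ, dker a b x₀ K x w * h (x - iota a b w) :=
    fun h => continuous_of_dominated (aesm_dker_mul a b x₀ K h)
      (fun x => Eventually.of_forall (norm_dker_mul_le a b x₀ K h x))
      ((integral_majorant hK).1.mul_const ‖h‖)
      (Eventually.of_forall fun w => (continuous_dker a b x₀ K w).mul
        (h.continuous.comp (continuous_id.sub continuous_const)))
  have hb : ∀ (h : R3 →ᵇ ℂ) x, ‖∫ w : ℂ, dker a b x₀ K x w * h (x - iota a b w)‖ ≤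
      √(Real.pi / (2 * K)) * ‖h‖ := fun h x => by
    rw [← (integral_majorant hK).2, ← integral_mul_const]
    exact norm_integral_le_of_norm_le ((integral_majorant hK).1.mul_const ‖h‖)
      (Eventually.of_forall (norm_dker_mul_le a b x₀ K h x))
  let T₀ : (R3 →ᵇ ℂ) →ₗ[ℂ] (R3 →ᵇ ℂ) :=
    { toFun := fun h => BoundedContinuousFunction.ofNormedAddCommGroup _ (hc h) _ (hb h)
      map_add' := fun h g => by
        ext x
        simp only [BoundedContinuousFunction.coe_ofNormedAddCommGroup,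
          BoundedContinuousFunction.add_apply, mul_add]
        exact integral_add (integrable_dker_mul a b x₀ hK h x) (integrable_dker_mul a b x₀ hK g x)
      map_smul' := fun c h => by
        ext x
        simp only [BoundedContinuousFunction.coe_ofNormedAddCommGroup,
          BoundedContinuousFunction.smul_apply, smul_eq_mul, RingHom.id_apply]
        rw [← integral_const_mul]
        congr 1
        ext w
        ring }
  have hT : ∀ h, ‖T₀ h‖ ≤ √(Real.pi / (2 * K)) * ‖h‖ := fun h =>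
    BoundedContinuousFunction.norm_ofNormedAddCommGroup_le (hc h) (by positivity) (hb h)
  exact ⟨T₀.mkContinuous _ hT, T₀.mkContinuous_norm_le (Real.sqrt_nonneg _) hT, fun h x => rfl⟩

theorem norm_mph (a b x₀ : R3) (K : ℝ) (t x : R3) : ‖mph a b x₀ K t x‖ = 1 := by
  rw [mph, Complex.norm_exp, Complex.neg_re, Complex.mul_re, Complex.ofReal_im]
  simp

/-- the magnetic translations -/
theorem exists_U (a b x₀ : R3) (K : ℝ) (t : R3) :
    ∃ U : (R3 →ᵇ ℂ) →L[ℂ] (R3 →ᵇ ℂ), ∀ h x, U h x = mph a b x₀ K t x * h (x + t) := by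
  have hm : Continuous (mph a b x₀ K t) := by
    have := continuous_zl a b
    unfold mph
    fun_prop
  have hc : ∀ h : R3 →ᵇ ℂ, Continuous fun x => mph a b x₀ K t x * h (x + t) :=
    fun h => hm.mul (h.continuous.comp (continuous_id.add continuous_const))
  have hb : ∀ (h : R3 →ᵇ ℂ) x, ‖mph a b x₀ K t x * h (x + t)‖ ≤ 1 * ‖h‖ := fun h x => by
    rw [norm_mul, norm_mph]
    exact mul_le_mul_of_nonneg_left (h.norm_coe_le_norm _) zero_le_one
  let U₀ : (R3 →ᵇ ℂ) →ₗ[ℂ] (R3 →ᵇ ℂ) :=
    { toFun := fun h => BoundedContinuousFunction.ofNormedAddCommGroup _ (hc h) _ (hb h)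
      map_add' := fun h g => by
        ext x
        simp only [BoundedContinuousFunction.coe_ofNormedAddCommGroup,
          BoundedContinuousFunction.add_apply, mul_add]
      map_smul' := fun c h => by
        ext x
        simp only [BoundedContinuousFunction.coe_ofNormedAddCommGroup,
          BoundedContinuousFunction.smul_apply, smul_eq_mul, RingHom.id_apply]
        ring }
  have hU : ∀ h, ‖U₀ h‖ ≤ 1 * ‖h‖ := fun h =>
    BoundedContinuousFunction.norm_ofNormedAddCommGroup_le (hc h) (by positivity) (hb h)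
  exact ⟨U₀.mkContinuous _ hU, fun h x => rfl⟩

/-- the kernel commutes with the magnetic translations -/
theorem dker_mph (ha : ‖a‖ = 1) (hb : ‖b‖ = 1) (hab : inner ℝ a b = (0 : ℝ)) (x₀ : R3) (K : ℝ)
    (t x : R3) (w : ℂ) :
    dker a b x₀ K x w * mph a b x₀ K t (x - iota a b w) =
      mph a b x₀ K t x * dker a b x₀ K (x + t) w := by
  have e1 : zl a b (x - iota a b w - x₀) = zl a b (x - x₀) - w := by
    rw [sub_right_comm, zl_sub a b (x - x₀), zl_iota ha hb hab]
  have e2 : zl a b (x + t - x₀) = zl a b (x - x₀) + zl a b t := by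
    rw [add_sub_right_comm, zl_add]
  rw [dker, dker, mph, mph, e1, e2, mul_assoc, ← Complex.exp_add, mul_left_comm (Complex.exp _),
    ← Complex.exp_add, map_add, mul_add w, sub_mul, Complex.add_im, Complex.sub_im]
  congr 2
  push_cast
  ring

theorem mph_ne_zero (a b x₀ : R3) (K : ℝ) (t x : R3) : mph a b x₀ K t x ≠ 0 :=
  Complex.exp_ne_zero _

theorem mph_base (a b x₀ : R3) (K : ℝ) (t : R3) : mph a b x₀ K t x₀ = 1 := by
  simp [mph, zl]

theorem contDiff_mph (a b x₀ : R3) (K : ℝ) :
    ContDiff ℝ ∞ (Function.uncurry (mph a b x₀ K)) := by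
  have hz : ContDiff ℝ ∞ (zl a b) :=
    (Complex.ofRealCLM.contDiff.comp (contDiff_const.inner ℝ contDiff_id)).add
      (contDiff_const.mul (Complex.ofRealCLM.contDiff.comp (contDiff_const.inner ℝ contDiff_id)))
  have h1 : ContDiff ℝ ∞ fun p : R3 × R3 => zl a b (p.2 - x₀) * (starRingEnd ℂ) (zl a b p.1) :=
    (hz.comp (contDiff_snd.sub contDiff_const)).mul
      (Complex.conjCLE.contDiff.comp (hz.comp contDiff_fst))
  exact (contDiff_const.mul (Complex.ofRealCLM.contDiff.comp
    (contDiff_const.mul (Complex.imCLM.contDiff.comp h1)))).neg.cexp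

end Crest.Agent.R080
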