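import Crest.Agent.R080.Defs

/-!
Row 80: elementary facts on `nsq`, `Conv`, integrals of smooth functions.
-/

set_option autoImplicit false

open MeasureTheory Set Metric Filter Topology
open scoped ContDiff

noncomputable section

namespace Crest.Agent.R080

/-- `rw [mul_neg]`, `simp` do not see `mul_neg`, `neg_mul` on `S` (instance paths); use these. -/
@[simp] theorem S.mul_neg' (f g : S) : f * -g = -(f * g) := mul_neg f g
@[simp] theorem S.neg_mul' (f g : S) : -f * g = -(f * g) := neg_mul f g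

theorem S.bdd_on {U : Set R3} (hU : Bornology.IsBounded U) (f : S) :
    ∃ C : ℝ, 0 ≤ C ∧ ∀ x ∈ U, ‖f x‖ ≤ C := by
  obtain ⟨C, hC⟩ := hU.isCompact_closure.exists_bound_of_continuousOn f.cont.continuousOn
  exact ⟨max C 0, le_max_right _ _, fun x hx => (hC x (subset_closure hx)).trans (le_max_left _ _)⟩

theorem S.integrableOn {U : Set R3} (hU : Bornology.IsBounded U) (f : S) :
    IntegrableOn (f : R3 → ℂ) U := by
  exact (f.cont.continuousOn.integrableOn_compact hU.isCompact_closure).mono_set subset_closure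

theorem S.integrableOn_sq {U : Set R3} (hU : Bornology.IsBounded U) (f : S) :
    IntegrableOn (fun x => ‖f x‖ ^ 2) U := by
  exact ((f.cont.norm.pow 2).continuousOn.integrableOn_compact hU.isCompact_closure).mono_set
    subset_closure

theorem S.integrable {f : S} (hf : HasCompactSupport (f : R3 → ℂ)) : Integrable (f : R3 → ℂ) :=
  f.cont.integrable_of_hasCompactSupport hf

theorem integral_add' {U : Set R3} (hU : Bornology.IsBounded U) (f g : S) :
    ∫ x in U, (f + g) x = (∫ x in U, f x) + ∫ x in U, g x := by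
  exact integral_add (S.integrableOn hU f) (S.integrableOn hU g)

theorem integral_sub' {U : Set R3} (hU : Bornology.IsBounded U) (f g : S) :
    ∫ x in U, (f - g) x = (∫ x in U, f x) - ∫ x in U, g x := by
  exact integral_sub (S.integrableOn hU f) (S.integrableOn hU g)

theorem integral_smul' (U : Set R3) (c : ℂ) (f : S) :
    ∫ x in U, (c • f) x = c * ∫ x in U, f x := by
  exact integral_const_mul c _

theorem integral_sum' {U : Set R3} (hU : Bornology.IsBounded U) {ι : Type*} (s : Finset ι)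
    (f : ι → S) : ∫ x in U, (∑ i ∈ s, f i) x = ∑ i ∈ s, ∫ x in U, f i x := by
  simp only [S.sum_apply]
  exact integral_finsetSum s fun i _ => S.integrableOn hU (f i)

/-- integration over a bounded set as a linear functional -/
def intL (U : Set R3) (hU : Bornology.IsBounded U) : S →ₗ[ℂ] ℂ where
  toFun f := ∫ x in U, f x
  map_add' := integral_add' hU
  map_smul' := integral_smul' U

theorem intL_apply (U : Set R3) (hU : Bornology.IsBounded U) (f : S) :
    intL U hU f = ∫ x in U, f x := rfl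

theorem nsq_nonneg (U : Set R3) (f : R3 → ℂ) : 0 ≤ nsq U f := by
  exact integral_nonneg fun x => by positivity

theorem nsq_mono {U V : Set R3} (hUV : U ⊆ V) (hV : Bornology.IsBounded V) (f : S) :
    nsq U f ≤ nsq V f := by
  exact setIntegral_mono_set (S.integrableOn_sq hV f) (ae_of_all _ fun x => by positivity)
    hUV.eventuallyLE

theorem nsq_congr {U : Set R3} (hU : MeasurableSet U) {f g : R3 → ℂ} (h : ∀ x ∈ U, f x = g x) :
    nsq U f = nsq U g := by
  exact setIntegral_congr_fun hU fun x hx => by simp only [h x hx]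

theorem nsq_add_le {U : Set R3} (hU : Bornology.IsBounded U) (f g : S) :
    nsq U (f + g : S) ≤ 2 * nsq U f + 2 * nsq U g := by
  unfold nsq
  rw [← integral_const_mul, ← integral_const_mul, ← integral_add
    ((S.integrableOn_sq hU f).const_mul 2) ((S.integrableOn_sq hU g).const_mul 2)]
  refine integral_mono (S.integrableOn_sq hU (f + g))
    (((S.integrableOn_sq hU f).const_mul 2).add ((S.integrableOn_sq hU g).const_mul 2)) fun x => ?_
  have h := norm_add_le (f x) (g x)
  have h2 := pow_le_pow_left₀ (norm_nonneg _) h 2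
  simp only [S.add_apply]
  nlinarith [sq_nonneg (‖f x‖ - ‖g x‖)]

theorem nsq_sum_le {U : Set R3} (hU : Bornology.IsBounded U) {ι : Type*} (s : Finset ι)
    (f : ι → S) : nsq U (∑ i ∈ s, f i : S) ≤ s.card * ∑ i ∈ s, nsq U (f i) := by
  unfold nsq
  rw [← integral_finsetSum s fun i _ => S.integrableOn_sq hU (f i), ← integral_const_mul]
  refine integral_mono (S.integrableOn_sq hU _)
    ((integrable_finsetSum s fun i _ => S.integrableOn_sq hU (f i)).const_mul _) fun x => ?_
  simp only [S.sum_apply]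
  exact (pow_le_pow_left₀ (norm_nonneg _) (norm_sum_le s fun i => f i x) 2).trans
    sq_sum_le_card_mul_sum_sq

theorem nsq_smul (U : Set R3) (c : ℂ) (f : S) : nsq U (c • f : S) = ‖c‖ ^ 2 * nsq U f := by
  unfold nsq
  rw [← integral_const_mul]
  simp only [S.smul_apply, norm_mul, mul_pow]

theorem nsq_neg (U : Set R3) (f : S) : nsq U (-f : S) = nsq U f := by
  unfold nsq
  simp only [S.neg_apply, norm_neg]

theorem nsq_mul_le {U : Set R3} (hU : Bornology.IsBounded U) (hm : MeasurableSet U) {a : S} {C : ℝ}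
    (h : ∀ x ∈ U, ‖a x‖ ≤ C) (f : S) : nsq U (a * f : S) ≤ C ^ 2 * nsq U f := by
  unfold nsq
  rw [← integral_const_mul]
  refine setIntegral_mono_on (S.integrableOn_sq hU _) ((S.integrableOn_sq hU f).const_mul _) hm
    fun x hx => ?_
  simp only [S.mul_apply, norm_mul, mul_pow]
  exact mul_le_mul_of_nonneg_right (pow_le_pow_left₀ (norm_nonneg _) (h x hx) 2) (by positivity)

/-- for a function supported in `U` the norms over `U` and over the whole space agree -/
theorem nsq_univ_of_cs {U : Set R3} {f : S} (hf : Cs U f) : nsq univ f = nsq U f := by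
  unfold nsq
  rw [Measure.restrict_univ, setIntegral_eq_integral_of_forall_compl_eq_zero]
  intro x hx
  rw [image_eq_zero_of_notMem_tsupport fun h => hx (hf.2 h)]
  simp

theorem norm_integral_mul_le {U : Set R3} (hU : Bornology.IsBounded U) (f g : S) :
    ‖∫ x in U, (f * g) x‖ ≤ √(nsq U f) * √(nsq U g) := by
  have hm : ∀ f : S, MemLp (fun x => ‖f x‖) (ENNReal.ofReal 2) (volume.restrict U) := fun f => by
    rw [ENNReal.ofReal_ofNat]
    exact (memLp_two_iff_integrable_sq f.cont.norm.aestronglyMeasurable).2 (S.integrableOn_sq hU f)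
  have h := integral_mul_le_Lp_mul_Lq_of_nonneg (μ := volume.restrict U) Real.HolderConjugate.two_two
    (ae_of_all _ fun x => norm_nonneg (f x)) (ae_of_all _ fun x => norm_nonneg (g x)) (hm f) (hm g)
  refine (norm_integral_le_integral_norm _).trans ?_
  simp only [S.mul_apply, norm_mul]
  refine h.trans (le_of_eq ?_)
  simp only [nsq, Real.sqrt_eq_rpow, Real.rpow_two]

namespace Cs
variable {U : Set R3}

theorem zero : Cs U 0 := by
  have h : tsupport ((0 : S) : R3 → ℂ) = ∅ := tsupport_eq_empty_iff.2 rfl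
  exact ⟨HasCompactSupport.zero, by rw [h]; exact empty_subset _⟩

theorem add {f g : S} (hf : Cs U f) (hg : Cs U g) : Cs U (f + g) := by
  exact ⟨hf.1.add hg.1, (tsupport_add _ _).trans (union_subset hf.2 hg.2)⟩

theorem neg {f : S} (hf : Cs U f) : Cs U (-f) := by
  have h : tsupport ((-f : S) : R3 → ℂ) = tsupport (f : R3 → ℂ) := tsupport_neg _
  exact ⟨hf.1.neg, by rw [h]; exact hf.2⟩

theorem sub {f g : S} (hf : Cs U f) (hg : Cs U g) : Cs U (f - g) := by
  rw [sub_eq_add_neg]
  exact hf.add hg.neg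

theorem mul_left {f : S} (hf : Cs U f) (a : S) : Cs U (a * f) := by
  exact ⟨hf.1.mul_left, tsupport_mul_subset_right.trans hf.2⟩

theorem mul_right {f : S} (hf : Cs U f) (a : S) : Cs U (f * a) := by
  rw [mul_comm]
  exact hf.mul_left a

theorem smul {f : S} (hf : Cs U f) (c : ℂ) : Cs U (c • f) := by
  rw [Algebra.smul_def]
  exact hf.mul_left _

theorem sum {ι : Type*} (s : Finset ι) {f : ι → S} (hf : ∀ i ∈ s, Cs U (f i)) :
    Cs U (∑ i ∈ s, f i) := by
  exact Finset.sum_induction f (Cs U) (fun _ _ => add) zero hf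

theorem pd {f : S} (hf : Cs U f) (i : Fin 3) : Cs U (pd i f) := by
  have h : tsupport (R080.pd i f : R3 → ℂ) ⊆ tsupport (f : R3 → ℂ) := tsupport_fderiv_apply_subset ℝ (eb i)
  exact ⟨hf.1.of_isClosed_subset (isClosed_tsupport _) h, h.trans hf.2⟩

theorem conj {f : S} (hf : Cs U f) : Cs U (S.conj f) := by
  have h : tsupport (S.conj f : R3 → ℂ) ⊆ tsupport (f : R3 → ℂ) :=
    closure_mono fun x hx h0 => hx (by simp [h0])
  exact ⟨hf.1.of_isClosed_subset (isClosed_tsupport _) h, h.trans hf.2⟩

theorem lap {f : S} (hf : Cs U f) : Cs U (lap f) := by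
  exact sum _ fun i _ => (hf.pd i).pd i

theorem mono {V : Set R3} {f : S} (hf : Cs U f) (h : U ⊆ V) : Cs V f := ⟨hf.1, hf.2.trans h⟩

theorem eq_zero {f : S} (hf : Cs U f) {x : R3} (hx : x ∉ U) : f x = 0 := by
  exact image_eq_zero_of_notMem_tsupport fun h => hx (hf.2 h)

theorem setIntegral {f : S} (hf : Cs U f) : ∫ x in U, f x = ∫ x, f x := by
  exact setIntegral_eq_integral_of_forall_compl_eq_zero fun x hx => hf.eq_zero hx

end Cs

namespace Conv
variable {U : Set R3}

theorem const (f : S) : Conv U (fun _ => f) f := by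
  simp [Conv, nsq]

theorem congr (hm : MeasurableSet U) {F G : ℝ → S} {f g : S} (h : Conv U F f)
    (hFG : ∀ᶠ τ in atTop, ∀ x ∈ U, F τ x = G τ x) (hfg : ∀ x ∈ U, f x = g x) : Conv U G g := by
  refine Tendsto.congr' ?_ h
  filter_upwards [hFG] with τ hτ
  exact nsq_congr hm fun x hx => by simp [hτ x hx, hfg x hx]

theorem add (hU : Bornology.IsBounded U) {F G : ℝ → S} {f g : S} (hF : Conv U F f)
    (hG : Conv U G g) : Conv U (fun τ => F τ + G τ) (f + g) := by
  have h := (hF.const_mul 2).add (hG.const_mul 2)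
  simp only [mul_zero, add_zero] at h
  refine squeeze_zero (fun τ => nsq_nonneg _ _) (fun τ => ?_) h
  rw [add_sub_add_comm]
  exact nsq_add_le hU _ _

theorem neg {F : ℝ → S} {f : S} (hF : Conv U F f) : Conv U (fun τ => -F τ) (-f) := by
  refine Tendsto.congr (fun τ => ?_) hF
  rw [← nsq_neg, neg_sub, neg_sub_neg]

theorem sub (hU : Bornology.IsBounded U) {F G : ℝ → S} {f g : S} (hF : Conv U F f)
    (hG : Conv U G g) : Conv U (fun τ => F τ - G τ) (f - g) := by
  simp only [sub_eq_add_neg]
  exact hF.add hU hG.neg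

theorem smul {F : ℝ → S} {f : S} (hF : Conv U F f) (c : ℂ) :
    Conv U (fun τ => c • F τ) (c • f) := by
  have h := hF.const_mul (‖c‖ ^ 2)
  rw [mul_zero] at h
  refine Tendsto.congr (fun τ => ?_) h
  rw [← nsq_smul, smul_sub]

theorem mul_left (hU : Bornology.IsBounded U) {F : ℝ → S} {f : S} (hF : Conv U F f) (a : S) :
    Conv U (fun τ => a * F τ) (a * f) := by
  obtain ⟨C, -, hC⟩ := S.bdd_on hU.closure a
  have h := hF.const_mul (C ^ 2)
  rw [mul_zero] at h
  refine squeeze_zero (fun τ => nsq_nonneg _ _) (fun τ => ?_) h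
  rw [← mul_sub]
  unfold nsq
  rw [← integral_const_mul]
  refine integral_mono_ae (S.integrableOn_sq hU _) ((S.integrableOn_sq hU _).const_mul _) ?_
  filter_upwards [ae_restrict_of_ae_restrict_of_subset subset_closure
    (ae_restrict_mem isClosed_closure.measurableSet)] with x hx
  simp only [S.mul_apply, norm_mul, mul_pow]
  exact mul_le_mul_of_nonneg_right (pow_le_pow_left₀ (norm_nonneg _) (hC x hx) 2) (by positivity)

theorem mul_right (hU : Bornology.IsBounded U) {F : ℝ → S} {f : S} (hF : Conv U F f) (a : S) :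
    Conv U (fun τ => F τ * a) (f * a) := by
  simp only [mul_comm _ a]
  exact hF.mul_left hU a

theorem sum (hU : Bornology.IsBounded U) {ι : Type*} (s : Finset ι) {F : ι → ℝ → S} {f : ι → S}
    (hF : ∀ i ∈ s, Conv U (F i) (f i)) :
    Conv U (fun τ => ∑ i ∈ s, F i τ) (∑ i ∈ s, f i) := by
  classical
  induction s using Finset.induction_on with
  | empty => simpa using const (U := U) 0
  | insert i s hi ih =>
    simp only [Finset.sum_insert hi]
    exact (hF i (Finset.mem_insert_self _ _)).add hU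
      (ih fun j hj => hF j (Finset.mem_insert_of_mem hj))

theorem inv_smul (hU : Bornology.IsBounded U) {F : ℝ → S} {f : S} (hF : Conv U F f) :
    Conv U (fun τ => (τ : ℂ)⁻¹ • F τ) 0 := by
  have h1 : Tendsto (fun τ : ℝ => ‖(τ : ℂ)⁻¹‖ ^ 2) atTop (𝓝 0) := by
    have := (tendsto_inv_atTop_zero (𝕜 := ℝ)).abs.pow 2
    simpa using this
  have h2 := h1.mul ((hF.const_mul 2).add (tendsto_const_nhds (x := 2 * nsq U f)))
  rw [zero_mul] at h2
  refine squeeze_zero (fun τ => nsq_nonneg _ _) (fun τ => ?_) h2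
  rw [sub_zero, nsq_smul]
  refine mul_le_mul_of_nonneg_left ?_ (by positivity)
  have := nsq_add_le hU (F τ - f) f
  rwa [sub_add_cancel] at this

theorem of_le {F : ℝ → S} {C : ℝ} (h : ∀ᶠ τ in atTop, nsq U (F τ) ≤ C / τ ^ 2) : Conv U F 0 := by
  have h1 : Tendsto (fun τ : ℝ => C / τ ^ 2) atTop (𝓝 0) :=
    tendsto_const_nhds.div_atTop (tendsto_pow_atTop two_ne_zero)
  refine squeeze_zero' (Eventually.of_forall fun τ => nsq_nonneg _ _) ?_ h1
  simpa only [sub_zero] using h

theorem integral_mul (hU : Bornology.IsBounded U) {F G : ℝ → S} {f g : S} (hF : Conv U F f)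
    (hG : Conv U G g) :
    Tendsto (fun τ => ∫ x in U, (F τ * G τ) x) atTop (𝓝 (∫ x in U, (f * g) x)) := by
  rw [tendsto_iff_norm_sub_tendsto_zero]
  have h1 := hF.sqrt
  have h2 := hG.sqrt
  rw [Real.sqrt_zero] at h1 h2
  have h3 := ((h1.mul h2).add (h1.mul_const √(nsq U g))).add (h2.const_mul √(nsq U f))
  simp only [mul_zero, zero_mul, add_zero] at h3
  refine squeeze_zero (fun τ => norm_nonneg _) (fun τ => ?_) h3
  rw [← integral_sub' hU, show F τ * G τ - f * g =
    (F τ - f) * (G τ - g) + (F τ - f) * g + f * (G τ - g) by ring, integral_add' hU, integral_add' hU]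
  exact (norm_add_le _ _).trans (add_le_add ((norm_add_le _ _).trans
    (add_le_add (norm_integral_mul_le hU _ _) (norm_integral_mul_le hU _ _)))
    (norm_integral_mul_le hU _ _))

end Conv

theorem integral_pd {f : S} (hf : HasCompactSupport (f : R3 → ℂ)) (i : Fin 3) :
    ∫ x, pd i f x = 0 := by
  have hp : HasCompactSupport (pd i f : R3 → ℂ) := (Cs.pd (U := univ) ⟨hf, subset_univ _⟩ i).1
  have h := integral_mul_fderiv_eq_neg_fderiv_mul_of_integrable (μ := (volume : Measure R3))
    (f := fun _ : R3 => (1 : ℂ)) (g := (f : R3 → ℂ)) (v := eb i) (by simp)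
    (by simp only [one_mul]; exact S.integrable hp) (by simpa using S.integrable hf)
    (fun _ _ => differentiableAt_const _) (fun x _ => f.diff x)
  simpa [pd_apply] using h

theorem integral_mul_pd (f : S) {g : S} (hg : HasCompactSupport (g : R3 → ℂ)) (i : Fin 3) :
    ∫ x, (f * pd i g) x = -∫ x, (pd i f * g) x := by
  have hg' : Cs univ g := ⟨hg, subset_univ _⟩
  have h := integral_pd (hg'.mul_left f).1 i
  rw [pd_mul] at h
  simp only [S.add_apply] at h
  rw [integral_add (S.integrable ((hg'.pd i).mul_left f).1) (S.integrable (hg'.mul_right _).1)] at h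
  rw [mul_comm (pd i f)]
  exact eq_neg_of_add_eq_zero_left h

theorem pd_conj (i : Fin 3) (f : S) : pd i (S.conj f) = S.conj (pd i f) := by
  refine S.ext fun x => ?_
  change fderiv ℝ (Complex.conjCLE ∘ f) x (eb i) = _
  rw [(Complex.conjCLE.hasFDerivAt.comp x (f.diff x).hasFDerivAt).fderiv]
  rfl

/-- test with the conjugate function -/
theorem eq_zero_of_integral {U : Set R3} (hU : IsOpen U) (hb : Bornology.IsBounded U) (F : S)
    (h : ∀ g : S, ∫ x in U, (F * g) x = 0) : ∀ x ∈ U, F x = 0 := by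
  have h1 := h (S.conj F)
  simp only [S.mul_apply, S.conj_apply, Complex.mul_conj, Complex.normSq_eq_norm_sq] at h1
  rw [integral_complex_ofReal, Complex.ofReal_eq_zero,
    integral_eq_zero_iff_of_nonneg (fun x => by positivity) (S.integrableOn_sq hb F)] at h1
  intro x hx
  have h2 := Measure.eqOn_open_of_ae_eq h1 hU (F.cont.norm.pow 2).continuousOn continuousOn_const hx
  simpa using h2

theorem eq_zero_of_integral_cs {U : Set R3} (hU : IsOpen U) (F : S)
    (h : ∀ g : S, Cs U g → ∫ x, (F * g) x = 0) : ∀ x ∈ U, F x = 0 := by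
  intro x hx
  obtain ⟨φ, hφU, hφc, hφs, hφr, hφx⟩ := exists_contDiff_tsupport_subset (n := ⊤) (hU.mem_nhds hx)
  have hcs : Cs U (S.ofR φ hφs) := by
    have h : tsupport (S.ofR φ hφs : R3 → ℂ) ⊆ tsupport φ :=
      closure_mono fun y hy h0 => hy (by simp [h0])
    exact ⟨hφc.of_isClosed_subset (isClosed_tsupport _) h, h.trans hφU⟩
  have h1 := h _ (hcs.mul_left (S.conj F))
  have e : ∀ y, (F * (S.conj F * S.ofR φ hφs)) y = ((‖F y‖ ^ 2 * φ y : ℝ) : ℂ) := fun y => by
    simp only [S.mul_apply, S.conj_apply, S.ofR_apply, ← mul_assoc, Complex.mul_conj,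
      Complex.normSq_eq_norm_sq]
    push_cast
    ring
  simp only [e] at h1
  have hc : Continuous fun y => ‖F y‖ ^ 2 * φ y := (F.cont.norm.pow 2).mul hφs.continuous
  rw [integral_complex_ofReal, Complex.ofReal_eq_zero, integral_eq_zero_iff_of_nonneg
    (fun y => mul_nonneg (by positivity) (hφr ⟨y, rfl⟩).1)
    (hc.integrable_of_hasCompactSupport hφc.mul_left)] at h1
  have h2 := congrFun ((hc.ae_eq_iff_eq volume continuous_zero).1 h1) x
  simpa [hφx] using h2

/-- a real cutoff (`ContDiffBump`) -/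
theorem exists_cutoff {r R : ℝ} (hr : 0 < r) (hrR : r < R) :
    ∃ χ : S, Cs (ball 0 R) χ ∧ (∀ x ∈ ball (0 : R3) r, χ x = 1) ∧
      ∀ x, ∃ t : ℝ, 0 ≤ t ∧ t ≤ 1 ∧ χ x = t := by
  let b : ContDiffBump (0 : R3) := ⟨r, (r + R) / 2, hr, by linarith⟩
  refine ⟨S.ofR b b.contDiff, ?_, fun x hx => ?_, fun x => ⟨b x, b.nonneg, b.le_one, rfl⟩⟩
  · have h : tsupport (S.ofR b b.contDiff : R3 → ℂ) ⊆ tsupport b :=
      closure_mono fun y hy h0 => hy (by simp [h0])
    refine ⟨b.hasCompactSupport.of_isClosed_subset (isClosed_tsupport _) h, h.trans ?_⟩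
    rw [b.tsupport_eq]
    exact closedBall_subset_ball (by change (r + R) / 2 < R; linarith)
  · simp [b.one_of_mem_closedBall (ball_subset_closedBall hx)]

theorem Dv_mul (θ : C3) (f g : S) : Dv θ (f * g) = f * Dv θ g + g * Dv θ f := by
  simp only [Dv, pd_mul, smul_add, Finset.sum_add_distrib, Finset.mul_sum, mul_smul_comm]

theorem Dv_add (θ : C3) (f g : S) : Dv θ (f + g) = Dv θ f + Dv θ g := by
  simp only [Dv, map_add, smul_add, Finset.sum_add_distrib]

theorem Dv_sub (θ : C3) (f g : S) : Dv θ (f - g) = Dv θ f - Dv θ g := by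
  simp only [Dv, map_sub, smul_sub, Finset.sum_sub_distrib]

theorem Dv_neg (θ : C3) (f : S) : Dv θ (-f) = -Dv θ f := by
  simp only [Dv, map_neg, smul_neg, Finset.sum_neg_distrib]

theorem Dv_smul (θ : C3) (c : ℂ) (f : S) : Dv θ (c • f) = c • Dv θ f := by
  simp only [Dv, Derivation.map_smul, Finset.smul_sum, smul_comm c]

theorem Dv_sum (θ : C3) {ι : Type*} (s : Finset ι) (f : ι → S) :
    Dv θ (∑ i ∈ s, f i) = ∑ i ∈ s, Dv θ (f i) := by
  simp only [Dv, map_sum, Finset.smul_sum]
  exact Finset.sum_comm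

theorem Dv_one (θ : C3) : Dv θ 1 = 0 := by
  simp [Dv]

theorem Dv_exp (θ : C3) (f : S) : Dv θ (S.exp f) = S.exp f * Dv θ f := by
  simp only [Dv, pd_exp, Finset.mul_sum, mul_smul_comm]

theorem Dv_congr {U : Set R3} (hU : IsOpen U) {f g : S} (h : ∀ x ∈ U, f x = g x) (θ : C3) :
    ∀ x ∈ U, Dv θ f x = Dv θ g x := by
  intro x hx
  simp only [Dv, S.sum_apply, S.smul_apply, pd_congr hU h _ x hx]

theorem Null.re_ne {θ : C3} (h : Null θ) : ∃ i, (θ i).re ≠ 0 := by
  by_contra hc
  push Not at hc
  have h1 := congrArg Complex.re h.1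
  simp only [dot, Fin.sum_univ_three, Complex.add_re, Complex.mul_re, hc, Complex.zero_re] at h1
  refine h.2 (funext fun i => Complex.ext (hc i) ?_)
  have h2 : (θ i).im * (θ i).im = 0 := by
    fin_cases i <;> simp only [Fin.reduceFinMk, Fin.zero_eta, Fin.mk_one] <;>
      nlinarith [mul_self_nonneg (θ 0).im, mul_self_nonneg (θ 1).im, mul_self_nonneg (θ 2).im]
  simpa using h2

theorem Null.neg {θ : C3} (h : Null θ) : Null (-θ) := by
  exact ⟨by simpa [dot] using h.1, neg_ne_zero.2 h.2⟩

theorem null_th (ζ : ℂ) : Null (th ζ) := by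
  refine ⟨?_, fun h => ?_⟩
  · simp only [dot, th, Fin.sum_univ_three, Matrix.cons_val_zero, Matrix.cons_val_one,
      Matrix.cons_val]
    linear_combination (1 + ζ ^ 2) ^ 2 * Complex.I_mul_I
  · have h0 := congrFun h 0
    have h2 := congrFun h 2
    simp only [th, Matrix.cons_val_zero, Matrix.cons_val, Pi.zero_apply] at h0 h2
    have : ζ = 0 := by linear_combination h2 / 2
    simp [this] at h0

theorem ex_neg (τ : ℝ) (θ : C3) : ex τ (-θ) = ex (-τ) θ := by
  simp only [ex, dotS, Pi.neg_apply, neg_smul, Finset.sum_neg_distrib, smul_neg, Complex.ofReal_neg]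

end Crest.Agent.R080
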