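import Crest.Agent.R080.DBb
import Crest.Agent.R080.L2
import Crest.Agent.R101.Pompeiu

/-!
Row 80: the planar integral operator inverts `D + K z`.
-/

set_option autoImplicit false

open MeasureTheory Set Metric Filter Topology
open scoped ContDiff

noncomputable section

namespace Crest.Agent.R080

theorem dbc_locInt : LocallyIntegrable (fun w : ℂ => w⁻¹) := by
  refine locallyIntegrable_of_norm_le_rpow (C := 1) (α := 1) (by simp) (by simp)
    (Eventually.of_forall fun w => ?_) measurable_inv.aestronglyMeasurable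
  rw [norm_inv, one_mul, Real.rpow_neg_one]

theorem dbc_int {g : ℂ → ℂ} (hg : Continuous g) {R : ℝ} (h0 : ∀ w, R ≤ ‖w‖ → g w = 0) :
    Integrable (fun w : ℂ => w⁻¹ * g w) :=
  dbc_locInt.integrable_smul_right_of_hasCompactSupport hg
    (HasCompactSupport.intro (isCompact_closedBall (0 : ℂ) R) fun w hw => h0 w (by
      rw [mem_closedBall, dist_zero_right] at hw
      exact (not_le.1 hw).le))

/-- the Cauchy–Pompeiu formula at the origin -/
theorem dbc_pom {G : ℂ → ℂ} (hG : ContDiff ℝ 1 G) {R : ℝ} (hR : 0 < R)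
    (h0 : ∀ w, R ≤ ‖w‖ → G w = 0) :
    ∫ w : ℂ, w⁻¹ * (fderiv ℝ G w 1 + Complex.I * fderiv ℝ G w Complex.I) =
      -(2 * Real.pi) * G 0 := by
  set ρ : ℝ := 2 * R with hρ
  have hρ0 : 0 < ρ := by positivity
  have hd : Differentiable ℝ G := hG.differentiable one_ne_zero
  have hT : ContDiff ℝ 1 fun z : ℂ => G (ρ • z) := hG.comp (contDiff_const_smul ρ)
  have hfd : ∀ z u : ℂ, fderiv ℝ (fun z : ℂ => G (ρ • z)) z u = ρ * fderiv ℝ G (ρ • z) u := by
    intro z u
    have := (hd (ρ • z)).hasFDerivAt.comp z ((hasFDerivAt_id z).const_smul ρ)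
    rw [show (fun z : ℂ => G (ρ • z)) = G ∘ HSMul.hSMul ρ from rfl, this.fderiv]
    simp
  have hfar : ∀ z : ℂ, 1 ≤ ‖z‖ → (fun z : ℂ => G (ρ • z)) =ᶠ[𝓝 z] fun _ => 0 := by
    intro z hz
    have : ∀ᶠ w in 𝓝 z, (1 / 2 : ℝ) < ‖w‖ :=
      continuous_norm.continuousAt.eventually (lt_mem_nhds (by linarith))
    filter_upwards [this] with w hw
    refine h0 _ ?_
    rw [norm_smul, Real.norm_of_nonneg hρ0.le, hρ]
    nlinarith
  have key := R101.pom_global _ hT (fun z hz => ⟨(hfar z hz).eq_of_nhds, by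
    rw [(hfar z hz).fderiv_eq]; simp⟩) (y := 0) (by simp)
  have e1 : ∀ z : ℂ, R101.wd Complex.I (fun z : ℂ => G (ρ • z)) z / (z - 0) =
      ((ρ : ℂ) ^ 2 / 2) * ((ρ • z)⁻¹ * (fderiv ℝ G (ρ • z) 1 +
        Complex.I * fderiv ℝ G (ρ • z) Complex.I)) := by
    intro z
    have hρ' : (ρ : ℂ) ≠ 0 := by exact_mod_cast hρ0.ne'
    rw [R101.wd, hfd, hfd, sub_zero, Complex.real_smul, mul_inv, div_eq_mul_inv _ z]
    field_simp
  simp only [e1] at key
  rw [integral_const_mul, Measure.integral_comp_smul volume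
    (fun w : ℂ => w⁻¹ * (fderiv ℝ G w 1 + Complex.I * fderiv ℝ G w Complex.I)) ρ,
    Complex.finrank_real_complex, abs_of_pos (by positivity), smul_zero, Complex.real_smul] at key
  have hρ' : (ρ : ℂ) ≠ 0 := by exact_mod_cast hρ0.ne'
  generalize (∫ w : ℂ, w⁻¹ * (fderiv ℝ G w 1 + Complex.I * fderiv ℝ G w Complex.I)) = J at key ⊢
  push_cast at key
  field_simp at key
  linear_combination key

/-- differentiation under the integral sign -/
theorem dbc_deriv {Q Q' : ℝ → ℂ → ℂ} (hQ : ∀ t, Continuous (Q t))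
    (hQ' : Continuous (Function.uncurry Q')) (hd : ∀ t w, HasDerivAt (Q · w) (Q' t w) t) {R : ℝ}
    (h0 : ∀ t w, |t| < 1 → R ≤ ‖w‖ → Q t w = 0) :
    Integrable (fun w : ℂ => w⁻¹ * Q' 0 w) ∧
      HasDerivAt (fun t => ∫ w : ℂ, w⁻¹ * Q t w) (∫ w : ℂ, w⁻¹ * Q' 0 w) 0 := by
  obtain ⟨C, hC⟩ := ((isCompact_Icc (a := (-1 : ℝ)) (b := 1)).prod
    (isCompact_closedBall (0 : ℂ) R)).exists_bound_of_continuousOn hQ'.continuousOn
  have h0' : ∀ t w, |t| < 1 → R ≤ ‖w‖ → Q' t w = 0 := by
    intro t w ht hw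
    have : (Q · w) =ᶠ[𝓝 t] fun _ => 0 := by
      have : ∀ᶠ s in 𝓝 t, |s| < 1 := continuous_abs.continuousAt.eventually (gt_mem_nhds ht)
      filter_upwards [this] with s hs using h0 s w hs hw
    exact (hd t w).unique ((hasDerivAt_const t (0 : ℂ)).congr_of_eventuallyEq this)
  have hb : Integrable ((closedBall (0 : ℂ) R).indicator fun w : ℂ => ‖w⁻¹‖ * C) :=
    (integrable_indicator_iff measurableSet_closedBall).2
      ((dbc_locInt.integrableOn_isCompact (isCompact_closedBall 0 R)).norm.mul_const C)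
  refine hasDerivAt_integral_of_dominated_loc_of_deriv_le (F := fun t w => w⁻¹ * Q t w)
    (F' := fun t w => w⁻¹ * Q' t w) (s := ball (0 : ℝ) 1) (ball_mem_nhds _ one_pos)
    (Eventually.of_forall fun t => (measurable_inv.mul (hQ t).measurable).aestronglyMeasurable)
    (dbc_int (hQ 0) fun w hw => h0 0 w (by simp) hw)
    (measurable_inv.mul (hQ'.comp (Continuous.prodMk_right 0)).measurable).aestronglyMeasurable
    (Eventually.of_forall fun w t ht => ?_) hb
    (Eventually.of_forall fun w t _ => (hd t w).const_mul _)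
  rw [mem_ball, dist_zero_right, Real.norm_eq_abs] at ht
  by_cases hw : w ∈ closedBall (0 : ℂ) R
  · rw [indicator_of_mem hw, norm_mul]
    exact mul_le_mul_of_nonneg_left (hC (t, w) ⟨⟨(abs_lt.1 ht).1.le, (abs_lt.1 ht).2.le⟩, hw⟩)
      (norm_nonneg _)
  · rw [indicator_of_notMem hw, h0' t w ht, mul_zero, norm_zero]
    rw [mem_closedBall, dist_zero_right] at hw
    exact (not_le.1 hw).le

/-- the exponential factor of the kernel -/
def dbcE (K α β : ℝ) (w : ℂ) : ℂ :=
  Complex.exp (-((K : ℂ) * ((w.re : ℂ) ^ 2 + (w.im : ℂ) ^ 2) / 2) +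
    Complex.I * (K * (w.im * α - w.re * β)))

theorem dbc_dker (a b x₀ : R3) (K : ℝ) (y : R3) (w : ℂ) :
    dker a b x₀ K y w = (2 * (Real.pi : ℂ))⁻¹ *
      (w⁻¹ * dbcE K (inner ℝ a (y - x₀)) (inner ℝ b (y - x₀)) w) := by
  rw [dker, dbcE, mul_assoc, Complex.sq_norm, Complex.normSq_apply]
  congr 3
  simp [zl]
  ring

theorem dbcE_t (K α β α' β' : ℝ) (w : ℂ) (t : ℝ) :
    HasDerivAt (fun t : ℝ => dbcE K (α + t * α') (β + t * β') w)
      (dbcE K (α + t * α') (β + t * β') w * (Complex.I * (K * (w.im * α' - w.re * β')))) t := by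
  have h : HasDerivAt (fun s : ℂ => -((K : ℂ) * ((w.re : ℂ) ^ 2 + (w.im : ℂ) ^ 2) / 2) +
      Complex.I * (K * (w.im * (α + s * α') - w.re * (β + s * β'))))
      (Complex.I * (K * (w.im * α' - w.re * β'))) (t : ℂ) := by
    have h1 := (((hasDerivAt_id (t : ℂ)).mul_const (α' : ℂ)).const_add (α : ℂ)).const_mul
      (w.im : ℂ)
    have h2 := (((hasDerivAt_id (t : ℂ)).mul_const (β' : ℂ)).const_add (β : ℂ)).const_mul
      (w.re : ℂ)
    have h3 := (((h1.sub h2).const_mul (K : ℂ)).const_mul Complex.I).const_add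
      (-((K : ℂ) * ((w.re : ℂ) ^ 2 + (w.im : ℂ) ^ 2) / 2))
    simpa using h3
  have h' := h.cexp.comp_ofReal
  simp only [dbcE, Complex.ofReal_add, Complex.ofReal_mul]
  exact h'

theorem dbcE_w (K α β : ℝ) (w u : ℂ) :
    HasDerivAt (fun t : ℝ => dbcE K α β (w + t • u))
      (dbcE K α β w * (-(K * (w.re * u.re + w.im * u.im)) +
        Complex.I * (K * (u.im * α - u.re * β)))) 0 := by
  have h : HasDerivAt (fun s : ℂ => -((K : ℂ) * (((w.re : ℂ) + s * u.re) ^ 2 +
      ((w.im : ℂ) + s * u.im) ^ 2) / 2) +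
      Complex.I * (K * ((w.im + s * u.im) * α - (w.re + s * u.re) * β)))
      (-(K * (w.re * u.re + w.im * u.im)) + Complex.I * (K * (u.im * α - u.re * β)))
      ((0 : ℝ) : ℂ) := by
    have h1 := ((hasDerivAt_id ((0 : ℝ) : ℂ)).mul_const (u.re : ℂ)).const_add (w.re : ℂ)
    have h2 := ((hasDerivAt_id ((0 : ℝ) : ℂ)).mul_const (u.im : ℂ)).const_add (w.im : ℂ)
    have h3 := ((((h1.pow 2).add (h2.pow 2)).const_mul (K : ℂ)).div_const 2).neg.add
      ((((h2.mul_const (α : ℂ)).sub (h1.mul_const (β : ℂ))).const_mul (K : ℂ)).const_mul Complex.I)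
    refine HasDerivAt.congr_deriv h3 ?_
    simp
    ring
  have h' := h.cexp.comp_ofReal
  simp only [dbcE, Complex.add_re, Complex.add_im, Complex.smul_re, Complex.smul_im, smul_eq_mul,
    Complex.ofReal_add, Complex.ofReal_mul]
  refine HasDerivAt.congr_deriv h' ?_
  simp

theorem dbcE_contDiff (K α β : ℝ) : ContDiff ℝ 1 (dbcE K α β) := by
  have h1 : ContDiff ℝ 1 fun w : ℂ => (w.re : ℂ) :=
    Complex.ofRealCLM.contDiff.comp Complex.reCLM.contDiff
  have h2 : ContDiff ℝ 1 fun w : ℂ => (w.im : ℂ) :=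
    Complex.ofRealCLM.contDiff.comp Complex.imCLM.contDiff
  exact ((((contDiff_const.mul ((h1.pow 2).add (h2.pow 2))).div_const 2).neg).add
    (contDiff_const.mul (contDiff_const.mul ((h2.mul contDiff_const).sub
      (h1.mul contDiff_const))))).cexp

theorem dbc_line {E : Type*} [NormedAddCommGroup E] [NormedSpace ℝ E] {g : E → ℂ}
    (hg : Differentiable ℝ g) (y v : E) (t : ℝ) :
    HasDerivAt (fun t : ℝ => g (y + t • v)) (fderiv ℝ g (y + t • v) v) t := by
  have h1 : HasDerivAt (fun t : ℝ => y + t • v) v t := by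
    simpa using ((hasDerivAt_id t).smul_const v).const_add y
  exact (hg _).hasFDerivAt.comp_hasDerivAt (f := fun t : ℝ => y + t • v) t h1

theorem dbc_Dv (a b : R3) (F : S) (x : R3) :
    Dv (thab a b) F x = fderiv ℝ F x a + Complex.I * fderiv ℝ F x b := by
  have h : ∀ v : R3, fderiv ℝ F x v = ∑ i, (v i : ℂ) * fderiv ℝ F x (eb i) := by
    intro v
    have hv : v = ∑ i, v i • eb i := by
      ext j
      simp [eb, Pi.single_apply]
    conv_lhs => rw [hv, map_sum]
    simp
  rw [Dv, S.sum_apply, h a, h b, Finset.mul_sum, ← Finset.sum_add_distrib]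
  refine Finset.sum_congr rfl fun i _ => ?_
  rw [S.smul_apply, pd_apply, thab]
  ring

theorem dbc_iota_cont (a b : R3) : ContDiff ℝ 1 (iota a b) :=
  (Complex.reCLM.contDiff.smul contDiff_const).add (Complex.imCLM.contDiff.smul contDiff_const)

theorem dbc_far {a b : R3} (ha : ‖a‖ = 1) (hb : ‖b‖ = 1) (hab : inner ℝ a b = (0 : ℝ)) {f : R3 → ℂ}
    (hf : HasCompactSupport f) (M : ℝ) :
    ∃ R : ℝ, 0 < R ∧ ∀ (y : R3) (w : ℂ), ‖y‖ ≤ M → R ≤ ‖w‖ → f (y - iota a b w) = 0 := by
  obtain ⟨R₀, hR⟩ := hf.isCompact.isBounded.subset_closedBall (0 : R3)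
  refine ⟨2 * (|R₀| + |M| + 1), by positivity, fun y w hy hw =>
    image_eq_zero_of_notMem_tsupport fun h => ?_⟩
  have h1 := hR h
  rw [mem_closedBall, dist_zero_right] at h1
  have h2 := norm_zl_le ha hb (iota a b w)
  rw [zl_iota ha hb hab] at h2
  have h3 : ‖iota a b w‖ ≤ ‖y‖ + ‖y - iota a b w‖ := by
    simpa using norm_sub_le y (y - iota a b w)
  linarith [le_abs_self R₀, le_abs_self M]

theorem dbc_dir {a b : R3} (ha : ‖a‖ = 1) (hb : ‖b‖ = 1) (hab : inner ℝ a b = (0 : ℝ)) (x₀ : R3)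
    (K : ℝ) (f : S) (hf : HasCompactSupport (f : R3 → ℂ)) (F : S)
    (hF : ∀ x, F x = ∫ w : ℂ, dker a b x₀ K x w * f (x - iota a b w)) (x v : R3) :
    Integrable (fun w : ℂ => w⁻¹ * (dbcE K (inner ℝ a (x - x₀)) (inner ℝ b (x - x₀)) w *
      (Complex.I * (K * (w.im * (inner ℝ a v : ℝ) - w.re * (inner ℝ b v : ℝ))) *
        f (x - iota a b w) + fderiv ℝ f (x - iota a b w) v))) ∧
    fderiv ℝ F x v = (2 * (Real.pi : ℂ))⁻¹ * ∫ w : ℂ,
      w⁻¹ * (dbcE K (inner ℝ a (x - x₀)) (inner ℝ b (x - x₀)) w *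
      (Complex.I * (K * (w.im * (inner ℝ a v : ℝ) - w.re * (inner ℝ b v : ℝ))) *
        f (x - iota a b w) + fderiv ℝ f (x - iota a b w) v)) := by
  set α : ℝ := inner ℝ a (x - x₀) with hα
  set β : ℝ := inner ℝ b (x - x₀) with hβ
  set α' : ℝ := inner ℝ a v with hα'
  set β' : ℝ := inner ℝ b v with hβ'
  obtain ⟨R, -, hR⟩ := dbc_far ha hb hab hf (‖x‖ + ‖v‖)
  have hι := (dbc_iota_cont a b).continuous
  have hfc := f.cont
  have hfd : Continuous (fderiv ℝ (f : R3 → ℂ)) := f.sm.continuous_fderiv (by simp)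
  have key := dbc_deriv
    (Q := fun t w => dbcE K (α + t * α') (β + t * β') w * f (x - iota a b w + t • v))
    (Q' := fun t w => dbcE K (α + t * α') (β + t * β') w *
      (Complex.I * (K * (w.im * α' - w.re * β')) * f (x - iota a b w + t • v) +
        fderiv ℝ f (x - iota a b w + t • v) v)) (R := R)
    (fun t => (dbcE_contDiff _ _ _).continuous.mul (by fun_prop))
    (by unfold dbcE Function.uncurry; fun_prop)
    (fun t w => by
      refine ((dbcE_t K α β α' β' w t).mul (dbc_line f.diff (x - iota a b w) v t)).congr_deriv ?_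
      ring)
    (fun t w ht hw => by
      rw [show x - iota a b w + t • v = x + t • v - iota a b w by abel, hR _ w ?_ hw, mul_zero]
      refine (norm_add_le _ _).trans (add_le_add le_rfl ?_)
      rw [norm_smul, Real.norm_eq_abs]
      exact mul_le_of_le_one_left (norm_nonneg _) ht.le)
  simp only [zero_mul, add_zero, zero_smul] at key
  refine ⟨key.1, ?_⟩
  have h1 := dbc_line F.diff x v 0
  rw [zero_smul, add_zero] at h1
  refine h1.unique ((key.2.const_mul (2 * (Real.pi : ℂ))⁻¹).congr_of_eventuallyEq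
    (Eventually.of_forall fun t => ?_))
  simp only
  rw [hF, ← integral_const_mul]
  refine integral_congr_ae (Eventually.of_forall fun w => ?_)
  have e1 : inner ℝ a (x + t • v - x₀) = α + t * α' := by
    rw [show x + t • v - x₀ = x - x₀ + t • v by abel, inner_add_right, inner_smul_right]
  have e2 : inner ℝ b (x + t • v - x₀) = β + t * β' := by
    rw [show x + t • v - x₀ = x - x₀ + t • v by abel, inner_add_right, inner_smul_right]
  simp only [dbc_dker, e1, e2]
  rw [show x + t • v - iota a b w = x - iota a b w + t • v by abel]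
  ring

/-- Differentiate under the integral sign in `x` (the majorant times `1 + ‖w‖` is integrable, or use
that `f` has compact support). With `z = zl a b (x - x₀)`,
`E w = exp (-K |w|² / 2 + i K Im (w conj z))`, `G w = E w * f (x - iota w)`: the left side equals
`(2 π)⁻¹ ∫ w⁻¹ E w ((K w + K z) f + D f) (x - iota w) = - π⁻¹ ∫ w⁻¹ ∂̄ G w = G 0` by the Cauchy–Pompeiu
formula (`Crest.Agent.R101.pom_global` after scaling the compact support of `G` into the unit disc). -/
theorem dbar_inv {a b : R3} (ha : ‖a‖ = 1) (hb : ‖b‖ = 1) (hab : inner ℝ a b = (0 : ℝ)) (x₀ : R3)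
    {K : ℝ} (hK : 0 < K) (f : S) (hf : HasCompactSupport (f : R3 → ℂ)) (F : S)
    (hF : ∀ x, F x = ∫ w : ℂ, dker a b x₀ K x w * f (x - iota a b w)) (x : R3) :
    Dv (thab a b) F x + K * zl a b (x - x₀) * F x = f x := by
  have _ := hK
  obtain ⟨ia, ea⟩ := dbc_dir ha hb hab x₀ K f hf F hF x a
  obtain ⟨ib, eb'⟩ := dbc_dir ha hb hab x₀ K f hf F hF x b
  have haa : inner ℝ a a = (1 : ℝ) := by rw [real_inner_self_eq_norm_sq, ha, one_pow]
  have hbb : inner ℝ b b = (1 : ℝ) := by rw [real_inner_self_eq_norm_sq, hb, one_pow]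
  have hba : inner ℝ b a = (0 : ℝ) := by rw [real_inner_comm, hab]
  rw [haa, hba] at ia ea
  rw [hab, hbb] at ib eb'
  set α : ℝ := inner ℝ a (x - x₀) with hα
  set β : ℝ := inner ℝ b (x - x₀) with hβ
  obtain ⟨R, hR0, hR⟩ := dbc_far ha hb hab hf ‖x‖
  set G : ℂ → ℂ := fun w => dbcE K α β w * f (x - iota a b w) with hG
  have hGs : ContDiff ℝ 1 G := (dbcE_contDiff K α β).mul
    ((f.sm.of_le (by simp)).comp (contDiff_const.sub (dbc_iota_cont a b)))
  have hG0 : ∀ w, R ≤ ‖w‖ → G w = 0 := fun w hw => by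
    rw [hG]
    simp only
    rw [hR x w le_rfl hw, mul_zero]
  have hGd : ∀ w u : ℂ, fderiv ℝ G w u = dbcE K α β w *
      ((-(K * (w.re * u.re + w.im * u.im)) + Complex.I * (K * (u.im * α - u.re * β))) *
        f (x - iota a b w) - fderiv ℝ f (x - iota a b w) (iota a b u)) := by
    intro w u
    have h1 := dbc_line (hGs.differentiable one_ne_zero) w u 0
    rw [zero_smul, add_zero] at h1
    have h2 := (dbcE_w K α β w u).mul (dbc_line f.diff (x - iota a b w) (-iota a b u) 0)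
    simp only [zero_smul, add_zero, map_neg] at h2
    refine (h1.unique (h2.congr_of_eventuallyEq (Eventually.of_forall fun t => ?_))).trans ?_
    · have e : x - iota a b (w + t • u) = x - iota a b w + t • -iota a b u := by
        simp only [iota, Complex.add_re, Complex.add_im, Complex.smul_re, Complex.smul_im,
          smul_eq_mul]
        module
      simp only [hG, Pi.mul_apply, e]
    · ring
  have hpom := dbc_pom hGs hR0 hG0
  have hFx : F x = (2 * (Real.pi : ℂ))⁻¹ * ∫ w : ℂ, w⁻¹ * G w := by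
    rw [hF, ← integral_const_mul]
    refine integral_congr_ae (Eventually.of_forall fun w => ?_)
    simp only [dbc_dker, hG]
    ring
  have iG : Integrable fun w : ℂ => w⁻¹ * G w := dbc_int hGs.continuous hG0
  have hsum := integral_add (ia.add (ib.const_mul Complex.I)) (iG.const_mul (K * zl a b (x - x₀)))
  simp only [Pi.add_apply] at hsum
  rw [integral_add ia (ib.const_mul Complex.I), integral_const_mul, integral_const_mul] at hsum
  have hpt : ∀ w : ℂ, w⁻¹ * (dbcE K α β w * (Complex.I * (K * (w.im * ((1 : ℝ) : ℂ) -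
      w.re * ((0 : ℝ) : ℂ))) * f (x - iota a b w) + fderiv ℝ f (x - iota a b w) a)) +
      Complex.I * (w⁻¹ * (dbcE K α β w * (Complex.I * (K * (w.im * ((0 : ℝ) : ℂ) -
      w.re * ((1 : ℝ) : ℂ))) * f (x - iota a b w) + fderiv ℝ f (x - iota a b w) b))) +
      K * zl a b (x - x₀) * (w⁻¹ * G w) =
      -(w⁻¹ * (fderiv ℝ G w 1 + Complex.I * fderiv ℝ G w Complex.I)) := by
    intro w
    have i1 : iota a b 1 = a := by simp [iota]
    have i2 : iota a b Complex.I = b := by simp [iota]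
    rw [hGd, hGd, i1, i2, zl, ← hα, ← hβ, hG]
    simp only [Complex.one_re, Complex.one_im, Complex.I_re, Complex.I_im, Complex.ofReal_one,
      Complex.ofReal_zero]
    linear_combination (w⁻¹ * dbcE K α β w * f (x - iota a b w) * K * (α - w.re)) * Complex.I_mul_I
  simp only [hpt] at hsum
  rw [integral_neg, hpom] at hsum
  have hG00 : G 0 = f x := by simp [hG, dbcE, iota]
  have hpi : (2 * (Real.pi : ℂ)) ≠ 0 := by exact_mod_cast Real.two_pi_pos.ne'
  rw [dbc_Dv, ea, eb', hFx, ← hG00]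
  linear_combination (-(2 * (Real.pi : ℂ))⁻¹) * hsum + G 0 * mul_inv_cancel₀ hpi

end Crest.Agent.R080
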