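import Crest.Agent.R080.DBa
import Crest.Agent.R080.DBc

/-!
Row 80: solving `D h + K z h + A h = g`.
-/

set_option autoImplicit false

open MeasureTheory Set Metric Filter Topology
open scoped ContDiff BoundedContinuousFunction

noncomputable section

namespace Crest.Agent.R080

theorem dbd_radius {f : R3 → ℂ} (hf : HasCompactSupport f) : ∃ R₀ : ℝ, ∀ y, R₀ < ‖y‖ → f y = 0 := by
  obtain ⟨R₀, hR⟩ := hf.isCompact.isBounded.subset_closedBall (0 : R3)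
  refine ⟨R₀, fun y hy => image_eq_zero_of_notMem_tsupport fun h => ?_⟩
  have := hR h
  rw [mem_closedBall, dist_zero_right] at this
  linarith

theorem dbd_mph_zero (a b x₀ : R3) (K : ℝ) (x : R3) : mph a b x₀ K 0 x = 1 := by
  simp [mph, zl]

/-- In `E = ι → (R3 →ᵇ ℂ)` let `𝒯` act by `T` (`exists_T`) on each component, `𝒜 t` by the matrix of
the translates `A p q (· + t)` (smooth in `t` by `exists_family`), `‖𝒯 𝒜 t‖ ≤ 1/2`. Let
`h = (1 + 𝒯 𝒜 0)⁻¹ 𝒯 g`. With the magnetic translation `U t` (`exists_U`, commuting with `T` by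
`dker_mph`), `U t h = (1 + 𝒯 𝒜 t)⁻¹ 𝒯 (U t g)` is smooth in `t` (`exists_family` for
`mph t x * g (x + t)`, `contDiffAt_ringInverse`); evaluating at `x₀` (`mph_base`) shows that `h` is
smooth. Then `h = 𝒯 (g - A h)` with `g - A h` smooth of compact support, and `dbar_inv` applies. -/
theorem db_core (ι : Type) [Fintype ι] {a b : R3} (ha : ‖a‖ = 1) (hb : ‖b‖ = 1)
    (hab : inner ℝ a b = (0 : ℝ)) (x₀ : R3) {K M G : ℝ} (hK : 0 < K)
    (hM : Fintype.card ι * M * √(Real.pi / (2 * K)) ≤ 1 / 2) (A : ι → ι → S) (g : ι → S)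
    (hAc : ∀ p q, HasCompactSupport (A p q : R3 → ℂ)) (hgc : ∀ p, HasCompactSupport (g p : R3 → ℂ))
    (hA : ∀ p q x, ‖A p q x‖ ≤ M) (hg : ∀ p x, ‖g p x‖ ≤ G) :
    ∃ h : ι → S, (∀ p x, Dv (thab a b) (h p) x + K * zl a b (x - x₀) * h p x +
        ∑ q, A p q x * h q x = g p x) ∧
      ∀ p x, ‖h p x‖ ≤ 2 * √(Real.pi / (2 * K)) * G := by
  classical
  rcases isEmpty_or_nonempty ι with hι | hι
  · exact ⟨fun p => isEmptyElim p, fun p => isEmptyElim p, fun p => isEmptyElim p⟩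
  obtain ⟨p₀⟩ := hι
  have hM0 : 0 ≤ M := (norm_nonneg _).trans (hA p₀ p₀ 0)
  have hG0 : 0 ≤ G := (norm_nonneg _).trans (hg p₀ 0)
  set κ := √(Real.pi / (2 * K)) with hκ
  have hκ0 : 0 ≤ κ := Real.sqrt_nonneg _
  obtain ⟨T, hT, hTa⟩ := exists_T a b x₀ hK
  choose U hU using exists_U a b x₀ K
  have hadd : ContDiff ℝ ∞ fun z : R3 × R3 => z.2 + z.1 := contDiff_snd.add contDiff_fst
  have hΦ : ∀ p q, ∃ Φ : R3 → (R3 →ᵇ ℂ), ContDiff ℝ ∞ Φ ∧ ∀ t x, Φ t x = A p q (x + t) := by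
    intro p q
    obtain ⟨R₀, hR⟩ := dbd_radius (hAc p q)
    exact exists_family (fun t x => A p q (x + t)) ((A p q).sm.comp hadd) (R₀ := R₀)
      fun t x h => hR _ h
  choose Φ hΦs hΦ using hΦ
  have hΨ : ∀ p, ∃ Ψ : R3 → (R3 →ᵇ ℂ), ContDiff ℝ ∞ Ψ ∧
      ∀ t x, Ψ t x = mph a b x₀ K t x * g p (x + t) := by
    intro p
    obtain ⟨R₀, hR⟩ := dbd_radius (hgc p)
    exact exists_family (fun t x => mph a b x₀ K t x * g p (x + t))
      ((contDiff_mph a b x₀ K).mul ((g p).sm.comp hadd)) (R₀ := R₀)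
      fun t x h => by rw [hR _ h, mul_zero]
  choose Ψ hΨs hΨ using hΨ
  have hTU : ∀ (t : R3) (f f' : R3 →ᵇ ℂ), (∀ x, f' x = mph a b x₀ K t x * f (x + t)) →
      ∀ x, T f' x = mph a b x₀ K t x * T f (x + t) := by
    intro t f f' h x
    rw [hTa, hTa, ← integral_const_mul]
    refine integral_congr_ae (Eventually.of_forall fun w => ?_)
    beta_reduce
    rw [h, ← mul_assoc, dker_mph ha hb hab, mul_assoc, sub_add_eq_add_sub]
  let 𝒯 : (ι → (R3 →ᵇ ℂ)) →L[ℝ] (ι → (R3 →ᵇ ℂ)) :=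
    ContinuousLinearMap.pi fun p => (T.restrictScalars ℝ).comp (ContinuousLinearMap.proj p)
  have h𝒯 : ∀ v p, 𝒯 v p = T (v p) := fun _ _ => rfl
  have h𝒯n : ∀ v, ‖𝒯 v‖ ≤ κ * ‖v‖ := fun v =>
    (pi_norm_le_iff_of_nonneg (by positivity)).2 fun p => by
      rw [h𝒯]
      exact (T.le_opNorm _).trans (mul_le_mul hT (norm_le_pi_norm v p) (norm_nonneg _) hκ0)
  let 𝒜 : R3 → (ι → (R3 →ᵇ ℂ)) →L[ℝ] (ι → (R3 →ᵇ ℂ)) := fun t =>
    ∑ p, ∑ q, (ContinuousLinearMap.single ℝ (fun _ : ι => R3 →ᵇ ℂ) p).comp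
      ((ContinuousLinearMap.mul ℝ (R3 →ᵇ ℂ) (Φ p q t)).comp (ContinuousLinearMap.proj q))
  have h𝒜 : ∀ t v p, 𝒜 t v p = ∑ q, Φ p q t * v q := by
    intro t v p
    simp only [𝒜, sum_apply, Finset.sum_apply, ContinuousLinearMap.comp_apply,
      ContinuousLinearMap.single_apply, ContinuousLinearMap.mul_apply',
      ContinuousLinearMap.proj_apply]
    rw [Finset.sum_eq_single p]
    · simp
    · intro p' _ hp'
      simp [Pi.single_eq_of_ne hp'.symm]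
    · exact fun h => absurd (Finset.mem_univ _) h
  have h𝒜s : ContDiff ℝ ∞ 𝒜 :=
    ContDiff.sum fun p _ => ContDiff.sum fun q _ => contDiff_const.clm_comp
      (((ContinuousLinearMap.mul ℝ (R3 →ᵇ ℂ)).contDiff.comp (hΦs p q)).clm_comp contDiff_const)
  have h𝒜n : ∀ t v, ‖𝒜 t v‖ ≤ Fintype.card ι * M * ‖v‖ := fun t v =>
    (pi_norm_le_iff_of_nonneg (by positivity)).2 fun p => by
      rw [h𝒜]
      refine (norm_sum_le _ _).trans ?_
      refine (Finset.sum_le_card_nsmul _ _ (M * ‖v‖) fun q _ => ?_).trans ?_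
      · refine (norm_mul_le _ _).trans (mul_le_mul ?_ (norm_le_pi_norm v q) (norm_nonneg _) hM0)
        exact (BoundedContinuousFunction.norm_le hM0).2 fun x => by rw [hΦ]; exact hA _ _ _
      · rw [nsmul_eq_mul, Finset.card_univ, mul_assoc]
  have hBn : ∀ t v, ‖𝒯 (𝒜 t v)‖ ≤ 1 / 2 * ‖v‖ := fun t v => by
    refine (h𝒯n _).trans ((mul_le_mul_of_nonneg_left (h𝒜n t v) hκ0).trans ?_)
    rw [← mul_assoc]
    exact mul_le_mul_of_nonneg_right (by linarith) (norm_nonneg _)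
  have hunit : ∀ t, ∃ u : ((ι → (R3 →ᵇ ℂ)) →L[ℝ] (ι → (R3 →ᵇ ℂ)))ˣ,
      (u : (ι → (R3 →ᵇ ℂ)) →L[ℝ] (ι → (R3 →ᵇ ℂ))) = 1 + 𝒯.comp (𝒜 t) := fun t => by
    refine ⟨Units.oneSub (-𝒯.comp (𝒜 t)) ?_, by rw [Units.val_oneSub, sub_neg_eq_add]⟩
    rw [norm_neg]
    exact (ContinuousLinearMap.opNorm_le_bound _ (by norm_num) (hBn t)).trans_lt (by norm_num)
  let H : R3 → ι → (R3 →ᵇ ℂ) := fun t => Ring.inverse (1 + 𝒯.comp (𝒜 t)) (𝒯 fun p => Ψ p t)
  have hHs : ContDiff ℝ ∞ H := by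
    refine ContDiff.clm_apply (contDiff_iff_contDiffAt.2 fun t => ?_)
      (𝒯.contDiff.comp (contDiff_pi.2 hΨs))
    obtain ⟨u, hu⟩ := hunit t
    have h1 := contDiffAt_ringInverse ℝ (n := ∞) (R := (ι → (R3 →ᵇ ℂ)) →L[ℝ] (ι → (R3 →ᵇ ℂ))) u
    rw [hu] at h1
    exact h1.comp t (contDiff_const.add (contDiff_const.clm_comp h𝒜s)).contDiffAt
  have hHe : ∀ t, H t + 𝒯 (𝒜 t (H t)) = 𝒯 fun p => Ψ p t := fun t => by
    obtain ⟨u, hu⟩ := hunit t
    have h1 : (1 + 𝒯.comp (𝒜 t)) * Ring.inverse (1 + 𝒯.comp (𝒜 t)) = 1 :=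
      Ring.mul_inverse_cancel _ ⟨u, hu⟩
    exact DFunLike.congr_fun h1 (𝒯 fun p => Ψ p t)
  have hinj : ∀ t v v', v + 𝒯 (𝒜 t v) = v' + 𝒯 (𝒜 t v') → v = v' := fun t v v' h => by
    have h1 := hBn t (v - v')
    have h2 : 𝒯 (𝒜 t (v - v')) = -(v - v') := by
      rw [map_sub, map_sub, neg_sub, sub_eq_sub_iff_add_eq_add, add_comm, h]
    rw [h2, norm_neg] at h1
    exact sub_eq_zero.1 (norm_eq_zero.1 (le_antisymm (by linarith) (norm_nonneg _)))
  have hkey : ∀ t, (fun p => U t (H 0 p)) = H t := fun t => by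
    refine hinj t _ _ ?_
    rw [hHe]
    ext p x
    have h0 := DFunLike.congr_fun (congrFun (hHe 0) p) (x + t)
    simp only [Pi.add_apply, BoundedContinuousFunction.add_apply, h𝒯] at h0 ⊢
    rw [hU, hTU t (𝒜 0 (H 0) p) _ (fun y => ?_), hTU t (Ψ p 0) (Ψ p t) (fun y => ?_), ← mul_add, h0]
    · rw [hΨ, hΨ, dbd_mph_zero, one_mul, add_zero]
    · rw [h𝒜, h𝒜, BoundedContinuousFunction.sum_apply, BoundedContinuousFunction.sum_apply,
        Finset.mul_sum]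
      refine Finset.sum_congr rfl fun q _ => ?_
      rw [BoundedContinuousFunction.mul_apply, BoundedContinuousFunction.mul_apply, hU, hΦ, hΦ,
        add_zero]
      ring
  have hsm : ∀ p, ContDiff ℝ ∞ (H 0 p : R3 → ℂ) := fun p => by
    have h1 : (H 0 p : R3 → ℂ) = fun y => H (y - x₀) p x₀ := by
      funext y
      rw [← hkey (y - x₀), hU, mph_base, one_mul, add_sub_cancel]
    rw [h1]
    exact (BoundedContinuousFunction.evalCLM ℝ x₀).contDiff.comp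
      (contDiff_pi.1 (hHs.comp (contDiff_id.sub contDiff_const)) p)
  let h : ι → S := fun p => S.mk' (H 0 p) (hsm p)
  refine ⟨h, fun p x => ?_, fun p x => ?_⟩
  · have hc : HasCompactSupport ((g p - ∑ q, A p q * h q : S) : R3 → ℂ) :=
      (Cs.sub (U := univ) ⟨hgc p, subset_univ _⟩
        (Cs.sum _ fun q _ => Cs.mul_right ⟨hAc p q, subset_univ _⟩ _)).1
    have h1 := dbar_inv ha hb hab x₀ hK _ hc (h p) (fun y => ?_) x
    · rw [h1, S.sub_apply, S.sum_apply]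
      simp only [S.mul_apply, sub_add_cancel]
    · have h0 : H 0 p = T (Ψ p 0 - 𝒜 0 (H 0) p) := by
        rw [map_sub, ← h𝒯, eq_sub_iff_add_eq]
        exact congrFun (hHe 0) p
      change H 0 p y = _
      rw [h0, hTa]
      refine integral_congr_ae (Eventually.of_forall fun w => ?_)
      beta_reduce
      rw [BoundedContinuousFunction.sub_apply, hΨ, dbd_mph_zero, one_mul, add_zero, h𝒜,
        BoundedContinuousFunction.sum_apply, S.sub_apply, S.sum_apply]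
      simp only [BoundedContinuousFunction.mul_apply, hΦ, add_zero, S.mul_apply]
      rfl
  · have h1 : ‖(fun p => Ψ p 0)‖ ≤ G := (pi_norm_le_iff_of_nonneg hG0).2 fun p =>
      (BoundedContinuousFunction.norm_le hG0).2 fun x => by
        rw [hΨ, dbd_mph_zero, one_mul]; exact hg _ _
    have h2 := (h𝒯n fun p => Ψ p 0).trans (mul_le_mul_of_nonneg_left h1 hκ0)
    have h3 := hBn 0 (H 0)
    have h4 : ‖H 0‖ ≤ ‖𝒯 fun p => Ψ p 0‖ + ‖𝒯 (𝒜 0 (H 0))‖ := by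
      conv_lhs => rw [eq_sub_of_add_eq (hHe 0)]
      exact norm_sub_le _ _
    have h5 : ‖H 0 p x‖ ≤ ‖H 0‖ := ((H 0 p).norm_coe_le_norm x).trans (norm_le_pi_norm _ p)
    change ‖H 0 p x‖ ≤ _
    linarith

end Crest.Agent.R080
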