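import Crest.Agent.R080.DBd

/-!
Row 80: transport equations along null directions.

If `h` solves `D h + K z h + A h = exp (-K |z|² / 2) g` then `exp (K |z|² / 2) h` solves
`D b + A b = g` (`D z = 0`, `D conj z = 2`). Cut `A`, `g` off with `exists_cutoff` (`R < 2 R`) and divide
the equation by `r`, where `θ = r • thab a b`.
-/

set_option autoImplicit false

open MeasureTheory Set Metric Filter Topology
open scoped ContDiff

noncomputable section

namespace Crest.Agent.R080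

theorem Null.decomp {θ : C3} (h : Null θ) : ∃ (r : ℝ) (a b : R3), 0 < r ∧ ‖a‖ = 1 ∧ ‖b‖ = 1 ∧
    inner ℝ a b = (0 : ℝ) ∧ θ = (r : ℂ) • thab a b ∧ ‖θ‖ ≤ 2 * r ∧ r ≤ 2 * ‖θ‖ := by
  let u : R3 := WithLp.toLp 2 fun i => (θ i).re
  let v : R3 := WithLp.toLp 2 fun i => (θ i).im
  have hu : ‖u‖ ^ 2 = (θ 0).re ^ 2 + (θ 1).re ^ 2 + (θ 2).re ^ 2 := by
    rw [EuclideanSpace.real_norm_sq_eq]; simp [u, Fin.sum_univ_three]
  have hv : ‖v‖ ^ 2 = (θ 0).im ^ 2 + (θ 1).im ^ 2 + (θ 2).im ^ 2 := by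
    rw [EuclideanSpace.real_norm_sq_eq]; simp [v, Fin.sum_univ_three]
  have h0 := h.1
  simp only [dot, Fin.sum_univ_three] at h0
  have hre := congrArg Complex.re h0
  have him := congrArg Complex.im h0
  simp only [Complex.add_re, Complex.mul_re, Complex.zero_re, Complex.add_im, Complex.mul_im,
    Complex.zero_im] at hre him
  have huv : ‖v‖ = ‖u‖ := by
    rw [← sq_eq_sq₀ (norm_nonneg _) (norm_nonneg _), hu, hv]; nlinarith
  have hr : 0 < ‖u‖ := by
    obtain ⟨i, hi⟩ := h.re_ne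
    rw [norm_pos_iff]
    intro h1
    exact hi (by simpa [u] using congrArg (fun w : R3 => w i) h1)
  refine ⟨‖u‖, ‖u‖⁻¹ • u, ‖u‖⁻¹ • v, hr, ?_, ?_, ?_, ?_, ?_, ?_⟩
  · rw [norm_smul, norm_inv, norm_norm, inv_mul_cancel₀ hr.ne']
  · rw [norm_smul, norm_inv, norm_norm, huv, inv_mul_cancel₀ hr.ne']
  · rw [inner_smul_left, inner_smul_right]
    have : inner ℝ u v = (0 : ℝ) := by
      simp only [u, v, PiLp.inner_apply, Fin.sum_univ_three, RCLike.inner_apply, conj_trivial]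
      linarith
    rw [this]; simp
  · funext i
    have hc : ((‖u‖ : ℝ) : ℂ) ≠ 0 := by exact_mod_cast hr.ne'
    have e1 : (‖u‖⁻¹ • u) i = ‖u‖⁻¹ * (θ i).re := rfl
    have e2 : (‖u‖⁻¹ • v) i = ‖u‖⁻¹ * (θ i).im := rfl
    simp only [Pi.smul_apply, thab, e1, e2, smul_eq_mul]
    push_cast
    field_simp
    rw [mul_comm Complex.I, Complex.re_add_im]
  · refine (pi_norm_le_iff_of_nonneg (by positivity)).2 fun i => ?_
    have h1 : |(θ i).re| ≤ ‖u‖ := by simpa [u] using PiLp.norm_apply_le u i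
    have h2 : |(θ i).im| ≤ ‖v‖ := by simpa [v] using PiLp.norm_apply_le v i
    have := Complex.norm_le_abs_re_add_abs_im (θ i)
    linarith
  · have hb : ∀ i, (θ i).re ^ 2 ≤ ‖θ‖ ^ 2 := fun i => by
      rw [← sq_abs]
      exact pow_le_pow_left₀ (abs_nonneg _) ((Complex.abs_re_le_norm _).trans (norm_le_pi_norm θ i)) 2
    rw [← sq_le_sq₀ (norm_nonneg _) (by positivity)]
    have := hb 0
    have := hb 1
    have := hb 2
    nlinarith [sq_nonneg ‖θ‖]

theorem dbe_Dv_dotS (θ η : C3) : Dv θ (dotS η crd) = algebraMap ℂ S (dot θ η) := by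
  refine S.ext fun x => ?_
  simp [Dv, dotS, pd_crd, dot, Fin.sum_univ_three]

theorem dbe_Dv_const (θ : C3) (c : ℂ) : Dv θ (algebraMap ℂ S c) = 0 := by
  simp [Dv]

theorem dbe_Dv_smul (c : ℂ) (θ : C3) (f : S) : Dv (c • θ) f = c • Dv θ f := by
  simp [Dv, Finset.smul_sum, smul_smul]

theorem dbe_zl (a b x : R3) : dotS (thab a b) crd x = zl a b x := by
  simp only [dotS, thab, zl, Fin.sum_univ_three, S.add_apply, S.smul_apply, crd_apply,
    PiLp.inner_apply, RCLike.inner_apply, conj_trivial]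
  push_cast; ring

theorem dbe_zl' (a b x : R3) : dotS (thab a (-b)) crd x = (starRingEnd ℂ) (zl a b x) := by
  rw [dbe_zl]
  simp [zl, inner_neg_left]

theorem dbe_dot {a b : R3} (ha : ‖a‖ = 1) (hb : ‖b‖ = 1) (hab : inner ℝ a b = (0 : ℝ)) :
    dot (thab a b) (thab a b) = 0 ∧ dot (thab a b) (thab a (-b)) = 2 := by
  have h1 : a 0 ^ 2 + a 1 ^ 2 + a 2 ^ 2 = 1 := by
    have := EuclideanSpace.real_norm_sq_eq a
    rw [ha, Fin.sum_univ_three] at this; linarith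
  have h2 : b 0 ^ 2 + b 1 ^ 2 + b 2 ^ 2 = 1 := by
    have := EuclideanSpace.real_norm_sq_eq b
    rw [hb, Fin.sum_univ_three] at this; linarith
  have h3 : a 0 * b 0 + a 1 * b 1 + a 2 * b 2 = 0 := by
    simp only [PiLp.inner_apply, Fin.sum_univ_three, RCLike.inner_apply, conj_trivial] at hab
    linarith
  have c1 : (a 0 : ℂ) ^ 2 + (a 1 : ℂ) ^ 2 + (a 2 : ℂ) ^ 2 = 1 := by
    simpa using congrArg (fun t : ℝ => (t : ℂ)) h1
  have c2 : (b 0 : ℂ) ^ 2 + (b 1 : ℂ) ^ 2 + (b 2 : ℂ) ^ 2 = 1 := by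
    simpa using congrArg (fun t : ℝ => (t : ℂ)) h2
  have c3 : (a 0 : ℂ) * b 0 + (a 1 : ℂ) * b 1 + (a 2 : ℂ) * b 2 = 0 := by
    simpa using congrArg (fun t : ℝ => (t : ℂ)) h3
  have hI := Complex.I_mul_I
  constructor
  · simp only [dot, thab, Fin.sum_univ_three]
    linear_combination c1 - c2 + 2 * Complex.I * c3 +
      ((b 0 : ℂ) ^ 2 + (b 1 : ℂ) ^ 2 + (b 2 : ℂ) ^ 2) * hI
  · simp only [dot, thab, Fin.sum_univ_three, PiLp.neg_apply]
    push_cast
    linear_combination c1 + c2 - ((b 0 : ℂ) ^ 2 + (b 1 : ℂ) ^ 2 + (b 2 : ℂ) ^ 2) * hI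

theorem dbe_main (ι : Type) [Fintype ι] {a b : R3} (ha : ‖a‖ = 1) (hb : ‖b‖ = 1)
    (hab : inner ℝ a b = (0 : ℝ)) {r R : ℝ} (hr : 0 < r) (hR : 0 < R) (x₀ : R3) {K M G : ℝ}
    (hK : 0 < K) (hM : Fintype.card ι * M * √(Real.pi / (2 * K)) ≤ 1 / 2)
    (A : ι → ι → S) (g : ι → S)
    (hA : ∀ x ∈ ball (0 : R3) (2 * R), ∀ p q, ‖A p q x‖ ≤ r * M)
    (hg : ∀ x ∈ ball (0 : R3) (2 * R), ∀ p, ‖g p x‖ ≤ G) :
    ∃ h : ι → S, (∀ x ∈ ball (0 : R3) R, ∀ p,
        (Dv ((r : ℂ) • thab a b) (h p) + ∑ q, A p q * h q) x = g p x) ∧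
      ∀ x p, ‖h p x‖ ≤ Real.exp (K / 2 * ‖zl a b (x - x₀)‖ ^ 2) *
        (2 * √(Real.pi / (2 * K)) * (G / r)) := by
  obtain ⟨χ, hχc, hχ1, hχt⟩ := exists_cutoff hR (show R < 2 * R by linarith)
  have hχn : ∀ x, ‖χ x‖ ≤ 1 := fun x => by
    obtain ⟨t, h0, h1, e⟩ := hχt x
    rw [e, Complex.norm_real, Real.norm_of_nonneg h0]; exact h1
  let z : S := dotS (thab a b) crd - algebraMap ℂ S (zl a b x₀)
  let zb : S := dotS (thab a (-b)) crd - algebraMap ℂ S ((starRingEnd ℂ) (zl a b x₀))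
  have hz : ∀ x, z x = zl a b (x - x₀) := fun x => by
    simp only [z, S.sub_apply, dbe_zl, S.algebraMap_apply, zl_sub]
  have hzb : ∀ x, zb x = (starRingEnd ℂ) (zl a b (x - x₀)) := fun x => by
    simp only [zb, S.sub_apply, dbe_zl', S.algebraMap_apply, zl_sub, map_sub]
  let q : S := ((K / 2 : ℝ) : ℂ) • (z * zb)
  have hq : ∀ x, q x = ((K / 2 * ‖zl a b (x - x₀)‖ ^ 2 : ℝ) : ℂ) := fun x => by
    simp only [q, S.smul_apply, S.mul_apply, hz, hzb, Complex.mul_conj, Complex.normSq_eq_norm_sq]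
    push_cast; ring
  have hDq : ∀ x, Dv (thab a b) q x = K * zl a b (x - x₀) := fun x => by
    simp only [q, Dv_smul, Dv_mul, z, zb, Dv_sub, dbe_Dv_dotS, dbe_Dv_const, (dbe_dot ha hb hab).1,
      (dbe_dot ha hb hab).2]
    have := hz x
    simp only [z] at this
    simp only [S.smul_apply, S.mul_apply, this, sub_zero, map_zero, mul_zero, add_zero,
      S.algebraMap_apply]
    push_cast; ring
  have hrc : (r : ℂ) ≠ 0 := by exact_mod_cast hr.ne'
  have h0 : (0 : R3) ∈ ball (0 : R3) (2 * R) := mem_ball_self (by linarith)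
  have hcut : ∀ (f : S) (B : ℝ), (∀ x ∈ ball (0 : R3) (2 * R), ‖f x‖ ≤ B) →
      ∀ x, ‖((r : ℂ)⁻¹ • (χ * f) : S) x‖ ≤ B / r := by
    intro f B hf x
    have hB : 0 ≤ B := (norm_nonneg _).trans (hf 0 h0)
    rw [S.smul_apply, S.mul_apply, norm_mul, norm_mul, norm_inv, Complex.norm_real,
      Real.norm_of_nonneg hr.le, div_eq_inv_mul]
    refine mul_le_mul_of_nonneg_left ?_ (by positivity)
    by_cases hx : x ∈ ball (0 : R3) (2 * R)
    · exact (mul_le_mul (hχn x) (hf x hx) (norm_nonneg _) zero_le_one).trans_eq (one_mul _)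
    · rw [hχc.eq_zero hx, norm_zero, zero_mul]; exact hB
  obtain ⟨h, he, hn⟩ := db_core ι ha hb hab x₀ (G := G / r) hK hM
    (fun p q => (r : ℂ)⁻¹ • (χ * A p q)) (fun p => (r : ℂ)⁻¹ • (χ * (S.exp (-q) * g p)))
    (fun p q => ((hχc.mul_right _).smul _).1) (fun p => ((hχc.mul_right _).smul _).1)
    (fun p q x => by
      have := hcut (A p q) (r * M) (fun x hx => hA x hx p q) x
      rwa [mul_div_cancel_left₀ _ hr.ne'] at this)
    (fun p x => hcut _ G (fun y hy => by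
      rw [S.mul_apply, S.exp_apply, norm_mul, S.neg_apply, hq, ← Complex.ofReal_neg,
        Complex.norm_exp_ofReal]
      refine (mul_le_mul (Real.exp_le_one_iff.2 ?_) (hg y hy p) (norm_nonneg _)
        zero_le_one).trans_eq (one_mul _)
      have : 0 ≤ K / 2 * ‖zl a b (y - x₀)‖ ^ 2 := by positivity
      linarith) x)
  refine ⟨fun p => S.exp q * h p, fun x hx p => ?_, fun x p => ?_⟩
  · have e := he p x
    have hE : Complex.exp (q x) * Complex.exp (-q x) = 1 := by rw [← Complex.exp_add]; simp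
    simp only [S.smul_apply, S.mul_apply, hχ1 x hx, one_mul, S.exp_apply,
      S.neg_apply] at e
    simp only [dbe_Dv_smul, Dv_mul, Dv_exp, S.add_apply, S.smul_apply, S.mul_apply, S.sum_apply,
      S.exp_apply, hDq]
    have e2 : ∑ q', A p q' x * (Complex.exp (q x) * h q' x) =
        r * Complex.exp (q x) * ∑ q', (r : ℂ)⁻¹ * A p q' x * h q' x := by
      rw [Finset.mul_sum]
      refine Finset.sum_congr rfl fun q' _ => ?_
      field_simp
    rw [e2]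
    have e3 : (r : ℂ) * (r : ℂ)⁻¹ = 1 := mul_inv_cancel₀ hrc
    linear_combination (r * Complex.exp (q x)) * e +
      Complex.exp (q x) * Complex.exp (-q x) * g p x * e3 + g p x * hE
  · rw [S.mul_apply, S.exp_apply, norm_mul, hq, Complex.norm_exp_ofReal]
    exact mul_le_mul_of_nonneg_left (hn p x) (Real.exp_pos _).le

theorem dbe_exists_K (B : ℝ) : ∃ K : ℝ, 0 < K ∧ B * √(Real.pi / (2 * K)) ≤ 1 / 2 := by
  have hπ := Real.pi_pos
  have h1 : 0 < |B| + 1 := by positivity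
  refine ⟨2 * Real.pi * (|B| + 1) ^ 2, by positivity, ?_⟩
  have : Real.pi / (2 * (2 * Real.pi * (|B| + 1) ^ 2)) = (1 / (2 * (|B| + 1))) ^ 2 := by
    field_simp
  rw [this, Real.sqrt_sq (by positivity), mul_one_div, div_le_div_iff₀ (by positivity) two_pos]
  have := le_abs_self B
  linarith

/-- `K` depends only on `M` and `card ι`; `x₀ = 0`. -/
theorem db_solve (ι : Type) [Fintype ι] {R : ℝ} (hR : 0 < R) (M : ℝ) : ∃ C : ℝ, 0 < C ∧
    ∀ θ : C3, Null θ → ∀ (A : ι → ι → S) (g : ι → S) (G : ℝ),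
      (∀ x ∈ ball (0 : R3) (2 * R), ∀ p q, ‖A p q x‖ ≤ M * ‖θ‖) →
      (∀ x ∈ ball (0 : R3) (2 * R), ∀ p, ‖g p x‖ ≤ G) →
      ∃ h : ι → S, (∀ x ∈ ball (0 : R3) R, ∀ p, (Dv θ (h p) + ∑ q, A p q * h q) x = g p x) ∧
        ∀ x ∈ ball (0 : R3) R, ∀ p, ‖h p x‖ ≤ C * G / ‖θ‖ := by
  obtain ⟨K, hK, hM⟩ := dbe_exists_K (Fintype.card ι * (2 * |M|))
  have hκ : 0 < √(Real.pi / (2 * K)) := Real.sqrt_pos.2 (by have := Real.pi_pos; positivity)
  refine ⟨Real.exp (K / 2 * (2 * R) ^ 2) * (4 * √(Real.pi / (2 * K))), by positivity,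
    fun θ hθ A g G hA hg => ?_⟩
  obtain ⟨r, a, b, hr, ha, hb, hab, hθe, h1, -⟩ := hθ.decomp
  have hθ0 : 0 < ‖θ‖ := norm_pos_iff.2 hθ.2
  obtain ⟨h, he, hn⟩ := dbe_main ι ha hb hab hr hR 0 hK hM A g (fun x hx p q => by
    refine (hA x hx p q).trans ?_
    have := mul_le_mul (le_abs_self M) h1 hθ0.le (abs_nonneg M)
    linarith) hg
  refine ⟨h, by rw [hθe]; exact he, fun x hx p => (hn x p).trans ?_⟩
  have hG : 0 ≤ G := (norm_nonneg _).trans (hg 0 (mem_ball_self (by linarith)) p)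
  have hz : ‖zl a b (x - 0)‖ ≤ 2 * R := by
    rw [sub_zero]
    have := norm_zl_le ha hb x
    have := mem_ball_zero_iff.1 hx
    linarith
  have h2 : G / r ≤ 2 * G / ‖θ‖ := by
    rw [div_le_div_iff₀ hr hθ0]; nlinarith
  calc _ ≤ Real.exp (K / 2 * (2 * R) ^ 2) * (2 * √(Real.pi / (2 * K)) * (2 * G / ‖θ‖)) := by
        gcongr
    _ = _ := by ring

/-- `K → ∞` -/
theorem db_peak {ι : Type} [Fintype ι] {θ : C3} (hθ : Null θ) {U : Set R3}
    (hU : Bornology.IsBounded U) (A : ι → ι → S) (g : ι → S) (x₀ : R3) {ε : ℝ} (hε : 0 < ε) :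
    ∃ h : ι → S, (∀ x ∈ U, ∀ p, (Dv θ (h p) + ∑ q, A p q * h q) x = g p x) ∧
      ∀ p, ‖h p x₀‖ ≤ ε := by
  obtain ⟨r, a, b, hr, ha, hb, hab, hθe, -, -⟩ := hθ.decomp
  obtain ⟨R, hR, hUR⟩ := hU.subset_ball_lt 0 (0 : R3)
  have hbd : ∀ f : S, ∃ C : ℝ, ∀ x ∈ ball (0 : R3) (2 * R), ‖f x‖ ≤ C := fun f => by
    obtain ⟨C, hC⟩ := (isCompact_closedBall (0 : R3) (2 * R)).exists_bound_of_continuousOn
      f.cont.continuousOn
    exact ⟨C, fun x hx => hC x (ball_subset_closedBall hx)⟩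
  choose C hC using hbd
  set M : ℝ := (∑ p, ∑ q, |C (A p q)|) / r with hMd
  set G : ℝ := ∑ p, |C (g p)| with hGd
  have hM0 : 0 ≤ M := by positivity
  have hG0 : 0 ≤ G := by positivity
  obtain ⟨K, hK, hB⟩ := dbe_exists_K (Fintype.card ι * M + G / r / ε)
  have hκ : 0 ≤ √(Real.pi / (2 * K)) := Real.sqrt_nonneg _
  have t1 : 0 ≤ Fintype.card ι * M * √(Real.pi / (2 * K)) := by positivity
  have t2 : 0 ≤ G / r / ε * √(Real.pi / (2 * K)) := by positivity
  rw [add_mul] at hB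
  obtain ⟨h, he, hn⟩ := dbe_main ι ha hb hab hr hR x₀ (M := M) (G := G) hK (by linarith) A g
    (fun x hx p q => by
      rw [hMd, mul_div_cancel₀ _ hr.ne']
      refine ((hC _ x hx).trans (le_abs_self _)).trans ?_
      refine le_trans ?_ (Finset.single_le_sum (f := fun p => ∑ q, |C (A p q)|)
        (fun _ _ => by positivity) (Finset.mem_univ p))
      exact Finset.single_le_sum (f := fun q => |C (A p q)|) (fun _ _ => abs_nonneg _)
        (Finset.mem_univ q))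
    (fun x hx p => ((hC _ x hx).trans (le_abs_self _)).trans
      (Finset.single_le_sum (f := fun p => |C (g p)|) (fun _ _ => abs_nonneg _) (Finset.mem_univ p)))
  refine ⟨h, fun x hx p => by rw [hθe]; exact he x (hUR hx) p, fun p => (hn x₀ p).trans ?_⟩
  have hz : zl a b (x₀ - x₀) = 0 := by rw [zl_sub, sub_self]
  rw [hz, norm_zero]
  have : 2 * √(Real.pi / (2 * K)) * (G / r) = 2 * (G / r / ε * √(Real.pi / (2 * K))) * ε := by
    field_simp
  rw [this]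
  simp only [ne_eq, OfNat.ofNat_ne_zero, not_false_eq_true, zero_pow, mul_zero, Real.exp_zero,
    one_mul]
  nlinarith

theorem db_exists {ι : Type} [Fintype ι] {θ : C3} (hθ : Null θ) {U : Set R3}
    (hU : Bornology.IsBounded U) (A : ι → ι → S) (g : ι → S) :
    ∃ h : ι → S, ∀ x ∈ U, ∀ p, (Dv θ (h p) + ∑ q, A p q * h q) x = g p x :=
  (db_peak hθ hU A g 0 one_pos).imp fun _ h => h.1

theorem db_scalar {θ : C3} (hθ : Null θ) {U : Set R3} (hU : Bornology.IsBounded U) (g : S) :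
    ∃ h : S, ∀ x ∈ U, Dv θ h x = g x := by
  obtain ⟨h, hh⟩ := db_exists (ι := Unit) hθ hU (fun _ _ => 0) fun _ => g
  exact ⟨h (), fun x hx => by simpa using hh x hx ()⟩

end Crest.Agent.R080
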