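import Crest.Prelude.Def_VecCalc3
import Crest.Prelude.Def_PlanarDomain
import Crest.Prelude.Def_Elasticity

/-!
Row 80 (global uniqueness for the Lamé moduli in dimension three): definitions.

`S` is the commutative `ℂ`-algebra of smooth complex functions on `ℝ³`, `pd i` are the partial
derivatives as commuting derivations of `S`.
-/

set_option autoImplicit false

open MeasureTheory Set Metric Filter Topology
open scoped ContDiff

noncomputable section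

namespace Crest.Agent.R080

abbrev R3 : Type := Crest.AnalysisR.VecCalc3.R3

/-- basis vectors -/
def eb (i : Fin 3) : R3 := EuclideanSpace.single i 1

/-- smooth functions as a subalgebra -/
def smSub : Subalgebra ℂ (R3 → ℂ) where
  carrier := {f | ContDiff ℝ ∞ f}
  mul_mem' := fun {f g} (hf : ContDiff ℝ ∞ f) (hg : ContDiff ℝ ∞ g) => hf.mul hg
  add_mem' := fun {f g} (hf : ContDiff ℝ ∞ f) (hg : ContDiff ℝ ∞ g) => hf.add hg
  algebraMap_mem' := fun c => (contDiff_const : ContDiff ℝ ∞ fun _ : R3 => c)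

/-- smooth complex functions on `ℝ³` -/
abbrev S : Type := smSub

instance : CoeFun S fun _ => R3 → ℂ := ⟨fun f => f.1⟩

namespace S

/-- a smooth function as an element of `S` -/
def mk' (f : R3 → ℂ) (hf : ContDiff ℝ ∞ f) : S := ⟨f, hf⟩

theorem sm (f : S) : ContDiff ℝ ∞ (f : R3 → ℂ) := f.2
theorem cont (f : S) : Continuous (f : R3 → ℂ) := f.sm.continuous
theorem diff (f : S) : Differentiable ℝ (f : R3 → ℂ) := f.sm.differentiable (by simp)

@[ext] theorem ext {f g : S} (h : ∀ x, f x = g x) : f = g := Subtype.ext (funext h)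

@[simp] theorem mk'_apply (f : R3 → ℂ) (hf : ContDiff ℝ ∞ f) (x : R3) : mk' f hf x = f x := rfl
@[simp] theorem add_apply (f g : S) (x : R3) : (f + g) x = f x + g x := rfl
@[simp] theorem sub_apply (f g : S) (x : R3) : (f - g) x = f x - g x := rfl
@[simp] theorem neg_apply (f : S) (x : R3) : (-f) x = -f x := rfl
@[simp] theorem mul_apply (f g : S) (x : R3) : (f * g) x = f x * g x := rfl
@[simp] theorem smul_apply (c : ℂ) (f : S) (x : R3) : (c • f) x = c * f x := rfl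
@[simp] theorem zero_apply (x : R3) : (0 : S) x = 0 := rfl
@[simp] theorem one_apply (x : R3) : (1 : S) x = 1 := rfl
@[simp] theorem pow_apply (f : S) (n : ℕ) (x : R3) : (f ^ n) x = f x ^ n := rfl
@[simp] theorem algebraMap_apply (c : ℂ) (x : R3) : (algebraMap ℂ S c) x = c := rfl
@[simp] theorem two_apply (x : R3) : (2 : S) x = 2 := rfl

/-- evaluation at a point -/
def ev (x : R3) : S →ₐ[ℂ] ℂ := (Pi.evalAlgHom ℂ (fun _ : R3 => ℂ) x).comp smSub.val

@[simp] theorem ev_apply (x : R3) (f : S) : ev x f = f x := rfl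

@[simp] theorem sum_apply {ι : Type*} (s : Finset ι) (f : ι → S) (x : R3) :
    (∑ i ∈ s, f i) x = ∑ i ∈ s, f i x := map_sum (ev x) f s

/-- the exponential -/
def exp (f : S) : S := mk' (fun x => Complex.exp (f x)) f.sm.cexp

@[simp] theorem exp_apply (f : S) (x : R3) : exp f x = Complex.exp (f x) := rfl

theorem exp_add (f g : S) : exp (f + g) = exp f * exp g := ext fun _ => Complex.exp_add _ _
@[simp] theorem exp_zero : exp 0 = 1 := ext fun _ => Complex.exp_zero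
theorem exp_mul_exp_neg (f : S) : exp f * exp (-f) = 1 := by rw [← exp_add, add_neg_cancel, exp_zero]

/-- a real smooth function as an element of `S` -/
def ofR (f : R3 → ℝ) (hf : ContDiff ℝ ∞ f) : S :=
  mk' (fun x => (f x : ℂ)) (Complex.ofRealCLM.contDiff.comp hf)

@[simp] theorem ofR_apply (f : R3 → ℝ) (hf : ContDiff ℝ ∞ f) (x : R3) : ofR f hf x = f x := rfl

/-- complex conjugate -/
def conj (f : S) : S :=
  mk' (fun x => (starRingEnd ℂ) (f x)) (Complex.conjCLE.contDiff.comp f.sm)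

@[simp] theorem conj_apply (f : S) (x : R3) : conj f x = (starRingEnd ℂ) (f x) := rfl

end S

/-- partial derivatives -/
def pd (i : Fin 3) : Derivation ℂ S S :=
  Derivation.mk'
    { toFun := fun f => S.mk' (fun x => fderiv ℝ f x (eb i))
        ((f.sm.fderiv_right (m := ∞) (by simp)).clm_apply contDiff_const)
      map_add' := fun f g => S.ext fun x => by
        change fderiv ℝ (fun y => f y + g y) x (eb i) = _
        rw [fderiv_fun_add (f.diff x) (g.diff x)]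
        rfl
      map_smul' := fun c f => S.ext fun x => by
        change fderiv ℝ (fun y => c • f y) x (eb i) = _
        rw [fderiv_fun_const_smul (f.diff x)]
        rfl }
    fun f g => S.ext fun x => by
      change fderiv ℝ (fun y => f y * g y) x (eb i) = _
      rw [fderiv_fun_mul (f.diff x) (g.diff x)]
      rfl

theorem pd_apply (i : Fin 3) (f : S) (x : R3) : pd i f x = fderiv ℝ f x (eb i) := rfl

theorem pd_mul (i : Fin 3) (f g : S) : pd i (f * g) = f * pd i g + g * pd i f :=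
  (pd i).leibniz f g

theorem pd_comm (i j : Fin 3) (f : S) : pd i (pd j f) = pd j (pd i f) := by
  refine S.ext fun x => ?_
  have h := (f.sm.contDiffAt (x := x)).isSymmSndFDerivAt (by simp; exact WithTop.coe_le_coe.2 le_top)
  have key : ∀ v w : R3, fderiv ℝ (fun y => fderiv ℝ f y w) x v = fderiv ℝ (fderiv ℝ f) x v w := by
    intro v w
    rw [fderiv_clm_apply ((f.sm.fderiv_right (m := ∞) (by simp)).differentiable (by simp) x)
      (differentiableAt_const _)]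
    simp
  change fderiv ℝ (fun y => fderiv ℝ f y (eb j)) x (eb i) =
    fderiv ℝ (fun y => fderiv ℝ f y (eb i)) x (eb j)
  rw [key, key, h.eq]

theorem pd_exp (i : Fin 3) (f : S) : pd i (S.exp f) = S.exp f * pd i f := by
  refine S.ext fun x => ?_
  change fderiv ℝ (fun y => Complex.exp (f y)) x (eb i) = _
  rw [((f.diff x).hasFDerivAt.cexp).fderiv]
  rfl

@[simp] theorem pd_two (i : Fin 3) : pd i (2 : S) = 0 := by
  rw [show (2 : S) = 1 + 1 by norm_num, map_add, (pd i).map_one_eq_zero, add_zero]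

theorem pd_congr {U : Set R3} (hU : IsOpen U) {f g : S} (h : ∀ x ∈ U, f x = g x) (i : Fin 3) :
    ∀ x ∈ U, pd i f x = pd i g x := fun x hx => by
  rw [pd_apply, pd_apply, Filter.EventuallyEq.fderiv_eq (f₁ := f) (f := g)
    (Filter.eventually_of_mem (hU.mem_nhds hx) h)]

/-- the coordinate functions -/
def crd (j : Fin 3) : S :=
  S.ofR (fun x => x j) (EuclideanSpace.proj (𝕜 := ℝ) j : R3 →L[ℝ] ℝ).contDiff

@[simp] theorem crd_apply (j : Fin 3) (x : R3) : crd j x = (x j : ℂ) := rfl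

theorem pd_crd (i j : Fin 3) : pd i (crd j) = if i = j then 1 else 0 := by
  refine S.ext fun x => ?_
  have h : HasFDerivAt (crd j : R3 → ℂ)
      (Complex.ofRealCLM.comp (EuclideanSpace.proj (𝕜 := ℝ) j : R3 →L[ℝ] ℝ)) x :=
    (Complex.ofRealCLM.comp (EuclideanSpace.proj (𝕜 := ℝ) j : R3 →L[ℝ] ℝ)).hasFDerivAt
  rw [pd_apply, h.fderiv]
  by_cases hij : i = j
  · simp [hij, eb]
  · simp [hij, eb, Ne.symm hij]

/-- complex vectors -/
abbrev C3 : Type := Fin 3 → ℂ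

/-- the bilinear pairing of complex vectors -/
def dot (a b : C3) : ℂ := ∑ i, a i * b i

/-- nonzero null vectors -/
def Null (θ : C3) : Prop := dot θ θ = 0 ∧ θ ≠ 0

/-- pairing of a constant vector with a vector field -/
def dotS (a : C3) (u : Fin 3 → S) : S := ∑ i, a i • u i

/-- the Laplacian -/
def lap (f : S) : S := ∑ i, pd i (pd i f)

/-- the complex directional derivative -/
def Dv (θ : C3) (f : S) : S := ∑ i, θ i • pd i f

/-- the divergence -/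
def dv (u : Fin 3 → S) : S := ∑ i, pd i (u i)

/-- twice the strain -/
def sym (u : Fin 3 → S) (i j : Fin 3) : S := pd i (u j) + pd j (u i)

/-- `exp (τ θ · x)` -/
def ex (τ : ℝ) (θ : C3) : S := S.exp ((τ : ℂ) • dotS θ crd)

theorem pd_ex (i : Fin 3) (τ : ℝ) (θ : C3) : pd i (ex τ θ) = ((τ : ℂ) * θ i) • ex τ θ := by
  rw [ex, pd_exp]
  simp only [dotS, Derivation.map_smul, map_sum, pd_crd, smul_ite, smul_zero, Finset.sum_ite_eq,
    Finset.mem_univ, if_true, mul_smul_comm, mul_one, smul_smul]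

theorem ex_mul_ex_neg (τ : ℝ) (θ : C3) : ex τ θ * ex (-τ) θ = 1 := by
  rw [ex, ex, Complex.ofReal_neg, neg_smul, S.exp_mul_exp_neg]

/-- squared `L²` norm on `U` -/
def nsq (U : Set R3) (f : R3 → ℂ) : ℝ := ∫ x in U, ‖f x‖ ^ 2

/-- convergence in `L²(U)` as `τ → ∞` -/
def Conv (U : Set R3) (F : ℝ → S) (f : S) : Prop :=
  Tendsto (fun τ => nsq U (F τ - f : S)) atTop (𝓝 0)

/-- compact support inside `U` -/
def Cs (U : Set R3) (f : S) : Prop := HasCompactSupport (f : R3 → ℂ) ∧ tsupport (f : R3 → ℂ) ⊆ U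

/-! ### systems with principal part the Laplacian -/

/-- lower order coefficients -/
structure Sys (ι : Type) where
  A : Fin 3 → ι → ι → S
  V : ι → ι → S

namespace Sys
variable {ι : Type} [Fintype ι] (P : Sys ι)

/-- the operator -/
def app (Z : ι → S) (a : ι) : S :=
  lap (Z a) + ∑ i, ∑ b, P.A i a b * pd i (Z b) + ∑ b, P.V a b * Z b

/-- the formal transpose -/
def tr : Sys ι where
  A i a b := -P.A i b a
  V a b := P.V b a - ∑ i, pd i (P.A i b a)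

/-- the system conjugated by `ex τ θ` -/
def conj [DecidableEq ι] (τ : ℝ) (θ : C3) : Sys ι where
  A i a b := P.A i a b + if a = b then algebraMap ℂ S (2 * (τ : ℂ) * θ i) else 0
  V a b := P.V a b + ∑ i, ((τ : ℂ) * θ i) • P.A i a b +
    if a = b then algebraMap ℂ S ((τ : ℂ) ^ 2 * dot θ θ) else 0

end Sys

/-! ### elasticity -/

/-- the elasticity operator -/
def Lop (lam mu : S) (u : Fin 3 → S) (i : Fin 3) : S :=
  pd i (lam * dv u) + ∑ j, pd j (mu * sym u i j)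

/-- the bilinear energy density -/
def en (lam mu : S) (u φ : Fin 3 → S) : S :=
  lam * dv u * dv φ + mu * ∑ i, ∑ j, sym u i j * pd i (φ j)

/-- a medium: `μ = exp m`, `β = (λ + μ) / (λ + 2 μ)`, `bi = β⁻¹`, `w = (1 - β)⁻¹` -/
structure Med where
  m : S
  β : S
  bi : S
  w : S
  β_bi : β * bi = 1
  β_w : (1 - β) * w = 1

namespace Med
variable (M : Med)

def mu : S := S.exp M.m
def lam : S := S.exp M.m * (2 * M.β - 1) * M.w
def H (i j : Fin 3) : S := pd i (pd j M.m) - pd i M.m * pd j M.m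
def Hq (u v : C3) : S := ∑ i, ∑ j, (u i * v j) • M.H i j

/-- Ikehata's system, vector part -/
def I1 (ξ : Fin 3 → S) (η : S) (i : Fin 3) : S :=
  lap (ξ i) - ∑ j, pd j (ξ i * pd j M.m) - ∑ j, pd j (pd i M.m * ξ j) + 2 * ∑ j, pd j (η * M.H i j)

/-- Ikehata's system, scalar part -/
def I2 (ξ : Fin 3 → S) (η : S) : S :=
  lap η + M.β * dv ξ - (2 * M.β - 1) * (∑ j, ξ j * pd j M.m - η * ∑ j, M.H j j)

/-- the displacement of a pair `(ξ, η)` -/
def y (ξ : Fin 3 → S) (η : S) (i : Fin 3) : S := S.exp (-M.m) * (ξ i + pd i η + η * pd i M.m)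

/-- transport operator of Ikehata's system, vector part -/
def P1 (θ : C3) (ξ : Fin 3 → S) (η : S) (i : Fin 3) : S :=
  2 * Dv θ (ξ i) - ξ i * Dv θ M.m - pd i M.m * dotS θ ξ + 2 * η * dotS θ (M.H i)

/-- transport operator of Ikehata's system, scalar part -/
def P2 (θ : C3) (ξ : Fin 3 → S) (η : S) : S := 2 * Dv θ η + M.β * dotS θ ξ

/-- leading term `c μ^(1/2) n` -/
def xi0 (c : ℂ) (n : C3) (i : Fin 3) : S := (c * n i) • S.exp ((1 / 2 : ℂ) • M.m)

/-- amplitude of the displacement -/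
def ampA (θ : C3) (c : ℂ) (n : C3) (η₁ : S) (i : Fin 3) : S :=
  S.exp (-M.m) * (M.xi0 c n i + θ i • η₁)

/-- amplitude of `(1 - β)⁻¹ div u` -/
def ampD (θ : C3) (c : ℂ) (n : C3) (ξ₁ : Fin 3 → S) : S :=
  S.exp (-M.m) * (dotS θ ξ₁ + dv (M.xi0 c n) - 2 * ∑ j, M.xi0 c n j * pd j M.m)

/-- first amplitude equation -/
def T1 (θ : C3) (a : Fin 3 → S) (δ : S) (i : Fin 3) : S :=
  2 * Dv θ (a i) + θ i • (M.β * δ + ∑ j, a j * pd j M.m) + a i * Dv θ M.m

/-- second amplitude equation -/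
def T2 (θ : C3) (a : Fin 3 → S) (δ : S) : S := Dv θ δ + ∑ i, ∑ j, θ i • (M.H i j * a j)

end Med

/-- `(a, δ)` is the amplitude of a family of exponentially growing solutions on `Ω` -/
structure Amp (Ω : Set R3) (M : Med) (θ : C3) (a : Fin 3 → S) (δ : S) : Prop where
  orth : dotS θ a = 0
  t1 : ∀ x ∈ Ω, ∀ i, M.T1 θ a δ i x = 0
  t2 : ∀ x ∈ Ω, M.T2 θ a δ x = 0
  cgo : ∃ u : ℝ → Fin 3 → S,
    (∀ᶠ τ in atTop, ∀ x ∈ Ω, ∀ i, Lop M.lam M.mu (u τ) i x = 0) ∧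
    (∀ i j, Conv Ω (fun τ => (τ : ℂ)⁻¹ • (ex (-τ) θ * pd i (u τ j))) (θ i • a j)) ∧
    Conv Ω (fun τ => ex (-τ) θ * dv (u τ)) ((1 - M.β) * δ)

/-! ### the null cone -/

/-- the null vectors -/
def th (ζ : ℂ) : C3 := ![1 - ζ ^ 2, Complex.I * (1 + ζ ^ 2), 2 * ζ]
/-- a basis of the orthogonal complement of `th ζ = e1 ζ + ζ e2 ζ` -/
def e1 (ζ : ℂ) : C3 := ![1, Complex.I, ζ]
def e2 (ζ : ℂ) : C3 := ![-ζ, Complex.I * ζ, 1]

/-- the transport matrix for `(φ₁, φ₂, δ)`, `a = φ₁ e1 + φ₂ e2` -/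
def Med.A (M : Med) (ζ : ℂ) : Matrix (Fin 3) (Fin 3) S :=
  !![(1 / 2 : ℂ) • (Dv (e1 ζ) M.m + Dv (th ζ) M.m), (1 / 2 : ℂ) • Dv (e2 ζ) M.m, (1 / 2 : ℂ) • M.β;
    (ζ / 2) • Dv (e1 ζ) M.m, (1 / 2 : ℂ) • (ζ • Dv (e2 ζ) M.m + Dv (th ζ) M.m), (ζ / 2) • M.β;
    M.Hq (th ζ) (e1 ζ), M.Hq (th ζ) (e2 ζ), 0]

/-- the transpose of `K ↦ D K + A₂ K - K A₁` -/
def Tt (θ : C3) (A₁ A₂ Ψ : Matrix (Fin 3) (Fin 3) S) : Matrix (Fin 3) (Fin 3) S :=
  Matrix.of fun i j => -Dv θ (Ψ i j) + ∑ l, A₂ l i * Ψ l j - ∑ l, Ψ i l * A₁ j l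

/-- frames of transport solutions orthogonal to the solutions of the transposed equation -/
def Frames (Ω : Set R3) (θ : C3) (A₁ A₂ : Matrix (Fin 3) (Fin 3) S) : Prop :=
  ∀ x₀ ∈ closure Ω, ∃ C : Matrix (Fin 3) (Fin 3) S, C.det x₀ ≠ 0 ∧
    (∀ x ∈ Ω, ∀ i k, (Dv θ (C i k) + ∑ l, A₁ i l * C l k) x = 0) ∧
    ∀ (k : Fin 3) (s : Fin 3 → S), (∀ x ∈ Ω, ∀ i, Dv θ (s i) x = (∑ l, A₂ l i * s l) x) →
      ∫ x in Ω, Dv θ (∑ i, s i * C i k) x = 0

/-- the two transport systems have the same Cauchy data -/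
def Gauge (Ω : Set R3) (θ : C3) (A₁ A₂ : Matrix (Fin 3) (Fin 3) S) : Prop :=
  ∀ Ψ : Matrix (Fin 3) (Fin 3) S, (∀ x ∈ Ω, ∀ i j, Tt θ A₁ A₂ Ψ i j x = 0) →
    ∫ x in Ω, Dv θ Ψ.trace x = 0

/-- `K` is the gauge (minus the identity), a distribution supported in the closure of `Ω` -/
def IsK (Ω : Set R3) (θ : C3) (A₁ A₂ : Matrix (Fin 3) (Fin 3) S)
    (K : Matrix (Fin 3) (Fin 3) S →ₗ[ℂ] ℂ) : Prop :=
  (∀ Φ : Matrix (Fin 3) (Fin 3) S, (∀ x ∈ Ω, ∀ i j, Φ i j x = 0) → K Φ = 0) ∧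
    ∀ Ψ : Matrix (Fin 3) (Fin 3) S,
      K (Tt θ A₁ A₂ Ψ) = ∫ x in Ω, (∑ i, ∑ j, (A₁ i j - A₂ i j) * Ψ i j) x

/-- the vector field `exp (ψ / 2) ∇ψ / β₂`, `ψ = m₁ - m₂` -/
def Yv (M₁ M₂ : Med) (b : Fin 3) : S :=
  S.exp ((1 / 2 : ℂ) • (M₁.m - M₂.m)) * M₂.bi * pd b (M₁.m - M₂.m)

/-- the matrix which is scalar at the end -/
def Nm (M₁ M₂ : Med) (a b : Fin 3) : S :=
  pd a (Yv M₁ M₂ b) + S.exp ((1 / 2 : ℂ) • (M₁.m - M₂.m)) * (M₂.H a b - M₁.H a b) -
    (1 / 2 : ℂ) • (Yv M₁ M₂ a * pd b M₁.m + pd a M₁.m * Yv M₁ M₂ b)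

/-! ### the planar operator -/

/-- the null vector `a + i b` -/
def thab (a b : R3) : C3 := fun i => (a i : ℂ) + Complex.I * (b i : ℂ)

/-- the embedding of the plane spanned by `a`, `b` -/
def iota (a b : R3) (w : ℂ) : R3 := w.re • a + w.im • b

/-- the complex coordinate along the plane -/
def zl (a b : R3) (x : R3) : ℂ := ((inner ℝ a x : ℝ) : ℂ) + Complex.I * ((inner ℝ b x : ℝ) : ℂ)

/-- kernel of the right inverse of `D + K z`, `z x = zl a b (x - x₀)` -/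
def dker (a b x₀ : R3) (K : ℝ) (x : R3) (w : ℂ) : ℂ :=
  (2 * (Real.pi : ℂ))⁻¹ * w⁻¹ * Complex.exp (-((K * ‖w‖ ^ 2 / 2 : ℝ) : ℂ) +
    Complex.I * ((K * (w * (starRingEnd ℂ) (zl a b (x - x₀))).im : ℝ) : ℂ))

/-- phase of the magnetic translations -/
def mph (a b x₀ : R3) (K : ℝ) (t x : R3) : ℂ :=
  Complex.exp (-(Complex.I * ((K * (zl a b (x - x₀) * (starRingEnd ℂ) (zl a b t)).im : ℝ) : ℂ)))

/-! ### real quantities -/

/-- the real bilinear energy density -/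
def enR (lam mu : R3 → ℝ) (u φ : R3 → R3) (x : R3) : ℝ :=
  lam x * Crest.AnalysisR.VecCalc3.div3 u x * Crest.AnalysisR.VecCalc3.div3 φ x +
    2 * mu x * ∑ i, ∑ j, Crest.AnalysisR.PDE.Elasticity.symGrad u i j x *
      Crest.AnalysisR.PDE.Elasticity.symGrad φ i j x

/-- real Laplacian -/
def lapR (h : R3 → ℝ) (x : R3) : ℝ :=
  ∑ i, Crest.AnalysisR.VecCalc3.pderiv (Crest.AnalysisR.VecCalc3.pderiv h i) i x

/-- squared norm of the Hessian -/
def hess2 (h : R3 → ℝ) (x : R3) : ℝ :=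
  ∑ i, ∑ j, Crest.AnalysisR.VecCalc3.pderiv (Crest.AnalysisR.VecCalc3.pderiv h j) i x ^ 2

/-- the convexified Carleman weight `exp (2 Φ)` -/
def wt (η : R3) (K τ : ℝ) (x : R3) : ℝ :=
  Real.exp (2 * (τ * inner ℝ η x + K / 2 * inner ℝ η x ^ 2))

/-! ### domains -/

/-- a bounded domain with a defining function -/
structure Dom where
  Ω : Set R3
  ρ : R3 → ℝ
  sm : ContDiff ℝ ∞ ρ
  eq : Ω = {x | ρ x < 0}
  reg : ∀ x, ρ x = 0 → fderiv ℝ ρ x ≠ 0
  bdd : Bornology.IsBounded Ω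

/-- smooth real moduli, positive on the closure, with the same boundary data -/
structure Data (D : Dom) where
  lam₁ : R3 → ℝ
  mu₁ : R3 → ℝ
  lam₂ : R3 → ℝ
  mu₂ : R3 → ℝ
  lam₁_sm : ContDiff ℝ ∞ lam₁
  mu₁_sm : ContDiff ℝ ∞ mu₁
  lam₂_sm : ContDiff ℝ ∞ lam₂
  mu₂_sm : ContDiff ℝ ∞ mu₂
  pos : ∀ x ∈ closure D.Ω, 0 < mu₁ x ∧ 0 < 3 * lam₁ x + 2 * mu₁ x ∧ 0 < mu₂ x ∧
    0 < 3 * lam₂ x + 2 * mu₂ x
  same : Crest.AnalysisR.PDE.Elasticity.SameBoundaryData D.Ω lam₁ mu₁ lam₂ mu₂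

/-- what the interior argument needs from the pair of media -/
structure Pair (D : Dom) (M₁ M₂ : Med) : Prop where
  ale : ∀ u₁ u₂ : Fin 3 → S, (∀ x ∈ D.Ω, ∀ i, Lop M₁.lam M₁.mu u₁ i x = 0) →
    (∀ x ∈ D.Ω, ∀ i, Lop M₂.lam M₂.mu u₂ i x = 0) →
    ∫ x in D.Ω, en M₁.lam M₁.mu u₁ u₂ x = ∫ x in D.Ω, en M₂.lam M₂.mu u₁ u₂ x
  m_eq : ∀ x ∈ frontier D.Ω, M₁.m x = M₂.m x
  dm_eq : ∀ x ∈ frontier D.Ω, ∀ i, pd i M₁.m x = pd i M₂.m x

end Crest.Agent.R080
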