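import Crest.Agent.R080.Geo

/-!
Row 80: the real energy form.
-/

set_option autoImplicit false

open MeasureTheory Set Metric Filter Topology
open scoped ContDiff

noncomputable section

namespace Crest.Agent.R080

open Crest.AnalysisR.VecCalc3 (pderiv div3)
open Crest.AnalysisR.PDE.Elasticity

theorem comp_contDiff {u : R3 → R3} (hu : ContDiff ℝ 1 u) (i : Fin 3) :
    ContDiff ℝ 1 fun y => u y i :=
  (EuclideanSpace.proj (𝕜 := ℝ) i : R3 →L[ℝ] ℝ).contDiff.comp hu

theorem pderiv_cont {g : R3 → ℝ} (hg : ContDiff ℝ 1 g) (i : Fin 3) : Continuous (pderiv g i) :=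
  (hg.continuous_fderiv one_ne_zero).clm_apply continuous_const

theorem pderiv_comp_add {φ ψ : R3 → R3} (hφ : ContDiff ℝ 1 φ) (hψ : ContDiff ℝ 1 ψ) (i j : Fin 3)
    (x : R3) : pderiv (fun y => (φ + ψ) y i) j x =
      pderiv (fun y => φ y i) j x + pderiv (fun y => ψ y i) j x := by
  have h1 := (comp_contDiff hφ i).differentiable one_ne_zero x
  have h2 := (comp_contDiff hψ i).differentiable one_ne_zero x
  have : (fun y => (φ + ψ) y i) = fun y => φ y i + ψ y i := rfl
  unfold pderiv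
  rw [this, fderiv_fun_add h1 h2]
  rfl

theorem pderiv_comp_smul {φ : R3 → R3} (hφ : ContDiff ℝ 1 φ) (t : ℝ) (i j : Fin 3)
    (x : R3) : pderiv (fun y => (t • φ) y i) j x = t * pderiv (fun y => φ y i) j x := by
  have h1 := (comp_contDiff hφ i).differentiable one_ne_zero x
  have : (fun y => (t • φ) y i) = fun y => t • φ y i := rfl
  unfold pderiv
  rw [this, fderiv_fun_const_smul h1]
  rfl

theorem div3_cont {u : R3 → R3} (hu : ContDiff ℝ 1 u) : Continuous (div3 u) :=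
  continuous_finsetSum _ fun i _ => pderiv_cont (comp_contDiff hu i) i

theorem symGrad_cont {u : R3 → R3} (hu : ContDiff ℝ 1 u) (i j : Fin 3) :
    Continuous (symGrad u i j) :=
  ((pderiv_cont (comp_contDiff hu j) i).add (pderiv_cont (comp_contDiff hu i) j)).div_const 2

theorem cont_integrableOn (D : Dom) {f : R3 → ℝ} (hf : Continuous f) : IntegrableOn f D.Ω :=
  (hf.continuousOn.integrableOn_compact D.isCompact_closure).mono_set subset_closure

theorem enR_self (lam mu : R3 → ℝ) (u : R3 → R3) (x : R3) :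
    enR lam mu u u x = energyDensity lam mu u x := by
  simp only [enR, energyDensity, sq, mul_assoc]

theorem enR_comm (lam mu : R3 → ℝ) (u φ : R3 → R3) (x : R3) :
    enR lam mu u φ x = enR lam mu φ u x := by
  simp only [enR, Fin.sum_univ_three]
  ring

theorem enR_add_right (lam mu : R3 → ℝ) (u : R3 → R3) {φ ψ : R3 → R3} (hφ : ContDiff ℝ 1 φ)
    (hψ : ContDiff ℝ 1 ψ) (x : R3) :
    enR lam mu u (φ + ψ) x = enR lam mu u φ x + enR lam mu u ψ x := by
  simp only [enR, div3, symGrad, pderiv_comp_add hφ hψ, Fin.sum_univ_three]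
  ring

theorem enR_smul_right (lam mu : R3 → ℝ) (u : R3 → R3) {φ : R3 → R3} (hφ : ContDiff ℝ 1 φ) (t : ℝ)
    (x : R3) : enR lam mu u (t • φ) x = t * enR lam mu u φ x := by
  simp only [enR, div3, symGrad, pderiv_comp_smul hφ, Fin.sum_univ_three]
  ring

theorem enR_integrableOn (D : Dom) {lam mu : R3 → ℝ} (hl : Continuous lam) (hm : Continuous mu)
    {u φ : R3 → R3} (hu : ContDiff ℝ 1 u) (hφ : ContDiff ℝ 1 φ) :
    IntegrableOn (enR lam mu u φ) D.Ω := by
  refine cont_integrableOn D ?_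
  refine ((hl.mul (div3_cont hu)).mul (div3_cont hφ)).add
    ((continuous_const.mul hm).mul (continuous_finsetSum _ fun i _ =>
      continuous_finsetSum _ fun j _ => (symGrad_cont hu i j).mul (symGrad_cont hφ i j)))

theorem energy_add (D : Dom) {lam mu : R3 → ℝ} (hl : Continuous lam) (hm : Continuous mu)
    {u φ : R3 → R3} (hu : ContDiff ℝ 1 u) (hφ : ContDiff ℝ 1 φ) :
    elasticEnergy D.Ω lam mu (u + φ) = elasticEnergy D.Ω lam mu u +
      2 * (∫ x in D.Ω, enR lam mu u φ x) + elasticEnergy D.Ω lam mu φ := by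
  have key : ∀ x, energyDensity lam mu (u + φ) x =
      enR lam mu u u x + 2 * enR lam mu u φ x + enR lam mu φ φ x := by
    intro x
    rw [← enR_self, enR_add_right _ _ _ hu hφ, enR_comm _ _ _ u, enR_comm _ _ _ φ,
      enR_add_right _ _ _ hu hφ, enR_add_right _ _ _ hu hφ, enR_comm _ _ φ u]
    ring
  have i1 := enR_integrableOn D hl hm hu hu
  have i2 := (enR_integrableOn D hl hm hu hφ).const_mul 2
  have i3 := enR_integrableOn D hl hm hφ hφ
  unfold elasticEnergy
  simp only [key]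
  have i4 : IntegrableOn (fun x => enR lam mu u u x + 2 * enR lam mu u φ x) D.Ω := i1.add i2
  rw [integral_add i4 i3, integral_add i1 i2, integral_const_mul]
  simp only [enR_self]

/-- the density controls the trace-free part of the strain -/
theorem density_ge {lam mu : R3 → ℝ} {x : R3} (h : 0 ≤ 3 * lam x + 2 * mu x) (u : R3 → R3) :
    2 * mu x * ∑ i, ∑ j, (symGrad u i j x - if i = j then div3 u x / 3 else 0) ^ 2 ≤
      energyDensity lam mu u x := by
  have hd : div3 u x = symGrad u 0 0 x + symGrad u 1 1 x + symGrad u 2 2 x := by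
    simp only [div3, symGrad, Fin.sum_univ_three]
    ring
  have h2 := mul_nonneg h (sq_nonneg (div3 u x))
  simp only [energyDensity, Fin.sum_univ_three]
  simp only [Fin.reduceEq, if_true, if_false]
  rw [hd] at h2 ⊢
  nlinarith [h2]

theorem energy_nonneg (D : Dom) {lam mu : R3 → ℝ}
    (h : ∀ x ∈ D.Ω, 0 ≤ mu x ∧ 0 ≤ 3 * lam x + 2 * mu x) (u : R3 → R3) :
    0 ≤ elasticEnergy D.Ω lam mu u := by
  refine setIntegral_nonneg D.measurableSet fun x hx => le_trans ?_ (density_ge (h x hx).2 u)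
  have := (h x hx).1
  positivity

/-- a divergence-free symmetric stress does no work on a field vanishing on the frontier
(`Dom.ibp0` for the `C¹` functions `σ i j * r i`) -/
theorem stress_zero (D : Dom) {σ : Fin 3 → Fin 3 → R3 → ℝ} (hσ : ∀ i j, ContDiff ℝ 1 (σ i j))
    (hs : ∀ i j, σ i j = σ j i) (hd : ∀ x ∈ D.Ω, ∀ i, ∑ j, pderiv (σ i j) j x = 0)
    {r : R3 → R3} (hr : ContDiff ℝ 1 r) (h0 : ∀ x ∈ frontier D.Ω, r x = 0) :
    ∫ x in D.Ω, ∑ i, ∑ j, σ i j x * symGrad r i j x = 0 := by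
  have hF : ∀ i j, ContDiff ℝ 1 fun y => σ i j y * r y i := fun i j =>
    (hσ i j).mul (comp_contDiff hr i)
  have hp : ∀ i j x, pderiv (fun y => σ i j y * r y i) j x =
      σ i j x * pderiv (fun y => r y i) j x + r x i * pderiv (σ i j) j x := by
    intro i j x
    unfold pderiv
    rw [fderiv_fun_mul ((hσ i j).differentiable one_ne_zero x)
      ((comp_contDiff hr i).differentiable one_ne_zero x)]
    rfl
  have key : ∀ x ∈ D.Ω, ∑ i, ∑ j, σ i j x * symGrad r i j x =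
      ∑ i, ∑ j, pderiv (fun y => σ i j y * r y i) j x := by
    intro x hx
    have d0 := hd x hx 0
    have d1 := hd x hx 1
    have d2 := hd x hx 2
    have s01 := congrFun (hs 1 0) x
    have s02 := congrFun (hs 2 0) x
    have s12 := congrFun (hs 2 1) x
    simp only [hp, symGrad, Fin.sum_univ_three] at d0 d1 d2 ⊢
    rw [s01, s02, s12]
    linear_combination (-(r x 0)) * d0 - r x 1 * d1 - r x 2 * d2
  rw [setIntegral_congr_fun D.measurableSet key, integral_finsetSum]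
  · refine Finset.sum_eq_zero fun i _ => ?_
    rw [integral_finsetSum]
    · refine Finset.sum_eq_zero fun j _ => ?_
      exact D.ibp0 (hF i j) (fun x hx => by simp [h0 x hx]) _
    · exact fun j _ => cont_integrableOn D (pderiv_cont (hF i j) j)
  · exact fun i _ => cont_integrableOn D
      (continuous_finsetSum _ fun j _ => pderiv_cont (hF i j) j)

/-- The abstract Alessandrini identity. Let `ε > 0`, `t` real. `T.same` (datum `u₁`) gives `r`
vanishing on the frontier with `E₂ (u₁ + r) < E₁ u₁ + ε`; `u₁ + r + t u₂` is a competitor for the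
datum `u₁ + t u₂`, so there is `w = u₁ + t u₂ + r'` with `E₁ w < E₂ (u₁ + r + t u₂) + ε`;
`E₁ w ≥ E₁ u₁ + 2 t a₁(u₁, u₂)` and `E₂ (u₁ + r + t u₂) = E₂ (u₁ + r) + 2 t a₂(u₁, u₂) + t² E₂ u₂`.
So `2 t (a₁ - a₂) ≤ t² E₂ u₂` for all `t`. -/
theorem Data.aleR {D : Dom} (T : Data D) {u₁ u₂ : R3 → R3} (hu₁ : ContDiff ℝ 1 u₁)
    (hu₂ : ContDiff ℝ 1 u₂)
    (h₁ : ∀ r : R3 → R3, ContDiff ℝ 1 r → (∀ x ∈ frontier D.Ω, r x = 0) →
      ∫ x in D.Ω, enR T.lam₁ T.mu₁ u₁ r x = 0)
    (h₂ : ∀ r : R3 → R3, ContDiff ℝ 1 r → (∀ x ∈ frontier D.Ω, r x = 0) →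
      ∫ x in D.Ω, enR T.lam₂ T.mu₂ u₂ r x = 0) :
    ∫ x in D.Ω, enR T.lam₁ T.mu₁ u₁ u₂ x = ∫ x in D.Ω, enR T.lam₂ T.mu₂ u₁ u₂ x := by
  have l1 := T.lam₁_sm.continuous
  have m1 := T.mu₁_sm.continuous
  have l2 := T.lam₂_sm.continuous
  have m2 := T.mu₂_sm.continuous
  set a₁ := ∫ x in D.Ω, enR T.lam₁ T.mu₁ u₁ u₂ x with ha₁
  set a₂ := ∫ x in D.Ω, enR T.lam₂ T.mu₂ u₁ u₂ x with ha₂
  set E := elasticEnergy D.Ω T.lam₂ T.mu₂ u₂ with hE
  have key : ∀ t ε : ℝ, 0 < ε → 2 * t * (a₁ - a₂) ≤ t ^ 2 * E + 2 * ε := by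
    intro t ε hε
    have ht : ContDiff ℝ 1 (t • u₂) := hu₂.const_smul t
    obtain ⟨w₀, ⟨hw₀, hb₀⟩, e₀⟩ := (T.same u₁ hu₁).1 u₁ ⟨hu₁, fun _ _ => rfl⟩ ε hε
    obtain ⟨w, ⟨hw, hb⟩, e⟩ := (T.same (u₁ + t • u₂) (hu₁.add ht)).2 (w₀ + t • u₂)
      ⟨hw₀.add ht, fun x hx => by simp only [Pi.add_apply, hb₀ x hx]⟩ ε hε
    have hr : ContDiff ℝ 1 (w₀ - u₁) := hw₀.sub hu₁
    have hr' : ContDiff ℝ 1 (w - (u₁ + t • u₂)) := hw.sub (hu₁.add ht)
    have z₂ := h₂ _ hr fun x hx => by simp only [Pi.sub_apply, hb₀ x hx, sub_self]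
    have z₁ := h₁ _ hr' fun x hx => by simp only [Pi.sub_apply, hb x hx, sub_self]
    have hs : ContDiff ℝ 1 (t • u₂ + (w - (u₁ + t • u₂))) := ht.add hr'
    have ew : w = u₁ + (t • u₂ + (w - (u₁ + t • u₂))) := by abel
    have A1 := energy_add D l1 m1 hu₁ hs
    rw [← ew] at A1
    have A2 : ∫ x in D.Ω, enR T.lam₁ T.mu₁ u₁ (t • u₂ + (w - (u₁ + t • u₂))) x = t * a₁ := by
      simp only [enR_add_right _ _ _ ht hr', enR_smul_right _ _ _ hu₂]
      rw [integral_add ((enR_integrableOn D l1 m1 hu₁ hu₂).const_mul t)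
        (enR_integrableOn D l1 m1 hu₁ hr'), z₁, integral_const_mul, add_zero]
    have A3 : 0 ≤ elasticEnergy D.Ω T.lam₁ T.mu₁ (t • u₂ + (w - (u₁ + t • u₂))) :=
      energy_nonneg D (fun x hx => ⟨(T.pos x (subset_closure hx)).1.le,
        (T.pos x (subset_closure hx)).2.1.le⟩) _
    have B1 := energy_add D l2 m2 hw₀ ht
    have B2 : ∫ x in D.Ω, enR T.lam₂ T.mu₂ w₀ (t • u₂) x = t * a₂ := by
      have ew₀ : w₀ = u₁ + (w₀ - u₁) := by abel
      have : ∀ x, enR T.lam₂ T.mu₂ w₀ (t • u₂) x =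
          t * (enR T.lam₂ T.mu₂ u₁ u₂ x + enR T.lam₂ T.mu₂ u₂ (w₀ - u₁) x) := by
        intro x
        rw [enR_smul_right _ _ _ hu₂, enR_comm _ _ u₁, ← enR_add_right _ _ _ hu₁ hr, ← ew₀,
          enR_comm]
      simp only [this]
      rw [integral_const_mul, integral_add (enR_integrableOn D l2 m2 hu₁ hu₂)
        (enR_integrableOn D l2 m2 hu₂ hr), z₂, add_zero]
    have B3 : elasticEnergy D.Ω T.lam₂ T.mu₂ (t • u₂) = t ^ 2 * E := by
      have : ∀ x, energyDensity T.lam₂ T.mu₂ (t • u₂) x =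
          t ^ 2 * energyDensity T.lam₂ T.mu₂ u₂ x := by
        intro x
        rw [← enR_self, enR_smul_right _ _ _ hu₂, enR_comm, enR_smul_right _ _ _ hu₂, enR_self]
        ring
      rw [hE]
      unfold elasticEnergy
      simp only [this]
      rw [integral_const_mul]
    rw [A2] at A1
    rw [B2, B3] at B1
    linarith
  have key2 : ∀ t : ℝ, 2 * t * (a₁ - a₂) ≤ t ^ 2 * E := fun t =>
    le_of_forall_pos_le_add fun ε hε => by
      have := key t (ε / 2) (by positivity)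
      linarith
  have hE0 : 0 ≤ E := energy_nonneg D (fun x hx => ⟨(T.pos x (subset_closure hx)).2.2.1.le,
    (T.pos x (subset_closure hx)).2.2.2.le⟩) _
  have h := key2 ((a₁ - a₂) / (E + 1))
  have hE1 : 0 < E + 1 := by linarith
  set d := a₁ - a₂ with hd
  have h' : (d / (E + 1)) ^ 2 * (E + 2) ≤ 0 := by
    have : 2 * (d / (E + 1)) * d = 2 * (d / (E + 1)) ^ 2 * (E + 1) := by
      field_simp
    rw [this] at h
    linarith
  have h'' : (d / (E + 1)) ^ 2 = 0 :=
    le_antisymm (by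
      by_contra hc
      exact absurd h' (not_le.2 (mul_pos (not_le.1 hc) (by linarith)))) (sq_nonneg _)
  have : d = 0 := by
    rcases div_eq_zero_iff.1 (pow_eq_zero_iff two_ne_zero |>.1 h'') with h | h
    · exact h
    · exact absurd h hE1.ne'
  linarith

end Crest.Agent.R080
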