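import Crest.Agent.R080.EnR
import Crest.Agent.R080.L2

/-!
Row 80: Alessandrini's identity for complex smooth solutions.
-/

set_option autoImplicit false

open MeasureTheory Set Metric Filter Topology
open scoped ContDiff

noncomputable section

namespace Crest.Agent.R080

open Crest.AnalysisR.VecCalc3 (pderiv div3)
open Crest.AnalysisR.PDE.Elasticity

/-- the stress tensor -/
def energy_str (lam mu : S) (u : Fin 3 → S) (i j : Fin 3) : S :=
  (if i = j then lam * dv u else 0) + mu * sym u i j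

theorem energy_str_symm (lam mu : S) (u : Fin 3 → S) (i j : Fin 3) :
    energy_str lam mu u i j = energy_str lam mu u j i := by
  simp only [energy_str, sym, eq_comm (a := i), add_comm (pd i (u j))]

theorem energy_str_div (lam mu : S) (u : Fin 3 → S) (i : Fin 3) :
    ∑ j, pd j (energy_str lam mu u i j) = Lop lam mu u i := by
  simp only [energy_str, Lop, map_add, Finset.sum_add_distrib, apply_ite (pd _), map_zero,
    Finset.sum_ite_eq, Finset.mem_univ, if_true]

theorem energy_en_eq (lam mu : S) (u φ : Fin 3 → S) :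
    en lam mu u φ = ∑ i, pd i (∑ j, energy_str lam mu u j i * φ j) - ∑ j, Lop lam mu u j * φ j := by
  simp only [← energy_str_div, map_sum, pd_mul, Finset.sum_add_distrib, Finset.sum_mul]
  rw [Finset.sum_comm (f := fun i j => φ j * pd i (energy_str lam mu u j i))]
  simp only [mul_comm (φ _), add_sub_cancel_right]
  simp only [en, energy_str, dv, sym, Fin.sum_univ_three]
  simp
  ring

/-- real or imaginary part of a vector field -/
def energy_part (L : ℂ →L[ℝ] ℝ) (u : Fin 3 → S) : R3 → R3 :=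
  fun x => WithLp.toLp 2 fun i => L (u i x)

theorem energy_part_sm (L : ℂ →L[ℝ] ℝ) (u : Fin 3 → S) : ContDiff ℝ 1 (energy_part L u) := by
  refine contDiff_euclidean.2 fun i => ?_
  exact L.contDiff.comp ((u i).sm.of_le (by simp))

theorem energy_pderiv (L : ℂ →L[ℝ] ℝ) (f : S) (i : Fin 3) (x : R3) :
    pderiv (fun y => L (f y)) i x = L (pd i f x) := by
  change fderiv ℝ (L ∘ f) x (eb i) = _
  rw [(L.hasFDerivAt.comp x (f.diff x).hasFDerivAt).fderiv]
  rfl

theorem energy_div (L : ℂ →L[ℝ] ℝ) (u : Fin 3 → S) (x : R3) :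
    div3 (energy_part L u) x = ∑ i, L (pd i (u i) x) :=
  Finset.sum_congr rfl fun i _ => energy_pderiv L (u i) i x

theorem energy_symGrad (L : ℂ →L[ℝ] ℝ) (u : Fin 3 → S) (i j : Fin 3) (x : R3) :
    symGrad (energy_part L u) i j x = (L (pd i (u j) x) + L (pd j (u i) x)) / 2 := by
  rw [← energy_pderiv, ← energy_pderiv]; rfl

theorem energy_weak (D : Dom) {lam mu : R3 → ℝ} (hl : ContDiff ℝ ∞ lam) (hm : ContDiff ℝ ∞ mu)
    (L : ℂ →L[ℝ] ℝ) (u : Fin 3 → S)
    (hu : ∀ x ∈ D.Ω, ∀ i, Lop (S.ofR lam hl) (S.ofR mu hm) u i x = 0) (r : R3 → R3)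
    (hr : ContDiff ℝ 1 r) (h0 : ∀ x ∈ frontier D.Ω, r x = 0) :
    ∫ x in D.Ω, enR lam mu (energy_part L u) r x = 0 := by
  have hL : ∀ (t : ℝ) (z : ℂ), L ((t : ℂ) * z) = t * L z := fun t z => by
    rw [← Complex.real_smul, map_smul, smul_eq_mul]
  rw [← stress_zero D (σ := fun i j x => L (energy_str (S.ofR lam hl) (S.ofR mu hm) u i j x))
    (fun i j => L.contDiff.comp ((energy_str _ _ u i j).sm.of_le (by simp)))
    (fun i j => by rw [energy_str_symm]) (fun x hx i => by
      simp only [energy_pderiv]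
      rw [← map_sum, ← S.sum_apply, energy_str_div, hu x hx i, map_zero]) hr h0]
  refine integral_congr_ae (ae_of_all _ fun x => ?_)
  have hd : div3 r x = ∑ i, symGrad r i i x := Finset.sum_congr rfl fun i _ => by
    simp [symGrad]
  simp only [enR, energy_div, energy_symGrad, hd, energy_str, dv, sym, Fin.sum_univ_three]
  simp [hL]
  ring

theorem energy_split {lam mu : R3 → ℝ} (hl : ContDiff ℝ ∞ lam) (hm : ContDiff ℝ ∞ mu)
    (u φ : Fin 3 → S) (x : R3) : en (S.ofR lam hl) (S.ofR mu hm) u φ x =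
      ((enR lam mu (energy_part Complex.reCLM u) (energy_part Complex.reCLM φ) x : ℝ) : ℂ) -
      ((enR lam mu (energy_part Complex.imCLM u) (energy_part Complex.imCLM φ) x : ℝ) : ℂ) +
      Complex.I * (((enR lam mu (energy_part Complex.reCLM u) (energy_part Complex.imCLM φ) x : ℝ) : ℂ) +
      ((enR lam mu (energy_part Complex.imCLM u) (energy_part Complex.reCLM φ) x : ℝ) : ℂ)) := by
  simp only [enR, energy_div, energy_symGrad, en, dv, sym, Fin.sum_univ_three]
  apply Complex.ext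
  · simp
    ring
  · simp
    ring

theorem energy_integral (D : Dom) {lam mu : R3 → ℝ} (hl : ContDiff ℝ ∞ lam) (hm : ContDiff ℝ ∞ mu)
    (u φ : Fin 3 → S) : ∫ x in D.Ω, en (S.ofR lam hl) (S.ofR mu hm) u φ x =
      ((∫ x in D.Ω, enR lam mu (energy_part Complex.reCLM u) (energy_part Complex.reCLM φ) x : ℝ) : ℂ) -
      ((∫ x in D.Ω, enR lam mu (energy_part Complex.imCLM u) (energy_part Complex.imCLM φ) x : ℝ) : ℂ) +
      Complex.I * (((∫ x in D.Ω, enR lam mu (energy_part Complex.reCLM u)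
        (energy_part Complex.imCLM φ) x : ℝ) : ℂ) +
      ((∫ x in D.Ω, enR lam mu (energy_part Complex.imCLM u)
        (energy_part Complex.reCLM φ) x : ℝ) : ℂ)) := by
  have hI : ∀ L L' : ℂ →L[ℝ] ℝ, Integrable (fun x =>
      ((enR lam mu (energy_part L u) (energy_part L' φ) x : ℝ) : ℂ)) (volume.restrict D.Ω) :=
    fun L L' => (enR_integrableOn D hl.continuous hm.continuous (energy_part_sm L u)
      (energy_part_sm L' φ)).ofReal
  simp only [energy_split]
  rw [integral_add, integral_sub (hI _ _) (hI _ _), integral_const_mul,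
    integral_add (hI _ _) (hI _ _)]
  · simp only [integral_complex_ofReal]
  · exact (hI _ _).sub (hI _ _)
  · exact ((hI _ _).add (hI _ _)).const_mul _

/-- `en lam mu u φ = ∑ i, pd i (∑ j, σ i j * φ j) - ∑ j, Lop lam mu u j * φ j` with
`σ i j = lam * dv u * δ i j + mu * sym u i j`; then `Dom.ibp0S`. -/
theorem Dom.en_zero (D : Dom) (lam mu : S) (u φ : Fin 3 → S)
    (hu : ∀ x ∈ D.Ω, ∀ i, Lop lam mu u i x = 0) (hφ : ∀ x ∈ frontier D.Ω, ∀ i, φ i x = 0) :
    ∫ x in D.Ω, en lam mu u φ x = 0 := by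
  rw [energy_en_eq, integral_sub' D.bdd, integral_sum' D.bdd,
    Finset.sum_eq_zero fun i _ => D.ibp0S _ (fun x hx => by simp [hφ x hx]) i,
    setIntegral_congr_fun D.measurableSet (g := fun _ => 0) (fun x hx => by simp [hu x hx])]
  simp

/-- Split `u₁`, `u₂` into real and imaginary parts (real fields `fun x => toLp 2 fun i => (u i x).re`),
each of which solves the real equation; `stress_zero` gives the hypotheses of `Data.aleR`. -/
theorem Data.ale {D : Dom} (T : Data D) (u₁ u₂ : Fin 3 → S)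
    (h₁ : ∀ x ∈ D.Ω, ∀ i, Lop (S.ofR T.lam₁ T.lam₁_sm) (S.ofR T.mu₁ T.mu₁_sm) u₁ i x = 0)
    (h₂ : ∀ x ∈ D.Ω, ∀ i, Lop (S.ofR T.lam₂ T.lam₂_sm) (S.ofR T.mu₂ T.mu₂_sm) u₂ i x = 0) :
    ∫ x in D.Ω, en (S.ofR T.lam₁ T.lam₁_sm) (S.ofR T.mu₁ T.mu₁_sm) u₁ u₂ x =
      ∫ x in D.Ω, en (S.ofR T.lam₂ T.lam₂_sm) (S.ofR T.mu₂ T.mu₂_sm) u₁ u₂ x := by
  have key : ∀ L L' : ℂ →L[ℝ] ℝ,
      ∫ x in D.Ω, enR T.lam₁ T.mu₁ (energy_part L u₁) (energy_part L' u₂) x =
        ∫ x in D.Ω, enR T.lam₂ T.mu₂ (energy_part L u₁) (energy_part L' u₂) x := fun L L' =>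
    T.aleR (energy_part_sm L u₁) (energy_part_sm L' u₂)
      (energy_weak D T.lam₁_sm T.mu₁_sm L u₁ h₁) (energy_weak D T.lam₂_sm T.mu₂_sm L' u₂ h₂)
  rw [energy_integral, energy_integral, key, key, key, key]

end Crest.Agent.R080
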