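import Crest.Agent.R080.Geo

/-!
Row 80: ingredients of Seeley's extension: the sequence, the collar, unique differentiability.
-/

set_option autoImplicit false

open MeasureTheory Set Metric Filter Topology
open scoped ContDiff

noncomputable section

namespace Crest.Agent.R080

/-- coefficients of the entire function `∏ (1 - z / 4 ^ (k + 1))` -/
def seeleyD : ℕ → ℝ
  | 0 => 1
  | j + 1 => -((1 / 4 : ℝ) ^ (j + 1) / (1 - (1 / 4 : ℝ) ^ (j + 1))) * seeleyD j

theorem seeley_pow_le (j : ℕ) : (1 / 4 : ℝ) ^ (j + 1) ≤ 1 / 4 := by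
  rw [pow_succ]
  have : (1 / 4 : ℝ) ^ j ≤ 1 := pow_le_one₀ (by norm_num) (by norm_num)
  linarith

theorem seeleyD_rec (j : ℕ) : seeleyD (j + 1) =
    seeleyD (j + 1) * (1 / 4 : ℝ) ^ (j + 1) - (1 / 4 : ℝ) ^ (j + 1) * seeleyD j := by
  have h := seeley_pow_le j
  have h' : (1 - (1 / 4 : ℝ) ^ (j + 1)) ≠ 0 := by linarith
  rw [seeleyD]
  field_simp
  ring

theorem seeleyD_abs_le (j : ℕ) :
    |seeleyD (j + 1)| ≤ 4 / 3 * (1 / 4 : ℝ) ^ (j + 1) * |seeleyD j| := by
  have h := seeley_pow_le j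
  have h0 : (0 : ℝ) < (1 / 4 : ℝ) ^ (j + 1) := by positivity
  have h' : 0 < (1 - (1 / 4 : ℝ) ^ (j + 1)) := by linarith
  rw [seeleyD, abs_mul, abs_neg, abs_of_pos (div_pos h0 h')]
  refine mul_le_mul_of_nonneg_right ?_ (abs_nonneg _)
  rw [div_le_iff₀ h']
  nlinarith

theorem seeleyD_abs_le_pow (j : ℕ) : |seeleyD j| ≤ (1 / 3 : ℝ) ^ j := by
  induction j with
  | zero => simp [seeleyD]
  | succ j ih =>
    have h := seeley_pow_le j
    calc |seeleyD (j + 1)| ≤ 4 / 3 * (1 / 4 : ℝ) ^ (j + 1) * |seeleyD j| := seeleyD_abs_le j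
      _ ≤ 4 / 3 * (1 / 4) * (1 / 3 : ℝ) ^ j := by gcongr
      _ = _ := by rw [pow_succ]; ring

theorem seeleyD_summable_abs {z : ℝ} (hz : 0 ≤ z) : Summable fun j => |seeleyD j| * z ^ j := by
  refine summable_of_ratio_norm_eventually_le (r := 1 / 2) (by norm_num) ?_
  have h1 : Tendsto (fun j : ℕ => 4 / 3 * (1 / 4 : ℝ) ^ (j + 1) * z) atTop (𝓝 (4 / 3 * 0 * z)) :=
    (((tendsto_pow_atTop_nhds_zero_of_lt_one (by norm_num) (by norm_num)).comp
      (tendsto_add_atTop_nat 1)).const_mul _).mul_const _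
  rw [mul_zero, zero_mul] at h1
  filter_upwards [h1.eventually (ge_mem_nhds (show (0 : ℝ) < 1 / 2 by norm_num))] with j hj
  rw [Real.norm_of_nonneg (by positivity), Real.norm_of_nonneg (by positivity)]
  calc |seeleyD (j + 1)| * z ^ (j + 1)
      ≤ 4 / 3 * (1 / 4 : ℝ) ^ (j + 1) * |seeleyD j| * z ^ (j + 1) :=
        mul_le_mul_of_nonneg_right (seeleyD_abs_le j) (by positivity)
    _ = (4 / 3 * (1 / 4 : ℝ) ^ (j + 1) * z) * (|seeleyD j| * z ^ j) := by rw [pow_succ z]; ring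
    _ ≤ _ := mul_le_mul_of_nonneg_right hj (by positivity)

theorem seeleyD_summable {z : ℝ} (hz : 0 ≤ z) : Summable fun j => seeleyD j * z ^ j := by
  refine (seeleyD_summable_abs hz).of_norm_bounded (fun j => ?_)
  rw [Real.norm_eq_abs, abs_mul, abs_of_nonneg (pow_nonneg hz j)]

theorem seeleyD_fun {z : ℝ} (hz : 0 ≤ z) :
    ∑' j, seeleyD j * z ^ j = (1 - z / 4) * ∑' j, seeleyD j * (z / 4) ^ j := by
  have h1 := seeleyD_summable hz
  have h2 := seeleyD_summable (z := z / 4) (by positivity)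
  have h3 := (summable_nat_add_iff 1).2 h2
  have h4 : ∀ j, seeleyD (j + 1) * z ^ (j + 1) =
      seeleyD (j + 1) * (z / 4) ^ (j + 1) - z / 4 * (seeleyD j * (z / 4) ^ j) := by
    intro j
    have e : z / 4 = 1 / 4 * z := by ring
    calc seeleyD (j + 1) * z ^ (j + 1)
        = (seeleyD (j + 1) * (1 / 4 : ℝ) ^ (j + 1) - (1 / 4 : ℝ) ^ (j + 1) * seeleyD j) *
          z ^ (j + 1) := by rw [← seeleyD_rec]
      _ = _ := by rw [e, mul_pow, mul_pow]; ring
  rw [h1.tsum_eq_zero_add, sub_mul, one_mul, ← tsum_mul_left]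
  simp_rw [h4]
  rw [h3.tsum_sub (h2.mul_left _), h2.tsum_eq_zero_add]
  simp only [pow_zero]
  ring

theorem seeleyD_zero (l : ℕ) : ∑' j, seeleyD j * ((4 : ℝ) ^ (l + 1)) ^ j = 0 := by
  induction l with
  | zero => rw [seeleyD_fun (by positivity)]; norm_num
  | succ l ih =>
    rw [seeleyD_fun (by positivity), show (4 : ℝ) ^ (l + 1 + 1) / 4 = 4 ^ (l + 1) by ring, ih,
      mul_zero]

theorem seeleyD_one : ∑' j, seeleyD j ≠ 0 := by
  have h1 : Summable seeleyD := by simpa using seeleyD_summable zero_le_one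
  have h2 : HasSum (fun j : ℕ => (1 / 3 : ℝ) ^ (j + 1)) (1 / 2) := by
    have := (hasSum_geometric_of_lt_one (r := 1 / 3) (by norm_num) (by norm_num)).mul_left (1 / 3)
    rw [show (1 / 3 : ℝ) * (1 - 1 / 3)⁻¹ = 1 / 2 by norm_num] at this
    simpa only [pow_succ'] using this
  have h3 : ‖∑' j, seeleyD (j + 1)‖ ≤ 1 / 2 :=
    tsum_of_norm_bounded h2 (fun j => seeleyD_abs_le_pow (j + 1))
  rw [h1.tsum_eq_zero_add]
  have h4 := (abs_le.1 h3).1
  rw [show seeleyD 0 = 1 from rfl]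
  linarith

/-- Take `q = 1/4`, `a j = 4 ^ j`, `d 0 = 1`, `d (j+1) = - q^(j+1) / (1 - q^(j+1)) * d j`,
`h z = ∑' j, d j * z ^ j` (summable for every real `z` by the ratio test). Then
`h z = (1 - q z) * h (q z)`, so `h (4 ^ (l+1)) = 0` for all `l`; `|d (j+1)| ≤ |d j| / 3` gives
`h 1 ≥ 1/2`. Put `c j = d j / h 1`; note `a j ^ l = (4 ^ l) ^ j`. -/
theorem seeley_seq : ∃ a c : ℕ → ℝ, (∀ j, 1 ≤ a j) ∧
    (∀ l : ℕ, Summable fun j => |c j| * a j ^ l) ∧ ∑' j, c j = 1 ∧
    ∀ l : ℕ, ∑' j, c j * a j ^ (l + 1) = 0 := by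
  refine ⟨fun j => 4 ^ j, fun j => (∑' j, seeleyD j)⁻¹ * seeleyD j,
    fun j => one_le_pow₀ (by norm_num), fun l => ?_, ?_, fun l => ?_⟩
  · have := (seeleyD_summable_abs (z := 4 ^ l) (by positivity)).mul_left |(∑' j, seeleyD j)⁻¹|
    refine this.congr fun j => ?_
    rw [abs_mul, ← pow_mul, ← pow_mul, mul_comm l j, mul_assoc]
  · rw [tsum_mul_left, inv_mul_cancel₀ seeleyD_one]
  · have := seeleyD_zero l
    simp_rw [mul_assoc]
    rw [tsum_mul_left]
    simp_rw [← pow_mul] at this ⊢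
    simp_rw [mul_comm _ (l + 1)]
    rw [this, mul_zero]

/-- the gradient field -/
def extaGrad (ρ : R3 → ℝ) (x : R3) : R3 := ∑ i, fderiv ℝ ρ x (eb i) • eb i

theorem extaGrad_sm {ρ : R3 → ℝ} (h : ContDiff ℝ ∞ ρ) : ContDiff ℝ ∞ (extaGrad ρ) :=
  ContDiff.sum fun _ _ =>
    ((h.fderiv_right (m := ∞) (by simp)).clm_apply contDiff_const).smul contDiff_const

theorem extaGrad_pos {ρ : R3 → ℝ} {x : R3} (h : fderiv ℝ ρ x ≠ 0) :
    0 < fderiv ℝ ρ x (extaGrad ρ x) := by
  have h1 : fderiv ℝ ρ x (extaGrad ρ x) = ∑ i, fderiv ℝ ρ x (eb i) ^ 2 := by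
    simp [extaGrad, sq]
  rw [h1]
  by_contra h2
  have h3 : ∑ i, fderiv ℝ ρ x (eb i) ^ 2 = 0 :=
    le_antisymm (not_lt.1 h2) (Finset.sum_nonneg fun i _ => sq_nonneg _)
  rw [Finset.sum_eq_zero_iff_of_nonneg fun i _ => sq_nonneg _] at h3
  apply h
  apply ContinuousLinearMap.coe_injective
  refine (EuclideanSpace.basisFun (Fin 3) ℝ).toBasis.ext fun i => ?_
  have := h3 i (Finset.mem_univ _)
  simpa [eb] using this

theorem exta_collar {ρ : R3 → ℝ} (hρ : ContDiff ℝ ∞ ρ) (hK : IsCompact {x | ρ x ≤ 1 / 2})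
    (hreg : ∀ x, ρ x = 0 → fderiv ℝ ρ x ≠ 0) : ∃ (ν : R3 → R3) (δ : ℝ), ContDiff ℝ ∞ ν ∧ 0 < δ ∧
      ∀ (x : R3) (s : ℝ), 0 ≤ ρ x → ρ x ≤ s → s ≤ δ → ρ (x - s • ν x) ≤ 0 := by
  set w := extaGrad ρ with hw
  have hwc : Continuous w := (extaGrad_sm hρ).continuous
  have hρc : Continuous ρ := hρ.continuous
  have hfc : Continuous (fderiv ℝ ρ) := hρ.continuous_fderiv (by simp)
  let φ : R3 × ℝ → ℝ := fun p => fderiv ℝ ρ (p.1 - p.2 • w p.1) (w p.1)
  have hφ : Continuous φ := by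
    refine Continuous.clm_apply (hfc.comp ?_) (hwc.comp continuous_fst)
    exact continuous_fst.sub (continuous_snd.smul (hwc.comp continuous_fst))
  have hA : IsCompact (({x | ρ x ≤ 1 / 2} ∩ {x | 0 ≤ ρ x}) ×ˢ Icc (0 : ℝ) 1) :=
    (hK.inter_right (isClosed_le continuous_const hρc)).prod isCompact_Icc
  have hψ : Continuous fun p : R3 × ℝ => max (φ p) (ρ p.1 + p.2) :=
    hφ.max ((hρc.comp continuous_fst).add continuous_snd)
  obtain ⟨c, hc, hc'⟩ := hA.exists_forall_le' (a := 0) hψ.continuousOn (by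
    rintro ⟨x, t⟩ ⟨⟨_, h2⟩, h3, _⟩
    simp only [mem_ofPred_eq] at h2 h3
    rcases (add_nonneg h2 h3).lt_or_eq with h | h
    · exact lt_max_of_lt_right h
    · have hx : ρ x = 0 := by linarith
      have ht : t = 0 := by linarith
      refine lt_max_of_lt_left ?_
      simp only [φ, ht, zero_smul, sub_zero]
      exact extaGrad_pos (hreg x hx))
  refine ⟨fun x => c⁻¹ • w x, min (1 / 2) (min c (c ^ 2 / (2 * (c + 1)))),
    (extaGrad_sm hρ).const_smul _, by positivity, fun x s h0 h1 h2 => ?_⟩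
  have hs1 : s ≤ 1 / 2 := h2.trans (min_le_left _ _)
  have hs2 : s ≤ c := h2.trans ((min_le_right _ _).trans (min_le_left _ _))
  have hs3 : s ≤ c ^ 2 / (2 * (c + 1)) := h2.trans ((min_le_right _ _).trans (min_le_right _ _))
  have hs0 : 0 ≤ s := h0.trans h1
  rw [le_div_iff₀ (by positivity)] at hs3
  have hd : ∀ t : ℝ, HasDerivAt (fun t : ℝ => ρ (x - t • w x)) (-φ (x, t)) t := by
    intro t
    have h3 : HasDerivAt (fun t : ℝ => x - t • w x) (-w x) t := by
      simpa using ((hasDerivAt_id t).smul_const (w x)).const_sub x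
    have := (hρ.differentiable (by simp) (x - t • w x)).hasFDerivAt.comp_hasDerivAt t h3
    rw [map_neg] at this
    exact this
  have hT : 0 ≤ s / c := by positivity
  have key := (convex_Icc 0 (s / c)).image_sub_le_mul_sub_of_deriv_le
    (f := fun t : ℝ => ρ (x - t • w x)) (C := -c)
    (fun t _ => (hd t).continuousAt.continuousWithinAt)
    (fun t _ => (hd t).differentiableAt.differentiableWithinAt) (fun t ht => by
      have ht' := interior_subset ht
      rw [(hd t).deriv, neg_le_neg_iff]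
      have h4 : t * c ≤ s := (le_div_iff₀ hc).1 ht'.2
      have h5 := hc' (x, t) ⟨⟨h1.trans hs1, h0⟩, ht'.1, by nlinarith [ht'.1]⟩
      rcases le_max_iff.1 h5 with h6 | h6
      · exact h6
      · exfalso
        simp only at h6
        nlinarith [mul_le_mul_of_nonneg_right h6 hc.le, mul_le_mul_of_nonneg_right h1 hc.le,
          mul_pos hc hc])
    0 (left_mem_Icc.2 hT) (s / c) (right_mem_Icc.2 hT) hT
  simp only [zero_smul, sub_zero] at key
  rw [smul_smul, ← div_eq_mul_inv]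
  have h7 : -c * (s / c) = -s := by field_simp
  linarith

/-- Replace `D.ρ` by `ρ = D.ρ + Real.smoothTransition (‖x‖² - R²)` (closure inside `ball 0 R`), so
that `{ρ ≤ 1/2}` is compact and `ρ` has the same sign as `D.ρ`. By compactness `‖∇ρ‖² ≥ c > 0` on
`{0 ≤ ρ ≤ δ}` for small `δ`; take `ν = (2 / c) • ∇ρ` and use Taylor's formula (or the mean value
theorem with uniform continuity of `∇ρ`): `ρ (x - s ν x) ≤ ρ x - s ≤ 0`. -/
theorem Dom.collar (D : Dom) : ∃ (ρ : R3 → ℝ) (ν : R3 → R3) (δ : ℝ), ContDiff ℝ ∞ ρ ∧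
    ContDiff ℝ ∞ ν ∧ 0 < δ ∧ closure D.Ω = {x | ρ x ≤ 0} ∧ D.Ω = {x | ρ x < 0} ∧
    ∀ (x : R3) (s : ℝ), 0 ≤ ρ x → ρ x ≤ s → s ≤ δ → x - s • ν x ∈ closure D.Ω := by
  obtain ⟨R, hR, hΩ⟩ := D.exists_ball
  let ρ : R3 → ℝ := fun x => D.ρ x + Real.smoothTransition (‖x‖ ^ 2 - R ^ 2)
  have hρ : ContDiff ℝ ∞ ρ :=
    D.sm.add (Real.smoothTransition.contDiff.comp ((contDiff_norm_sq ℝ).sub contDiff_const))
  have hin : ∀ x, x ∈ ball (0 : R3) R → ρ x = D.ρ x := by
    intro x hx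
    rw [mem_ball_zero_iff] at hx
    have : ‖x‖ ^ 2 - R ^ 2 ≤ 0 := by nlinarith [norm_nonneg x]
    simp only [ρ, Real.smoothTransition.zero_of_nonpos this, add_zero]
  have hout : ∀ x, x ∉ ball (0 : R3) R → 0 < D.ρ x := by
    intro x hx
    by_contra h
    exact hx (hΩ (D.closure_eq ▸ not_lt.1 h))
  have hge : ∀ x, D.ρ x ≤ ρ x := fun x => le_add_of_nonneg_right (Real.smoothTransition.nonneg _)
  have hcl : closure D.Ω = {x | ρ x ≤ 0} := by
    ext x
    constructor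
    · intro hx
      have h1 := hin x (hΩ hx)
      rw [D.closure_eq] at hx
      exact h1.trans_le hx
    · intro hx
      rw [D.closure_eq]
      exact (hge x).trans hx
  have hop : D.Ω = {x | ρ x < 0} := by
    ext x
    constructor
    · intro hx
      have h1 := hin x (hΩ (subset_closure hx))
      rw [D.eq] at hx
      exact h1.trans_lt hx
    · intro hx
      rw [D.eq]
      exact (hge x).trans_lt hx
  have hK : IsCompact {x | ρ x ≤ 1 / 2} := by
    refine (isCompact_closedBall (0 : R3) (R + 1)).of_isClosed_subset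
      (isClosed_le hρ.continuous continuous_const) fun x hx => ?_
    rw [mem_closedBall_zero_iff]
    by_contra h
    have h1 : R + 1 < ‖x‖ := not_le.1 h
    have h2 := hout x (by rw [mem_ball_zero_iff]; linarith)
    have h3 : 1 ≤ ‖x‖ ^ 2 - R ^ 2 := by nlinarith
    simp only [ρ, mem_ofPred_eq, Real.smoothTransition.one_of_one_le h3] at hx
    linarith
  have hreg : ∀ x, ρ x = 0 → fderiv ℝ ρ x ≠ 0 := by
    intro x hx
    have h1 : x ∈ ball (0 : R3) R := hΩ (hcl ▸ hx.le)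
    rw [Filter.EventuallyEq.fderiv_eq (f₁ := ρ) (f := D.ρ)
      (Filter.eventually_of_mem (isOpen_ball.mem_nhds h1) hin)]
    exact D.reg x ((hin x h1).symm.trans hx)
  obtain ⟨ν, δ, h1, h2, h3⟩ := exta_collar hρ hK hreg
  exact ⟨ρ, ν, δ, hρ, h1, h2, hcl, hop, fun x s a b c => hcl ▸ h3 x s a b c⟩

/-- At a boundary point the tangent cone contains the open half space `{fderiv ρ x v < 0}`. -/
theorem Dom.uniqueDiffOn (D : Dom) : UniqueDiffOn ℝ (closure D.Ω) := by
  intro x hx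
  have hx' := hx
  rw [D.closure_eq] at hx'
  rcases (show D.ρ x ≤ 0 from hx').lt_or_eq with h | h
  · refine uniqueDiffWithinAt_of_mem_nhds (mem_of_superset (D.isOpen.mem_nhds ?_) subset_closure)
    rw [D.eq]; exact h
  · refine ⟨?_, subset_closure hx⟩
    have hcone : {v | fderiv ℝ D.ρ x v < 0} ⊆ tangentConeAt ℝ (closure D.Ω) x := by
      intro v hv
      refine mem_tangentConeAt_of_add_smul_mem (tendsto_id'.mpr <| nhdsGT_le_nhdsNE (0 : ℝ)) ?_
      have h3 : HasDerivAt (fun t : ℝ => x + t • v) v 0 := by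
        simpa using ((hasDerivAt_id (0 : ℝ)).smul_const v).const_add x
      have h4 : HasFDerivAt D.ρ (fderiv ℝ D.ρ x) (x + (0 : ℝ) • v) := by
        simpa using (D.sm.differentiable (by simp) x).hasFDerivAt
      have h5 := (h4.comp_hasDerivAt (0 : ℝ) h3).tendsto_slope_zero_right
      filter_upwards [h5.eventually (gt_mem_nhds hv), self_mem_nhdsWithin] with t ht ht0
      rw [D.closure_eq]
      simp only [Function.comp, zero_add, zero_smul, add_zero, h, sub_zero, smul_eq_mul] at ht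
      exact (neg_of_mul_neg_right ht (inv_pos.2 ht0).le).le
    have hopen : IsOpen {v | fderiv ℝ D.ρ x v < 0} :=
      isOpen_lt (fderiv ℝ D.ρ x).continuous continuous_const
    have hne : {v | fderiv ℝ D.ρ x v < 0}.Nonempty :=
      ⟨-extaGrad D.ρ x, by simpa using extaGrad_pos (D.reg x h)⟩
    rw [(Submodule.span ℝ (tangentConeAt ℝ (closure D.Ω) x)).eq_top_of_nonempty_interior'
      (hne.mono (interior_maximal (hcone.trans Submodule.subset_span) hopen))]
    exact dense_univ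

end Crest.Agent.R080
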