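import Crest.Agent.R080.ExtA

/-!
Row 80: Seeley's extension theorem for `closure D.Ω`.

With `a, c` from `seeley_seq`, `ρ, ν, δ` from `Dom.collar`, `p x = max (ρ x) 0`, and for `l : ℕ`,
`χ : ℝ → ℝ` smooth vanishing on `[δ/2, ∞)`, `g` with `ContDiffOn ℝ ∞ g (closure Ω)` put
`E l χ g x = ∑' j, c j * a j ^ l * (χ (a j * p x) * g (x - (a j * p x) • ν x))`.
On the closure `E l χ g = (if l = 0 then χ 0 else 0) * g`.
* `E l χ g` is continuous (`continuous_tsum`; each term is continuous: it is continuous on the closed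
  set `{a j * p ≤ δ}` and zero on the closed set `{a j * p ≥ δ/2}`; it is bounded by `sup|χ| sup|g|`).
* `E l χ g` has at every `x` the derivative
  `v ↦ dρ x v * E (l+1) χ' g x + E l χ (∂_v g) x - ∑ k, d(ρ ν_k) x v * E (l+1) χ (∂_k g) x`,
  `∂_v g = fun y => fderivWithin ℝ g (closure Ω) y v` (again `ContDiffOn ∞` by `uniqueDiffOn`).
  In `Ω`: locally a multiple of `g`. In `{ρ > 0}`: `hasFDerivAt_tsum_of_isPreconnected` on a small
  ball. At a boundary point `x₀`: `HasFDerivWithinAt` on the closure (given) and on `{ρ ≥ 0}`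
  (each term is differentiable within `{ρ ≥ 0}` at `x₀`, the error of the `j`-th term is at most
  `C * a j * ‖x - x₀‖` because `χ` is Lipschitz and `|g y - g x₀| ≤ C ‖y - x₀‖` on the closure; Tannery's
  theorem `tendsto_tsum_of_dominated_convergence`), then `HasFDerivWithinAt.union`.
* induction on `n`: all `E l χ g` are `ContDiff ℝ n` (`contDiff_succ_iff_fderiv_apply`).
Take `l = 0` and `χ 0 = 1`.
-/

set_option autoImplicit false

open MeasureTheory Set Metric Filter Topology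
open scoped ContDiff

noncomputable section

namespace Crest.Agent.R080

theorem extB_ptLip {E F : Type*} [NormedAddCommGroup E] [NormedSpace ℝ E] [NormedAddCommGroup F]
    [NormedSpace ℝ F] {f : E → F} {f' : E →L[ℝ] F} {A : Set E} {x₀ : E} {M : ℝ}
    (hM : ∀ y ∈ A, ‖f y‖ ≤ M) (hx : x₀ ∈ A) (hf : HasFDerivWithinAt f f' A x₀) :
    ∃ C : ℝ, 0 ≤ C ∧ ∀ y ∈ A, ‖f y - f x₀‖ ≤ C * ‖y - x₀‖ := by
  obtain ⟨C, hC0, hC⟩ := hf.isBigO_sub.exists_nonneg
  rw [Asymptotics.IsBigOWith_def, eventually_nhdsWithin_iff, Metric.eventually_nhds_iff] at hC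
  obtain ⟨ε, hε, hC⟩ := hC
  have hM0 : 0 ≤ M := (norm_nonneg _).trans (hM x₀ hx)
  refine ⟨C + 2 * M / ε, by positivity, fun y hy => ?_⟩
  by_cases h : dist y x₀ < ε
  · refine (hC h hy).trans (mul_le_mul_of_nonneg_right ?_ (norm_nonneg _))
    have : 0 ≤ 2 * M / ε := by positivity
    linarith
  · rw [dist_eq_norm, not_lt] at h
    have h1 : ‖f y - f x₀‖ ≤ 2 * M := by
      have := norm_sub_le (f y) (f x₀)
      linarith [hM y hy, hM x₀ hx]
    have h2 : 2 * M ≤ 2 * M / ε * ‖y - x₀‖ := by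
      calc 2 * M = 2 * M / ε * ε := by field_simp
        _ ≤ _ := mul_le_mul_of_nonneg_left h (by positivity)
    have h3 : 0 ≤ C * ‖y - x₀‖ := by positivity
    nlinarith

theorem extB_tsum {E F : Type*} [NormedAddCommGroup E] [NormedSpace ℝ E] [NormedAddCommGroup F]
    [NormedSpace ℝ F] [CompleteSpace F] {t : ℕ → E → F} {D : ℕ → E →L[ℝ] F} {u : ℕ → ℝ}
    {s : Set E} {x₀ : E} (hu : Summable u) (ht : ∀ j, HasFDerivWithinAt (t j) (D j) s x₀)
    (hD : ∀ j, ‖D j‖ ≤ u j)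
    (hL : ∀ᶠ x in 𝓝[s] x₀, ∀ j, ‖t j x - t j x₀‖ ≤ u j * ‖x - x₀‖)
    (hsum : Summable fun j => t j x₀) :
    HasFDerivWithinAt (fun x => ∑' j, t j x) (∑' j, D j) s x₀ := by
  rw [hasFDerivWithinAt_iff_tendsto]
  have hDs : Summable D := Summable.of_norm_bounded hu hD
  set e : E → ℕ → ℝ := fun x j => ‖x - x₀‖⁻¹ * ‖t j x - t j x₀ - D j (x - x₀)‖ with he
  have hb : ∀ᶠ x in 𝓝[s] x₀, ∀ j, ‖t j x - t j x₀ - D j (x - x₀)‖ ≤ 2 * u j * ‖x - x₀‖ := by
    filter_upwards [hL] with x hx j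
    have h1 := norm_sub_le (t j x - t j x₀) (D j (x - x₀))
    have h2 : ‖D j (x - x₀)‖ ≤ u j * ‖x - x₀‖ :=
      ((D j).le_opNorm _).trans (mul_le_mul_of_nonneg_right (hD j) (norm_nonneg _))
    linarith [hx j]
  have hT : Tendsto (fun x => ∑' j, e x j) (𝓝[s] x₀) (𝓝 (∑' _ : ℕ, (0 : ℝ))) := by
    refine tendsto_tsum_of_dominated_convergence (bound := fun j => 2 * u j) (hu.mul_left 2)
      (fun j => hasFDerivWithinAt_iff_tendsto.1 (ht j)) ?_
    filter_upwards [hb] with x hx j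
    have hu0 : 0 ≤ u j := (norm_nonneg _).trans (hD j)
    rw [Real.norm_of_nonneg (by positivity)]
    by_cases h0 : ‖x - x₀‖ = 0
    · simp only [he, h0, inv_zero, zero_mul]; positivity
    · calc e x j ≤ ‖x - x₀‖⁻¹ * (2 * u j * ‖x - x₀‖) :=
            mul_le_mul_of_nonneg_left (hx j) (by positivity)
        _ = 2 * u j := by field_simp
  rw [tsum_zero] at hT
  refine squeeze_zero' (Eventually.of_forall fun x => by positivity) ?_ hT
  filter_upwards [hb, hL] with x hx hx'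
  have h1 : Summable fun j => t j x - t j x₀ :=
    Summable.of_norm_bounded (hu.mul_right _) hx'
  have h2 : Summable fun j => t j x := by simpa using h1.add hsum
  have h3 : Summable fun j => D j (x - x₀) :=
    hDs.mapL (ContinuousLinearMap.apply ℝ F (x - x₀))
  have h4 : (∑' j, D j) (x - x₀) = ∑' j, D j (x - x₀) :=
    (ContinuousLinearMap.apply ℝ F (x - x₀)).map_tsum hDs
  have h5 : Summable fun j => ‖t j x - t j x₀ - D j (x - x₀)‖ :=
    Summable.of_nonneg_of_le (fun _ => norm_nonneg _) hx ((hu.mul_left 2).mul_right _)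
  rw [h4, ← h2.tsum_sub hsum, ← h1.tsum_sub h3]
  simp only [he]
  rw [tsum_mul_left]
  exact mul_le_mul_of_nonneg_left (norm_tsum_le_tsum_norm h5) (by positivity)

/-- data of the extension operator -/
structure Seel where
  a : ℕ → ℝ
  c : ℕ → ℝ
  ρ : R3 → ℝ
  w : R3 → R3
  δ : ℝ
  ha : ∀ j, 1 ≤ a j
  hs : ∀ l : ℕ, Summable fun j => |c j| * a j ^ l
  h0 : ∑' j, c j = 1
  h1 : ∀ l : ℕ, ∑' j, c j * a j ^ (l + 1) = 0
  ρsm : ContDiff ℝ ∞ ρ
  wsm : ContDiff ℝ ∞ w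
  δpos : 0 < δ
  cpt : IsCompact {x | ρ x ≤ 0}
  uniq : UniqueDiffOn ℝ {x | ρ x ≤ 0}
  maps : ∀ x j, 0 ≤ ρ x → a j * ρ x ≤ δ → ρ (x - a j • w x) ≤ 0
  w0 : ∀ x, ρ x = 0 → w x = 0

namespace Seel

variable (P : Seel)

/-- admissible cut-offs -/
def Cut (χ : ℝ → ℝ) : Prop := ContDiff ℝ ∞ χ ∧ ∀ t, P.δ / 2 < t → χ t = 0

theorem Cut.deriv {P : Seel} {χ : ℝ → ℝ} (h : P.Cut χ) : P.Cut (deriv χ) := by
  refine ⟨h.1.deriv' , fun t ht => ?_⟩
  have : χ =ᶠ[𝓝 t] fun _ => 0 := by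
    filter_upwards [lt_mem_nhds ht] with s hs using h.2 s hs
  rw [this.deriv_eq, deriv_const]

theorem Cut.bdd {P : Seel} {χ : ℝ → ℝ} (h : P.Cut χ) :
    ∃ M : ℝ, 0 ≤ M ∧ ∀ t ∈ Ici (0 : ℝ), ‖χ t‖ ≤ M := by
  obtain ⟨M, hM⟩ := (isCompact_Icc (a := (0 : ℝ)) (b := P.δ)).exists_bound_of_continuousOn
    h.1.continuous.continuousOn
  have hδ := P.δpos
  have hM0 : 0 ≤ M := (norm_nonneg _).trans (hM 0 ⟨le_rfl, hδ.le⟩)
  refine ⟨M, hM0, fun t ht => ?_⟩
  by_cases h1 : t ≤ P.δ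
  · exact hM t ⟨ht, h1⟩
  · rw [h.2 t (by linarith), norm_zero]; exact hM0

variable {F : Type} [NormedAddCommGroup F] [NormedSpace ℝ F]

/-- the terms -/
def tm (l : ℕ) (χ : ℝ → ℝ) (g : R3 → F) (j : ℕ) (x : R3) : F :=
  (P.c j * P.a j ^ l * χ (P.a j * P.ρ x)) • g (x - P.a j • P.w x)

/-- the extension operators -/
def ex (l : ℕ) (χ : ℝ → ℝ) (g : R3 → F) (x : R3) : F :=
  if P.ρ x ≤ 0 then (if l = 0 then χ 0 else 0) • g x else ∑' j, P.tm l χ g j x

theorem tm_bdd {χ : ℝ → ℝ} (hχ : P.Cut χ) {g : R3 → F} (hg : ContinuousOn g {x | P.ρ x ≤ 0}) :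
    ∃ M : ℝ, 0 ≤ M ∧ ∀ l j x, 0 ≤ P.ρ x → ‖P.tm l χ g j x‖ ≤ |P.c j| * P.a j ^ l * M := by
  obtain ⟨M₁, hM₁, h₁⟩ := hχ.bdd
  obtain ⟨M₂, h₂⟩ := P.cpt.exists_bound_of_continuousOn hg
  refine ⟨M₁ * max M₂ 0, by positivity, fun l j x hx => ?_⟩
  have ha : 0 ≤ P.a j := zero_le_one.trans (P.ha j)
  unfold tm
  by_cases h : P.a j * P.ρ x ≤ P.δ
  · rw [norm_smul, norm_mul, norm_mul, Real.norm_eq_abs, Real.norm_of_nonneg (pow_nonneg ha l),
      mul_assoc]
    refine mul_le_mul_of_nonneg_left ?_ (by positivity)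
    exact mul_le_mul (h₁ _ (mul_nonneg ha hx)) ((h₂ _ (P.maps x j hx h)).trans (le_max_left _ _))
      (norm_nonneg _) hM₁
  · have hδ := P.δpos
    rw [hχ.2 _ (by linarith), mul_zero, zero_smul, norm_zero]
    positivity

theorem tm_summable [CompleteSpace F] {χ : ℝ → ℝ} (hχ : P.Cut χ) {g : R3 → F}
    (hg : ContinuousOn g {x | P.ρ x ≤ 0}) (l : ℕ) {x : R3} (hx : 0 ≤ P.ρ x) :
    Summable fun j => P.tm l χ g j x := by
  obtain ⟨M, -, hM⟩ := P.tm_bdd hχ hg
  exact Summable.of_norm_bounded ((P.hs l).mul_right M) fun j => hM l j x hx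

theorem ex_eq [CompleteSpace F] (l : ℕ) (χ : ℝ → ℝ) (g : R3 → F) {x : R3} (hx : 0 ≤ P.ρ x) :
    P.ex l χ g x = ∑' j, P.tm l χ g j x := by
  unfold ex
  split_ifs with h1 h2
  · have h0 : P.ρ x = 0 := le_antisymm h1 hx
    have hs : Summable fun j => P.c j := by
      refine Summable.of_abs ?_
      simpa using P.hs 0
    simp only [tm, h0, P.w0 x h0, h2, mul_zero, smul_zero, sub_zero, pow_zero, mul_one]
    rw [(hs.mul_right _).tsum_smul_const, tsum_mul_right, P.h0, one_mul]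
  · have h0 : P.ρ x = 0 := le_antisymm h1 hx
    obtain ⟨k, rfl⟩ := Nat.exists_eq_succ_of_ne_zero h2
    have hs : Summable fun j => P.c j * P.a j ^ (k + 1) := by
      refine Summable.of_abs ?_
      refine (P.hs (k + 1)).congr fun j => ?_
      rw [abs_mul, abs_of_nonneg (pow_nonneg (zero_le_one.trans (P.ha j)) _)]
    simp only [tm, h0, P.w0 x h0, mul_zero, smul_zero, sub_zero]
    rw [(hs.mul_right _).tsum_smul_const, tsum_mul_right, P.h1, zero_mul]
  · rfl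

/-- assembling the derivative -/
def asm (x : R3) (A : F) (B C : R3 →L[ℝ] F) : R3 →L[ℝ] F :=
  (fderiv ℝ P.ρ x).smulRight A + B - C.comp (fderiv ℝ P.w x)

theorem tm_deriv {χ : ℝ → ℝ} (hχ : P.Cut χ) {g : R3 → F}
    (hg : ContDiffOn ℝ ∞ g {x | P.ρ x ≤ 0}) (l j : ℕ) {x : R3} (hx : 0 ≤ P.ρ x) :
    HasFDerivWithinAt (P.tm l χ g j)
      (P.asm x (P.tm (l + 1) (deriv χ) g j x)
        (P.tm l χ (fderivWithin ℝ g {x | P.ρ x ≤ 0}) j x)
        (P.tm (l + 1) χ (fderivWithin ℝ g {x | P.ρ x ≤ 0}) j x)) {x | 0 ≤ P.ρ x} x := by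
  have hδ := P.δpos
  have hcont : Continuous fun y => P.a j * P.ρ y := continuous_const.mul P.ρsm.continuous
  by_cases h : P.a j * P.ρ x < P.δ
  · have hρ : HasFDerivAt P.ρ (fderiv ℝ P.ρ x) x :=
      (P.ρsm.differentiable (by simp) x).hasFDerivAt
    have hw : HasFDerivAt P.w (fderiv ℝ P.w x) x :=
      (P.wsm.differentiable (by simp) x).hasFDerivAt
    have hφ : HasFDerivAt (fun y => y - P.a j • P.w y)
        (ContinuousLinearMap.id ℝ R3 - P.a j • fderiv ℝ P.w x) x :=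
      (hasFDerivAt_id x).sub (hw.const_smul (P.a j))
    have hmem : x - P.a j • P.w x ∈ {x | P.ρ x ≤ 0} := P.maps x j hx h.le
    have hg' : HasFDerivWithinAt g (fderivWithin ℝ g {x | P.ρ x ≤ 0} (x - P.a j • P.w x))
        {x | P.ρ x ≤ 0} (x - P.a j • P.w x) :=
      (hg.differentiableOn (by simp) _ hmem).hasFDerivWithinAt
    have hcomp := hg'.comp x (hφ.hasFDerivWithinAt
      (s := {x | 0 ≤ P.ρ x} ∩ {y | P.a j * P.ρ y < P.δ}))
      (fun y hy => P.maps y j hy.1 (le_of_lt hy.2))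
    have hcomp' := hcomp.mono_of_mem_nhdsWithin
      (inter_mem_nhdsWithin {x | 0 ≤ P.ρ x} ((isOpen_lt hcont continuous_const).mem_nhds h))
    have hχ' : HasDerivAt χ (deriv χ (P.a j * P.ρ x)) (P.a j * P.ρ x) :=
      (hχ.1.differentiable (by simp) _).hasDerivAt
    have hsc := ((hχ'.comp_hasFDerivAt x (hρ.const_mul (P.a j))).const_mul
      (P.c j * P.a j ^ l)).hasFDerivWithinAt (s := {x | 0 ≤ P.ρ x})
    refine (hsc.smul hcomp').congr_fderiv ?_
    ext1 v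
    simp only [asm, tm, sub_apply, add_apply,
      ContinuousLinearMap.smulRight_apply, ContinuousLinearMap.comp_apply,
      smul_apply, Function.comp, ContinuousLinearMap.id_apply, map_sub,
      map_smul, smul_eq_mul, smul_smul, smul_sub]
    module
  · have h2 : P.δ / 2 < P.a j * P.ρ x := by linarith
    have hev : P.tm l χ g j =ᶠ[𝓝 x] fun _ => 0 := by
      filter_upwards [(isOpen_lt continuous_const hcont).mem_nhds h2] with y hy
      simp only [tm]
      rw [hχ.2 _ hy, mul_zero, zero_smul]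
    have h0 : HasFDerivAt (P.tm l χ g j) (0 : R3 →L[ℝ] F) x :=
      (hasFDerivAt_const (0 : F) x).congr_of_eventuallyEq hev
    refine h0.hasFDerivWithinAt.congr_fderiv ?_
    simp [asm, tm, hχ.2 _ h2, hχ.deriv.2 _ h2]

theorem asm_norm_le (x : R3) (A : F) (B C : R3 →L[ℝ] F) :
    ‖P.asm x A B C‖ ≤ ‖fderiv ℝ P.ρ x‖ * ‖A‖ + ‖B‖ + ‖C‖ * ‖fderiv ℝ P.w x‖ := by
  unfold asm
  refine (norm_sub_le _ _).trans (add_le_add ((norm_add_le _ _).trans ?_)
    (ContinuousLinearMap.opNorm_comp_le _ _))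
  rw [ContinuousLinearMap.norm_smulRight_apply]

theorem asm_tsum [CompleteSpace F] (x : R3) {A : ℕ → F} {B C : ℕ → R3 →L[ℝ] F}
    (hA : Summable A) (hB : Summable B) (hC : Summable C) :
    ∑' j, P.asm x (A j) (B j) (C j) = P.asm x (∑' j, A j) (∑' j, B j) (∑' j, C j) := by
  have h1 := hA.hasSum.mapL (ContinuousLinearMap.smulRightL ℝ R3 F (fderiv ℝ P.ρ x))
  have h2 := hC.hasSum.mapL ((ContinuousLinearMap.compL ℝ R3 R3 F).flip (fderiv ℝ P.w x))
  exact ((h1.add hB.hasSum).sub h2).tsum_eq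

theorem tsum_deriv [CompleteSpace F] {χ : ℝ → ℝ} (hχ : P.Cut χ) {g : R3 → F}
    (hg : ContDiffOn ℝ ∞ g {x | P.ρ x ≤ 0}) (l : ℕ) {x₀ : R3} (hx : 0 ≤ P.ρ x₀) :
    HasFDerivWithinAt (fun x => ∑' j, P.tm l χ g j x)
      (∑' j, P.asm x₀ (P.tm (l + 1) (deriv χ) g j x₀)
        (P.tm l χ (fderivWithin ℝ g {x | P.ρ x ≤ 0}) j x₀)
        (P.tm (l + 1) χ (fderivWithin ℝ g {x | P.ρ x ≤ 0}) j x₀)) {x | 0 ≤ P.ρ x} x₀ := by
  have hg' : ContDiffOn ℝ ∞ (fderivWithin ℝ g {x | P.ρ x ≤ 0}) {x | P.ρ x ≤ 0} :=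
    hg.fderivWithin P.uniq (by simp)
  obtain ⟨M₁, hM₁, h₁⟩ := P.tm_bdd hχ.deriv hg.continuousOn
  obtain ⟨M₂, hM₂, h₂⟩ := P.tm_bdd hχ hg'.continuousOn
  obtain ⟨B₁, hB₁⟩ := (isCompact_closedBall x₀ 1).exists_bound_of_continuousOn
    (P.ρsm.continuous_fderiv (by simp)).continuousOn
  obtain ⟨B₂, hB₂⟩ := (isCompact_closedBall x₀ 1).exists_bound_of_continuousOn
    (P.wsm.continuous_fderiv (by simp)).continuousOn
  have hB₁0 : 0 ≤ B₁ := (norm_nonneg _).trans (hB₁ x₀ (mem_closedBall_self zero_le_one))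
  have hB₂0 : 0 ≤ B₂ := (norm_nonneg _).trans (hB₂ x₀ (mem_closedBall_self zero_le_one))
  set u : ℕ → ℝ := fun j => B₁ * (|P.c j| * P.a j ^ (l + 1) * M₁) + |P.c j| * P.a j ^ l * M₂ +
    |P.c j| * P.a j ^ (l + 1) * M₂ * B₂ with hu
  have hus : Summable u :=
    ((((P.hs _).mul_right _).mul_left _).add ((P.hs _).mul_right _)).add
      (((P.hs _).mul_right _).mul_right _)
  have hD : ∀ j x, 0 ≤ P.ρ x → x ∈ closedBall x₀ 1 →
      ‖P.asm x (P.tm (l + 1) (deriv χ) g j x)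
        (P.tm l χ (fderivWithin ℝ g {x | P.ρ x ≤ 0}) j x)
        (P.tm (l + 1) χ (fderivWithin ℝ g {x | P.ρ x ≤ 0}) j x)‖ ≤ u j := by
    intro j x h1 h2
    have ha : 0 ≤ P.a j := zero_le_one.trans (P.ha j)
    refine (P.asm_norm_le _ _ _ _).trans (add_le_add (add_le_add ?_ (h₂ _ _ _ h1)) ?_)
    · exact mul_le_mul (hB₁ x h2) (h₁ _ _ _ h1) (norm_nonneg _) hB₁0
    · exact mul_le_mul (h₂ _ _ _ h1) (hB₂ x h2) (norm_nonneg _) (by positivity)
  rcases hx.lt_or_eq with hpos | h0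
  · obtain ⟨r, hr, hball⟩ := Metric.isOpen_iff.1
      ((isOpen_lt continuous_const P.ρsm.continuous).inter (isOpen_ball (x := x₀) (ε := 1))) x₀
      ⟨hpos, mem_ball_self one_pos⟩
    refine (hasFDerivAt_tsum_of_isPreconnected (f' := fun j x => P.asm x
      (P.tm (l + 1) (deriv χ) g j x) (P.tm l χ (fderivWithin ℝ g {x | P.ρ x ≤ 0}) j x)
      (P.tm (l + 1) χ (fderivWithin ℝ g {x | P.ρ x ≤ 0}) j x)) hus isOpen_ball
      (convex_ball x₀ r).isPreconnected (fun j x hx => ?_) (fun j x hx => ?_) (mem_ball_self hr)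
      (P.tm_summable hχ hg.continuousOn l hx) (mem_ball_self hr)).hasFDerivWithinAt
    · have h1 : 0 < P.ρ x := (hball hx).1
      refine (P.tm_deriv hχ hg l j h1.le).hasFDerivAt ?_
      filter_upwards [(isOpen_lt continuous_const P.ρsm.continuous).mem_nhds h1] with y hy
      exact le_of_lt hy
    · exact hD j x (le_of_lt (hball hx).1) (ball_subset_closedBall (hball hx).2)
  · -- boundary point
    have hw0 := P.w0 x₀ h0.symm
    obtain ⟨M₃, hM₃, h₃⟩ := hχ.bdd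
    obtain ⟨M₄, h₄⟩ := P.cpt.exists_bound_of_continuousOn hg.continuousOn
    have hx₀ : x₀ ∈ {x | P.ρ x ≤ 0} := h0.ge
    have hM₄ : 0 ≤ M₄ := (norm_nonneg _).trans (h₄ x₀ hx₀)
    obtain ⟨L₁, hL₁, l₁⟩ := extB_ptLip h₃ (mem_Ici.2 (le_refl (0 : ℝ)))
      ((hχ.1.differentiable (by simp) 0).hasFDerivAt.hasFDerivWithinAt)
    obtain ⟨L₂, hL₂, l₂⟩ := extB_ptLip h₄ hx₀
      (hg.differentiableOn (by simp) _ hx₀).hasFDerivWithinAt
    obtain ⟨M₅, h₅⟩ := (isCompact_closedBall x₀ 1).exists_bound_of_continuousOn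
      P.ρsm.continuous.continuousOn
    obtain ⟨M₆, h₆⟩ := (isCompact_closedBall x₀ 1).exists_bound_of_continuousOn
      P.wsm.continuous.continuousOn
    obtain ⟨L₃, hL₃, l₃⟩ := extB_ptLip h₅ (mem_closedBall_self zero_le_one)
      ((P.ρsm.differentiable (by simp) x₀).hasFDerivAt.hasFDerivWithinAt)
    obtain ⟨L₄, hL₄, l₄⟩ := extB_ptLip h₆ (mem_closedBall_self zero_le_one)
      ((P.wsm.differentiable (by simp) x₀).hasFDerivAt.hasFDerivWithinAt)
    set C := L₁ * L₃ * M₄ + M₃ * L₂ * (1 + L₄) with hC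
    refine extB_tsum (u := fun j => u j + |P.c j| * P.a j ^ (l + 1) * C)
      (hus.add ((P.hs _).mul_right _)) (fun j => P.tm_deriv hχ hg l j hx) (fun j => ?_) ?_
      (P.tm_summable hχ hg.continuousOn l hx)
    · have ha : 0 ≤ P.a j := zero_le_one.trans (P.ha j)
      have := hD j x₀ hx (mem_closedBall_self zero_le_one)
      have h2 : 0 ≤ |P.c j| * P.a j ^ (l + 1) * C := by positivity
      linarith
    · filter_upwards [self_mem_nhdsWithin,
        mem_nhdsWithin_of_mem_nhds (closedBall_mem_nhds x₀ one_pos)] with x hx1 hx2 j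
      have hx1' : 0 ≤ P.ρ x := hx1
      have ha1 := P.ha j
      have ha : 0 ≤ P.a j := zero_le_one.trans ha1
      have hu0 : 0 ≤ u j := (norm_nonneg _).trans (hD j x₀ hx (mem_closedBall_self zero_le_one))
      set n := ‖x - x₀‖ with hn
      have hn0 : 0 ≤ n := norm_nonneg _
      have e1 : P.ρ x ≤ L₃ * n := by
        have := l₃ x hx2
        rw [← h0, sub_zero, Real.norm_of_nonneg hx1'] at this
        exact this
      have e2 : ‖χ (P.a j * P.ρ x) - χ 0‖ ≤ P.a j * (L₁ * L₃) * n := by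
        have := l₁ _ (mul_nonneg ha hx1')
        rw [sub_zero, Real.norm_of_nonneg (mul_nonneg ha hx1')] at this
        calc _ ≤ L₁ * (P.a j * P.ρ x) := this
          _ ≤ L₁ * (P.a j * (L₃ * n)) := by gcongr
          _ = _ := by ring
      have key : ‖χ (P.a j * P.ρ x) • g (x - P.a j • P.w x) - χ 0 • g x₀‖ ≤ P.a j * C * n := by
        have e3 : ‖(χ (P.a j * P.ρ x) - χ 0) • g x₀‖ ≤ P.a j * (L₁ * L₃) * n * M₄ := by
          rw [norm_smul]
          exact mul_le_mul e2 (h₄ x₀ hx₀) (norm_nonneg _) (by positivity)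
        have e4 : ‖χ (P.a j * P.ρ x) • (g (x - P.a j • P.w x) - g x₀)‖ ≤
            M₃ * (L₂ * (P.a j * (1 + L₄) * n)) := by
          by_cases h : P.a j * P.ρ x ≤ P.δ
          · rw [norm_smul]
            refine mul_le_mul (h₃ _ (mul_nonneg ha hx1')) ?_ (norm_nonneg _) hM₃
            refine (l₂ _ (P.maps x j hx1' h)).trans (mul_le_mul_of_nonneg_left ?_ hL₂)
            have e5 := l₄ x hx2
            rw [hw0, sub_zero] at e5
            calc ‖x - P.a j • P.w x - x₀‖ = ‖(x - x₀) - P.a j • P.w x‖ := by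
                  congr 1; abel
              _ ≤ n + ‖P.a j • P.w x‖ := norm_sub_le _ _
              _ = n + P.a j * ‖P.w x‖ := by rw [norm_smul, Real.norm_of_nonneg ha]
              _ ≤ P.a j * n + P.a j * (L₄ * n) := by
                  gcongr
                  exact le_mul_of_one_le_left hn0 ha1
              _ = _ := by ring
          · have hδ := P.δpos
            rw [hχ.2 _ (by linarith), zero_smul, norm_zero]
            positivity
        calc _ = ‖(χ (P.a j * P.ρ x) - χ 0) • g x₀ +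
              χ (P.a j * P.ρ x) • (g (x - P.a j • P.w x) - g x₀)‖ := by
              congr 1; module
          _ ≤ _ := norm_add_le_of_le e3 e4
          _ = _ := by rw [hC]; ring
      have e6 : P.tm l χ g j x - P.tm l χ g j x₀ = (P.c j * P.a j ^ l) •
          (χ (P.a j * P.ρ x) • g (x - P.a j • P.w x) - χ 0 • g x₀) := by
        simp only [tm, ← h0, hw0, mul_zero, smul_zero, sub_zero, smul_sub, smul_smul]
      rw [e6, norm_smul, norm_mul, Real.norm_eq_abs, Real.norm_of_nonneg (pow_nonneg ha l)]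
      calc _ ≤ |P.c j| * P.a j ^ l * (P.a j * C * n) := by gcongr
        _ = |P.c j| * P.a j ^ (l + 1) * C * n := by ring
        _ ≤ _ := by
          rw [add_mul]
          have : 0 ≤ u j * n := by positivity
          linarith

theorem ex_deriv [CompleteSpace F] {χ : ℝ → ℝ} (hχ : P.Cut χ) {g : R3 → F}
    (hg : ContDiffOn ℝ ∞ g {x | P.ρ x ≤ 0}) (l : ℕ) (x : R3) :
    HasFDerivAt (P.ex l χ g) (P.asm x (P.ex (l + 1) (deriv χ) g x)
      (P.ex l χ (fderivWithin ℝ g {x | P.ρ x ≤ 0}) x)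
      (P.ex (l + 1) χ (fderivWithin ℝ g {x | P.ρ x ≤ 0}) x)) x := by
  have hg' : ContDiffOn ℝ ∞ (fderivWithin ℝ g {x | P.ρ x ≤ 0}) {x | P.ρ x ≤ 0} :=
    hg.fderivWithin P.uniq (by simp)
  have hun : {x | P.ρ x ≤ 0} ∪ {x | 0 ≤ P.ρ x} = univ :=
    eq_univ_of_forall fun y => le_total (P.ρ y) 0
  rw [← hasFDerivWithinAt_univ, ← hun]
  refine HasFDerivWithinAt.union ?_ ?_
  · by_cases hx : P.ρ x ≤ 0
    · have h1 := ((hg.differentiableOn (by simp) _ hx).hasFDerivWithinAt).const_smul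
        (if l = 0 then χ 0 else 0)
      have h2 := h1.congr (f₁ := P.ex l χ g) (fun y hy => if_pos hy) (if_pos hx)
      refine h2.congr_fderiv ?_
      simp [asm, ex, hx]
    · refine HasFDerivWithinAt.of_notMem_closure ?_
      rwa [(isClosed_le P.ρsm.continuous continuous_const).closure_eq]
  · by_cases hx : 0 ≤ P.ρ x
    · have h1 := (P.tsum_deriv hχ hg l hx).congr (f₁ := P.ex l χ g)
        (fun y hy => P.ex_eq l χ g hy) (P.ex_eq l χ g hx)
      rw [P.asm_tsum x (P.tm_summable hχ.deriv hg.continuousOn _ hx)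
        (P.tm_summable hχ hg'.continuousOn _ hx) (P.tm_summable hχ hg'.continuousOn _ hx)] at h1
      rw [P.ex_eq _ _ _ hx, P.ex_eq _ _ _ hx, P.ex_eq _ _ _ hx]
      exact h1
    · refine HasFDerivWithinAt.of_notMem_closure ?_
      rwa [(isClosed_le continuous_const P.ρsm.continuous).closure_eq]

theorem ex_contDiff (n : ℕ) : ∀ (F : Type) [NormedAddCommGroup F] [NormedSpace ℝ F]
    [CompleteSpace F] (l : ℕ) (χ : ℝ → ℝ) (g : R3 → F), P.Cut χ →
    ContDiffOn ℝ ∞ g {x | P.ρ x ≤ 0} → ContDiff ℝ n (P.ex l χ g) := by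
  induction n with
  | zero =>
    intro F _ _ _ l χ g hχ hg
    rw [Nat.cast_zero, contDiff_zero]
    exact continuous_iff_continuousAt.2 fun x => (P.ex_deriv hχ hg l x).continuousAt
  | succ n ih =>
    intro F _ _ _ l χ g hχ hg
    have hg' : ContDiffOn ℝ ∞ (fderivWithin ℝ g {x | P.ρ x ≤ 0}) {x | P.ρ x ≤ 0} :=
      hg.fderivWithin P.uniq (by simp)
    rw [Nat.cast_succ, contDiff_succ_iff_hasFDerivAt]
    refine ⟨_, ?_, P.ex_deriv hχ hg l⟩
    have hρ : ContDiff ℝ n (fderiv ℝ P.ρ) :=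
      P.ρsm.fderiv_right (by exact_mod_cast le_top)
    have hw : ContDiff ℝ n (fderiv ℝ P.w) :=
      P.wsm.fderiv_right (by exact_mod_cast le_top)
    unfold asm
    exact ((hρ.smulRight (ih F _ _ _ hχ.deriv hg)).add (ih _ _ _ _ hχ hg')).sub
      ((ih _ _ _ _ hχ hg').clm_comp hw)

end Seel

theorem Dom.extend (D : Dom) {f : R3 → ℝ} (hf : ContDiffOn ℝ ∞ f (closure D.Ω)) :
    ∃ F : R3 → ℝ, ContDiff ℝ ∞ F ∧ ∀ x ∈ closure D.Ω, F x = f x := by
  obtain ⟨a, c, ha, hs, h0, h1⟩ := seeley_seq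
  obtain ⟨ρ, ν, δ, hρ, hν, hδ, hK, -, hm⟩ := D.collar
  have hc := D.isCompact_closure
  have hu := D.uniqueDiffOn
  rw [hK] at hf hc hu hm ⊢
  let P : Seel :=
    { a := a, c := c, ρ := ρ, w := fun x => ρ x • ν x, δ := δ, ha := ha, hs := hs, h0 := h0,
      h1 := h1, ρsm := hρ, wsm := hρ.smul hν, δpos := hδ, cpt := hc, uniq := hu,
      maps := fun x j hx hj => by
        have := hm x (a j * ρ x) hx (le_mul_of_one_le_left hx (ha j)) hj
        rwa [mul_smul] at this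
      w0 := fun x hx => by simp [hx] }
  let χ : ℝ → ℝ := fun t => Real.smoothTransition (1 - 2 / δ * t)
  have hχ : P.Cut χ := by
    refine ⟨Real.smoothTransition.contDiff.comp (contDiff_const.sub (contDiff_const.mul contDiff_id)),
      fun t ht => Real.smoothTransition.zero_of_nonpos ?_⟩
    have ht' : δ / 2 < t := ht
    have : 1 ≤ 2 / δ * t := by
      rw [div_mul_eq_mul_div, le_div_iff₀ hδ]; linarith
    linarith
  refine ⟨P.ex 0 χ f, contDiff_infty.2 fun n => P.ex_contDiff n ℝ 0 χ f hχ hf, fun x hx => ?_⟩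
  have hx' : P.ρ x ≤ 0 := hx
  simp [Seel.ex, hx', χ]

end Crest.Agent.R080
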