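import Crest.Agent.R080.Defs

/-!
Row 80: geometry of the domain `D.Ω = {ρ < 0}` and integration by parts without boundary terms.
-/

set_option autoImplicit false

open MeasureTheory Set Metric Filter Topology
open scoped ContDiff

noncomputable section

namespace Crest.Agent.R080

theorem geo_deriv_bdd : ∃ M : ℝ, 0 ≤ M ∧ ∀ s, |deriv Real.smoothTransition s| ≤ M ∧
    (1 < s → deriv Real.smoothTransition s = 0) := by
  have hc : Continuous (deriv Real.smoothTransition) :=
    (Real.smoothTransition.contDiff (n := 1)).continuous_deriv le_rfl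
  have h1 : ∀ s, 1 < s → deriv Real.smoothTransition s = 0 := fun s hs => by
    have : Real.smoothTransition =ᶠ[𝓝 s] fun _ => 1 := by
      filter_upwards [lt_mem_nhds hs] with t ht using Real.smoothTransition.one_of_one_le ht.le
    rw [this.deriv_eq]; simp
  have h0 : ∀ s, s < 0 → deriv Real.smoothTransition s = 0 := fun s hs => by
    have : Real.smoothTransition =ᶠ[𝓝 s] fun _ => 0 := by
      filter_upwards [gt_mem_nhds hs] with t ht using Real.smoothTransition.zero_of_nonpos ht.le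
    rw [this.deriv_eq]; simp
  obtain ⟨M, hM⟩ := (isCompact_Icc (a := (0 : ℝ)) (b := 1)).exists_bound_of_continuousOn
    hc.continuousOn
  refine ⟨max M 0, le_max_right _ _, fun s => ⟨?_, h1 s⟩⟩
  by_cases hs : s ∈ Icc (0 : ℝ) 1
  · exact (hM s hs).trans (le_max_left _ _)
  · rcases lt_or_ge s 0 with h | h
    · rw [h0 s h, abs_zero]; exact le_max_right _ _
    · rw [h1 s (by by_contra h'; exact hs ⟨h, not_lt.1 h'⟩), abs_zero]; exact le_max_right _ _

theorem geo_re_sm (f : S) : ContDiff ℝ 1 fun x => (f x).re :=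
  (Complex.reCLM.contDiff.comp f.sm).of_le (by exact_mod_cast le_top)

theorem geo_im_sm (f : S) : ContDiff ℝ 1 fun x => (f x).im :=
  (Complex.imCLM.contDiff.comp f.sm).of_le (by exact_mod_cast le_top)

theorem geo_pd_re (f : S) (i : Fin 3) (x : R3) :
    (pd i f x).re = fderiv ℝ (fun x => (f x).re) x (eb i) := by
  have h := (Complex.reCLM.hasFDerivAt.comp x (f.diff x).hasFDerivAt).fderiv
  change fderiv ℝ (fun x => (f x).re) x = _ at h
  rw [h]
  rfl

theorem geo_pd_im (f : S) (i : Fin 3) (x : R3) :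
    (pd i f x).im = fderiv ℝ (fun x => (f x).im) x (eb i) := by
  have h := (Complex.imCLM.hasFDerivAt.comp x (f.diff x).hasFDerivAt).fderiv
  change fderiv ℝ (fun x => (f x).im) x = _ at h
  rw [h]
  rfl

namespace Dom
variable (D : Dom)

theorem geo_mem {x : R3} : x ∈ D.Ω ↔ D.ρ x < 0 := by
  rw [D.eq]; rfl

theorem geo_sm1 : ContDiff ℝ 1 D.ρ := D.sm.of_le (by exact_mod_cast le_top)

theorem isOpen : IsOpen D.Ω := by
  rw [D.eq]
  exact isOpen_lt D.sm.continuous continuous_const

theorem measurableSet : MeasurableSet D.Ω := D.isOpen.measurableSet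

/-- At a zero `x` of `ρ` pick `v` with `fderiv ρ x v < 0`; then `x + t v ∈ Ω` for small `t > 0`. -/
theorem closure_eq : closure D.Ω = {x | D.ρ x ≤ 0} := by
  refine Subset.antisymm (closure_minimal (fun x hx => (D.geo_mem.1 hx).le)
    (isClosed_le D.sm.continuous continuous_const)) fun x hx => ?_
  rcases (show D.ρ x ≤ 0 from hx).eq_or_lt with h | h
  · by_contra hx'
    refine D.reg x h (IsLocalMin.fderiv_eq_zero ?_)
    filter_upwards [isClosed_closure.isOpen_compl.mem_nhds hx'] with y hy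
    rw [h]
    exact not_lt.1 fun h' => hy (subset_closure (D.geo_mem.2 h'))
  · exact subset_closure (D.geo_mem.2 h)

theorem frontier_eq : frontier D.Ω = {x | D.ρ x = 0} := by
  rw [D.isOpen.frontier_eq, D.closure_eq]
  ext x
  simp only [Set.mem_sdiff, mem_ofPred_eq, D.geo_mem, not_lt]
  exact le_antisymm_iff.symm

theorem isCompact_closure : IsCompact (closure D.Ω) := D.bdd.isCompact_closure

theorem exists_ball : ∃ R : ℝ, 0 < R ∧ closure D.Ω ⊆ ball 0 R := by
  exact D.bdd.closure.subset_ball_lt 0 0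

/-- Lagrange multipliers: `IsLocalExtrOn.exists_multipliers_of_hasStrictFDerivAt_1d`
(`f` is constant on the level set `{ρ = ρ x₀}`). -/
theorem tan {f : R3 → ℝ} (hf : ContDiff ℝ 1 f) (h0 : ∀ x ∈ frontier D.Ω, f x = 0) {x₀ : R3}
    (hx : x₀ ∈ frontier D.Ω) : ∃ c : ℝ, fderiv ℝ f x₀ = c • fderiv ℝ D.ρ x₀ := by
  have hx0 : D.ρ x₀ = 0 := by rwa [D.frontier_eq] at hx
  have hextr : IsLocalExtrOn f {x | D.ρ x = D.ρ x₀} x₀ := by
    refine Or.inl ?_
    filter_upwards [self_mem_nhdsWithin] with y hy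
    rw [h0 x₀ hx, h0 y (by rw [D.frontier_eq]; exact hy.trans hx0)]
  obtain ⟨a, b, hab, h⟩ := hextr.exists_multipliers_of_hasStrictFDerivAt_1d
    (D.geo_sm1.contDiffAt.hasStrictFDerivAt one_ne_zero)
    (hf.contDiffAt.hasStrictFDerivAt one_ne_zero)
  have hb : b ≠ 0 := by
    rintro rfl
    rw [zero_smul, add_zero, smul_eq_zero] at h
    rcases h with rfl | h
    · exact hab rfl
    · exact D.reg x₀ hx0 h
  refine ⟨-(b⁻¹ * a), ?_⟩
  rw [neg_smul, mul_smul, ← smul_neg, eq_inv_smul_iff₀ hb]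
  exact eq_neg_of_add_eq_zero_right h

/-- `tan` for real and imaginary parts. -/
theorem tanS (f : S) (h0 : ∀ x ∈ frontier D.Ω, f x = 0) {x₀ : R3} (hx : x₀ ∈ frontier D.Ω) :
    ∃ c : ℂ, ∀ i, pd i f x₀ = c * ((fderiv ℝ D.ρ x₀ (eb i) : ℝ) : ℂ) := by
  obtain ⟨c₁, h₁⟩ := D.tan (geo_re_sm f) (fun x hx => by simp [h0 x hx]) hx
  obtain ⟨c₂, h₂⟩ := D.tan (geo_im_sm f) (fun x hx => by simp [h0 x hx]) hx
  refine ⟨⟨c₁, c₂⟩, fun i => Complex.ext ?_ ?_⟩
  · rw [geo_pd_re, h₁]; simp
  · rw [geo_pd_im, h₂]; simp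

theorem geo_local {F : R3 → ℝ} (hF : ContDiff ℝ 1 F) (h0 : ∀ x ∈ frontier D.Ω, F x = 0)
    {x₀ : R3} (hx : D.ρ x₀ = 0) : ∃ C : ℝ, ∀ᶠ x in 𝓝 x₀, x ∈ D.Ω → |F x| ≤ C * |D.ρ x| := by
  obtain ⟨v, hv⟩ : ∃ v, fderiv ℝ D.ρ x₀ v = 1 := by
    obtain ⟨w, hw⟩ : ∃ w, fderiv ℝ D.ρ x₀ w ≠ 0 := by
      by_contra h
      push Not at h
      exact D.reg x₀ hx (ContinuousLinearMap.ext h)
    exact ⟨(fderiv ℝ D.ρ x₀ w)⁻¹ • w, by rw [map_smul, smul_eq_mul, inv_mul_cancel₀ hw]⟩
  have hv0 : 0 < ‖v‖ := norm_pos_iff.2 fun h => by simp [h] at hv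
  obtain ⟨K, t, ht, hK⟩ := (hF.contDiffAt (x := x₀)).exists_lipschitzOnWith
  have hs := (D.geo_sm1.contDiffAt (x := x₀)).hasStrictFDerivAt one_ne_zero
  have h1 := hs.isLittleO.def (c := 1 / (2 * ‖v‖)) (by positivity)
  rw [nhds_prod_eq] at h1
  obtain ⟨t', ht', h1⟩ := (eventually_prod_self_iff (r := fun a b =>
    ‖D.ρ a - D.ρ b - (fderiv ℝ D.ρ x₀) (a - b)‖ ≤ 1 / (2 * ‖v‖) * ‖a - b‖)).1 h1
  obtain ⟨r, hr, hball⟩ := Metric.mem_nhds_iff.1 (inter_mem ht ht')
  refine ⟨K * (2 * ‖v‖), ?_⟩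
  have h2 : ∀ᶠ x in 𝓝 x₀, |D.ρ x| < r / (4 * ‖v‖) := by
    refine (D.sm.continuous.abs.continuousAt (x := x₀)).eventually_lt_const ?_
    simp only [hx, abs_zero]
    positivity
  filter_upwards [h2, ball_mem_nhds x₀ (half_pos hr)] with x hx1 hx2 hxΩ
  have hneg : D.ρ x < 0 := D.geo_mem.1 hxΩ
  rw [abs_of_neg hneg] at hx1 ⊢
  have hmem : ∀ s ∈ Icc (0 : ℝ) (-2 * D.ρ x), x + s • v ∈ t ∩ t' := by
    intro s hs
    refine hball ?_
    rw [mem_ball, dist_eq_norm] at hx2 ⊢
    have e : x + s • v - x₀ = (x - x₀) + s • v := by abel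
    rw [e]
    refine (norm_add_le _ _).trans_lt ?_
    rw [norm_smul, Real.norm_eq_abs, abs_of_nonneg hs.1]
    rw [lt_div_iff₀ (by positivity)] at hx1
    nlinarith [mul_le_mul_of_nonneg_right hs.2 hv0.le]
  have hT : 0 ≤ -2 * D.ρ x := by linarith
  have hx' : x ∈ t ∩ t' := hball (ball_subset_ball (half_le_self hr.le) hx2)
  have h3 : 0 ≤ D.ρ (x + (-2 * D.ρ x) • v) := by
    have h4 := h1 _ (hmem _ ⟨hT, le_rfl⟩).2 _ hx'.2
    simp only [add_sub_cancel_left, map_smul, hv, smul_eq_mul, mul_one, norm_smul,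
      Real.norm_eq_abs, abs_of_nonneg hT] at h4
    have e : 1 / (2 * ‖v‖) * (-2 * D.ρ x * ‖v‖) = -D.ρ x := by field_simp
    rw [e] at h4
    have := (abs_le.1 h4).1
    linarith
  have hc : ContinuousOn (fun s : ℝ => D.ρ (x + s • v)) (Icc 0 (-2 * D.ρ x)) :=
    (D.sm.continuous.comp (continuous_const.add (continuous_id.smul continuous_const))).continuousOn
  obtain ⟨s, hs, hs0⟩ := intermediate_value_Icc hT hc
    (show (0 : ℝ) ∈ Icc _ _ from ⟨by simpa using hneg.le, h3⟩)
  have h5 := hK.dist_le_mul _ hx'.1 _ (hmem s hs).1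
  rw [h0 (x + s • v) (by rw [D.frontier_eq]; exact hs0), Real.dist_eq, sub_zero, dist_eq_norm,
    sub_add_cancel_left, norm_neg, norm_smul, Real.norm_eq_abs, abs_of_nonneg hs.1] at h5
  refine h5.trans ?_
  rw [mul_assoc]
  refine mul_le_mul_of_nonneg_left ?_ K.coe_nonneg
  nlinarith [mul_le_mul_of_nonneg_right hs.2 hv0.le]

/-- Near a boundary point `x₀` there is a unit vector `v` with `fderiv ρ y v ≥ c > 0` for `y` near
`x₀`; from `x ∈ Ω` near `x₀` the ray `x + t v` meets `{ρ = 0}` at a time `t ≤ |ρ x| / c`, and `F` is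
Lipschitz on a compact convex set. Away from the frontier `|ρ|` is bounded below on the compact
closure. Compactness (`IsCompact.induction_on` or a Lebesgue number). -/
theorem le_mul_rho {F : R3 → ℝ} (hF : ContDiff ℝ 1 F) (h0 : ∀ x ∈ frontier D.Ω, F x = 0) :
    ∃ C : ℝ, ∀ x ∈ D.Ω, |F x| ≤ C * |D.ρ x| := by
  have key : ∃ C : ℝ, ∀ x ∈ closure D.Ω, x ∈ D.Ω → |F x| ≤ C * |D.ρ x| := by
    refine D.isCompact_closure.induction_on
      (p := fun s => ∃ C : ℝ, ∀ x ∈ s, x ∈ D.Ω → |F x| ≤ C * |D.ρ x|) ⟨0, by simp⟩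
      (fun s t hst ⟨C, hC⟩ => ⟨C, fun x hx => hC x (hst hx)⟩) ?_ ?_
    · rintro s t ⟨C, hC⟩ ⟨C', hC'⟩
      refine ⟨max C C', fun x hx hx' => ?_⟩
      rcases hx with hx | hx
      · exact (hC x hx hx').trans (mul_le_mul_of_nonneg_right (le_max_left _ _) (abs_nonneg _))
      · exact (hC' x hx hx').trans (mul_le_mul_of_nonneg_right (le_max_right _ _) (abs_nonneg _))
    · intro x₀ hx₀
      rw [D.closure_eq] at hx₀
      obtain ⟨C, hC⟩ : ∃ C : ℝ, ∀ᶠ x in 𝓝 x₀, x ∈ D.Ω → |F x| ≤ C * |D.ρ x| := by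
        rcases (show D.ρ x₀ ≤ 0 from hx₀).eq_or_lt with h | h
        · exact D.geo_local hF h0 h
        · have hpos : 0 < |D.ρ x₀| := abs_pos.2 h.ne
          refine ⟨(|F x₀| + 1) / (|D.ρ x₀| / 2), ?_⟩
          filter_upwards [(hF.continuous.abs.continuousAt (x := x₀)).eventually_lt_const
            (lt_add_one _), (D.sm.continuous.abs.continuousAt (x := x₀)).eventually_const_lt
            (half_lt_self hpos)] with x h1 h2 _
          rw [div_mul_eq_mul_div, le_div_iff₀ (half_pos hpos)]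
          exact mul_le_mul h1.le h2.le (half_pos hpos).le (by positivity)
      exact ⟨_, mem_nhdsWithin_of_mem_nhds hC, C, fun x hx => hx⟩
  obtain ⟨C, hC⟩ := key
  exact ⟨C, fun x hx => hC x (subset_closure hx) hx⟩

/-- Cut off with `χ_ε = Real.smoothTransition (-ρ / ε - 1)`: `χ_ε F` is `C¹` with compact support
in `Ω`, so the integral of its derivative vanishes
(`integral_fderiv_eq_zero`-type lemma, e.g. `integral_bilinear_hasLineDerivAt_right_eq_neg_left_of_integrable`
with the constant `1`, or `integral_mul_fderiv_eq_neg_fderiv_mul_of_integrable`); `F ∂χ_ε` is bounded by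
`le_mul_rho` and tends to `0` pointwise on `Ω`; dominated convergence along `ε = 1 / (n + 1)`. -/
theorem ibp0 {F : R3 → ℝ} (hF : ContDiff ℝ 1 F) (h0 : ∀ x ∈ frontier D.Ω, F x = 0) (v : R3) :
    ∫ x in D.Ω, fderiv ℝ F x v = 0 := by
  obtain ⟨C, hC⟩ := D.le_mul_rho hF h0
  obtain ⟨M, hM0, hM⟩ := geo_deriv_bdd
  have hDF : Continuous fun x => fderiv ℝ F x v :=
    (hF.continuous_fderiv one_ne_zero).clm_apply continuous_const
  have hDρ : Continuous fun x => fderiv ℝ D.ρ x v :=
    (D.geo_sm1.continuous_fderiv one_ne_zero).clm_apply continuous_const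
  obtain ⟨B₁, hB₁⟩ := D.isCompact_closure.exists_bound_of_continuousOn hDF.continuousOn
  obtain ⟨B₂, hB₂⟩ := D.isCompact_closure.exists_bound_of_continuousOn hDρ.continuousOn
  let u : ℕ → R3 → ℝ := fun n x => -((n : ℝ) + 1) * D.ρ x - 1
  let χ : ℕ → R3 → ℝ := fun n x => Real.smoothTransition (u n x)
  have hu : ∀ n, ContDiff ℝ 1 (u n) := fun n =>
    (contDiff_const.mul D.geo_sm1).sub contDiff_const
  have hχ : ∀ n, ContDiff ℝ 1 (χ n) := fun n => Real.smoothTransition.contDiff.comp (hu n)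
  have hdχ : ∀ n x, fderiv ℝ (χ n) x v =
      deriv Real.smoothTransition (u n x) * (-((n : ℝ) + 1) * fderiv ℝ D.ρ x v) := by
    intro n x
    have h1 : HasFDerivAt (u n) (-((n : ℝ) + 1) • fderiv ℝ D.ρ x) x :=
      (((D.geo_sm1.differentiable one_ne_zero x).hasFDerivAt.const_mul _).sub_const 1)
    have h2 := ((Real.smoothTransition.contDiff (n := 1)).differentiable one_ne_zero
      (u n x)).hasDerivAt.comp_hasFDerivAt x h1
    change fderiv ℝ (Real.smoothTransition ∘ u n) x v = _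
    rw [h2.fderiv]
    rfl
  have hsupp : ∀ n, tsupport (χ n) ⊆ D.Ω := by
    intro n
    refine (closure_minimal (t := {x | 0 ≤ u n x}) (fun x hx => ?_)
      (isClosed_le continuous_const (hu n).continuous)).trans fun x hx => D.geo_mem.2 ?_
    · by_contra h
      exact hx (Real.smoothTransition.zero_of_nonpos (not_le.1 h).le)
    · have h1 : 0 ≤ -((n : ℝ) + 1) * D.ρ x - 1 := hx
      by_contra h
      have : 0 ≤ ((n : ℝ) + 1) * D.ρ x := mul_nonneg (by positivity) (not_lt.1 h)
      linarith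
  have hcs : ∀ n, HasCompactSupport (χ n) := fun n =>
    D.isCompact_closure.of_isClosed_subset (isClosed_tsupport _) ((hsupp n).trans subset_closure)
  have hDχ : ∀ n, Continuous fun x => fderiv ℝ (χ n) x v := fun n =>
    ((hχ n).continuous_fderiv one_ne_zero).clm_apply continuous_const
  have hzero : ∀ n, ∫ x in D.Ω, (χ n x * fderiv ℝ F x v + fderiv ℝ (χ n) x v * F x) = 0 := by
    intro n
    have i1 : Integrable (fun x => fderiv ℝ (χ n) x v * F x) :=
      ((hDχ n).mul hF.continuous).integrable_of_hasCompactSupport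
        ((hcs n).fderiv_apply ℝ v).mul_right
    have i2 : Integrable (fun x => χ n x * fderiv ℝ F x v) :=
      ((hχ n).continuous.mul hDF).integrable_of_hasCompactSupport (hcs n).mul_right
    have h := integral_mul_fderiv_eq_neg_fderiv_mul_of_integrable (μ := (volume : Measure R3))
      i1 i2 (((hχ n).continuous.mul hF.continuous).integrable_of_hasCompactSupport
        (hcs n).mul_right) (fun x _ => (hχ n).differentiable one_ne_zero x)
      (fun x _ => hF.differentiable one_ne_zero x)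
    rw [setIntegral_eq_integral_of_forall_compl_eq_zero, integral_add i2 i1, h, neg_add_cancel]
    intro x hx
    have hx' : x ∉ tsupport (χ n) := fun h => hx (hsupp n h)
    rw [image_eq_zero_of_notMem_tsupport hx', fderiv_of_notMem_tsupport ℝ hx']
    simp
  have : IsFiniteMeasure (volume.restrict D.Ω) :=
    isFiniteMeasure_restrict.2 D.bdd.measure_lt_top.ne
  have hlim := tendsto_integral_of_dominated_convergence (μ := volume.restrict D.Ω)
    (F := fun n x => χ n x * fderiv ℝ F x v + fderiv ℝ (χ n) x v * F x)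
    (f := fun x => fderiv ℝ F x v) (fun _ => B₁ + M * (2 * |C| * B₂))
    (fun n => (((hχ n).continuous.mul hDF).add ((hDχ n).mul hF.continuous)).aestronglyMeasurable)
    (integrable_const _) (fun n => ?_) ?_
  · simp only [hzero] at hlim
    exact tendsto_nhds_unique hlim tendsto_const_nhds
  · filter_upwards [ae_restrict_mem D.measurableSet] with x hx
    have b1 := hB₁ x (subset_closure hx)
    have b2 := hB₂ x (subset_closure hx)
    have b2' : 0 ≤ B₂ := (norm_nonneg _).trans b2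
    refine (norm_add_le _ _).trans (add_le_add ?_ ?_)
    · rw [norm_mul]
      refine (mul_le_of_le_one_left (norm_nonneg _) ?_).trans b1
      rw [Real.norm_eq_abs, abs_of_nonneg (Real.smoothTransition.nonneg _)]
      exact Real.smoothTransition.le_one _
    · rw [hdχ]
      by_cases h1 : 1 < u n x
      · rw [(hM _).2 h1, zero_mul, zero_mul, norm_zero]
        positivity
      · have hneg : D.ρ x < 0 := D.geo_mem.1 hx
        have h2 : ((n : ℝ) + 1) * |D.ρ x| ≤ 2 := by
          rw [abs_of_neg hneg]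
          have : u n x = -((n : ℝ) + 1) * D.ρ x - 1 := rfl
          linarith [not_lt.1 h1]
        have h3 : |F x| ≤ |C| * |D.ρ x| :=
          (hC x hx).trans (mul_le_mul_of_nonneg_right (le_abs_self _) (abs_nonneg _))
        rw [mul_assoc, norm_mul]
        refine mul_le_mul (hM _).1 ?_ (norm_nonneg _) hM0
        rw [norm_mul, norm_mul, norm_neg, Real.norm_eq_abs, Real.norm_eq_abs (F x),
          abs_of_pos (by positivity : (0 : ℝ) < n + 1)]
        calc ((n : ℝ) + 1) * ‖fderiv ℝ D.ρ x v‖ * |F x|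
            ≤ ((n : ℝ) + 1) * B₂ * (|C| * |D.ρ x|) := by gcongr
          _ = (((n : ℝ) + 1) * |D.ρ x|) * (|C| * B₂) := by ring
          _ ≤ 2 * (|C| * B₂) := by gcongr
          _ = _ := by ring
  · filter_upwards [ae_restrict_mem D.measurableSet] with x hx
    have hneg : 0 < -D.ρ x := neg_pos.2 (D.geo_mem.1 hx)
    refine tendsto_const_nhds.congr' ?_
    filter_upwards [(tendsto_natCast_atTop_atTop.atTop_mul_const hneg).eventually_gt_atTop 2]
      with n hn
    have h1 : 1 < u n x := by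
      have : u n x = -((n : ℝ) + 1) * D.ρ x - 1 := rfl
      linarith
    rw [hdχ, (hM _).2 h1, zero_mul, zero_mul, add_zero]
    simp only [χ, Real.smoothTransition.one_of_one_le h1.le, one_mul]

theorem ibp0S (F : S) (h0 : ∀ x ∈ frontier D.Ω, F x = 0) (i : Fin 3) :
    ∫ x in D.Ω, pd i F x = 0 := by
  have hi : Integrable (pd i F : R3 → ℂ) (volume.restrict D.Ω) :=
    ((pd i F).cont.continuousOn.integrableOn_compact D.isCompact_closure).mono_set subset_closure
  apply Complex.ext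
  · have h := integral_re hi
    simp only [RCLike.re_to_complex, geo_pd_re] at h
    rw [← h, D.ibp0 (geo_re_sm F) (fun x hx => by simp [h0 x hx]), Complex.zero_re]
  · have h := integral_im hi
    simp only [RCLike.im_to_complex, geo_pd_im] at h
    rw [← h, D.ibp0 (geo_im_sm F) (fun x hx => by simp [h0 x hx]), Complex.zero_im]

theorem ibp0D (F : S) (h0 : ∀ x ∈ frontier D.Ω, F x = 0) (θ : C3) :
    ∫ x in D.Ω, Dv θ F x = 0 := by
  have hi : ∀ i, Integrable (pd i F : R3 → ℂ) (volume.restrict D.Ω) := fun i =>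
    ((pd i F).cont.continuousOn.integrableOn_compact D.isCompact_closure).mono_set subset_closure
  simp only [Dv, S.sum_apply, S.smul_apply]
  rw [integral_finsetSum _ fun i _ => (hi i).const_mul _]
  refine Finset.sum_eq_zero fun i _ => ?_
  rw [integral_const_mul, D.ibp0S F h0 i, mul_zero]

end Dom

end Crest.Agent.R080
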