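import Crest.Agent.R080.Sy

/-!
Row 80: algebra of Ikehata's reduction. Everything is an identity in the differential ring `S`
(`pd_mul`, `pd_comm`, `pd_exp`, `Fin.sum_univ_three`, `linear_combination` with `M.β_w`,
`S.exp_mul_exp_neg`).
-/

set_option autoImplicit false
set_option linter.unusedSimpArgs false

open MeasureTheory Set Metric Filter Topology
open scoped ContDiff

noncomputable section

namespace Crest.Agent.R080

theorem smul_eq_alg (c : ℂ) (f : S) : c • f = algebraMap ℂ S c * f := Algebra.smul_def c f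

@[simp] theorem pd_alg (i : Fin 3) (c : ℂ) : pd i (algebraMap ℂ S c) = 0 := (pd i).map_algebraMap c

theorem pd_ex' (i : Fin 3) (τ : ℝ) (θ : C3) :
    pd i (ex τ θ) = algebraMap ℂ S τ * algebraMap ℂ S (θ i) * ex τ θ := by
  rw [pd_ex, smul_eq_alg, map_mul]

theorem alg_dot {θ n : C3} (h : dot θ n = 0) :
    algebraMap ℂ S (θ 0) * algebraMap ℂ S (n 0) + algebraMap ℂ S (θ 1) * algebraMap ℂ S (n 1) +
      algebraMap ℂ S (θ 2) * algebraMap ℂ S (n 2) = 0 := by
  rw [← map_mul, ← map_mul, ← map_mul, ← map_add, ← map_add, ← map_zero (algebraMap ℂ S), ← h]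
  simp [dot, Fin.sum_univ_three]

theorem alg_half : algebraMap ℂ S (1 / 2) * 2 = 1 := by
  rw [show (2 : S) = algebraMap ℂ S 2 from rfl, ← map_mul]
  norm_num

theorem two_mul_cancel {f g : S} (h : 2 * f = 2 * g) : f = g := by
  linear_combination algebraMap ℂ S (1 / 2) * h - (f - g) * alg_half

theorem pd10 (f : S) : pd 1 (pd 0 f) = pd 0 (pd 1 f) := pd_comm _ _ _
theorem pd20 (f : S) : pd 2 (pd 0 f) = pd 0 (pd 2 f) := pd_comm _ _ _
theorem pd21 (f : S) : pd 2 (pd 1 f) = pd 1 (pd 2 f) := pd_comm _ _ _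

namespace Med
variable (M : Med)

theorem H_symm (i j : Fin 3) : M.H i j = M.H j i := by
  rw [H, H, pd_comm, mul_comm]

theorem mu_mul_exp_neg : M.mu * S.exp (-M.m) = 1 := S.exp_mul_exp_neg _

/-- `μ` times twice the strain of `y ξ η` -/
theorem mu_sym_y (ξ : Fin 3 → S) (η : S) (i j : Fin 3) :
    M.mu * sym (M.y ξ η) i j = pd i (ξ j) + pd j (ξ i) - ξ j * pd i M.m - ξ i * pd j M.m +
      2 * pd i (pd j η) + 2 * η * M.H i j := by
  have h := M.mu_mul_exp_neg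
  simp only [sym, y, H, pd_mul, pd_exp, map_add, map_neg]
  rw [pd_comm j i η, pd_comm j i M.m]
  linear_combination (pd i (ξ j) + pd j (ξ i) - ξ j * pd i M.m - ξ i * pd j M.m +
      2 * pd i (pd j η) + 2 * η * (pd i (pd j M.m) - pd i M.m * pd j M.m)) * h

theorem mu_dv_y (ξ : Fin 3 → S) (η : S) :
    M.mu * dv (M.y ξ η) = lap η + η * ∑ j, M.H j j + dv ξ - ∑ j, ξ j * pd j M.m := by
  have h0 := M.mu_sym_y ξ η 0 0
  have h1 := M.mu_sym_y ξ η 1 1
  have h2 := M.mu_sym_y ξ η 2 2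
  have h := alg_half
  simp only [sym, dv, lap, Fin.sum_univ_three] at *
  linear_combination algebraMap ℂ S (1 / 2) * (h0 + h1 + h2) -
    (M.mu * (pd 0 (M.y ξ η 0) + pd 1 (M.y ξ η 1) + pd 2 (M.y ξ η 2)) -
      (pd 0 (pd 0 η) + pd 1 (pd 1 η) + pd 2 (pd 2 η) + η * (M.H 0 0 + M.H 1 1 + M.H 2 2) +
        (pd 0 (ξ 0) + pd 1 (ξ 1) + pd 2 (ξ 2)) -
        (ξ 0 * pd 0 M.m + ξ 1 * pd 1 M.m + ξ 2 * pd 2 M.m))) * h

theorem lam_dv_y (ξ : Fin 3 → S) (η : S) :
    M.lam * dv (M.y ξ η) = M.w * M.I2 ξ η - 2 * lap η - dv ξ := by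
  have h := M.mu_dv_y ξ η
  have hw := M.β_w
  simp only [lam, mu, I2] at *
  linear_combination (2 * M.β - 1) * M.w * h - (2 * lap η + dv ξ) * hw

theorem dv_y (ξ : Fin 3 → S) (η : S) :
    dv (M.y ξ η) = S.exp (-M.m) * (M.I2 ξ η +
      (1 - M.β) * (dv ξ - 2 * ∑ j, ξ j * pd j M.m + 2 * η * ∑ j, M.H j j)) := by
  have h := M.mu_dv_y ξ η
  have he := M.mu_mul_exp_neg
  simp only [I2] at *
  linear_combination S.exp (-M.m) * h - dv (M.y ξ η) * he

theorem Lop_y (ξ : Fin 3 → S) (η : S) (i : Fin 3) :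
    Lop M.lam M.mu (M.y ξ η) i = M.I1 ξ η i + pd i (M.w * M.I2 ξ η) := by
  simp only [Lop, lam_dv_y, mu_sym_y, I1]
  simp only [map_add, map_sub, lap, dv, Fin.sum_univ_three, pd_two, pd_mul, map_zero]
  fin_cases i <;> simp only [Fin.reduceFinMk, Fin.zero_eta, Fin.mk_one, pd10, pd20, pd21] <;> ring

theorem I1_ex {θ : C3} (hθ : dot θ θ = 0) (τ : ℝ) (ξ : Fin 3 → S) (η : S) (i : Fin 3) :
    M.I1 (fun j => ex τ θ * ξ j) (ex τ θ * η) i =
      ex τ θ * ((τ : ℂ) • M.P1 θ ξ η i + M.I1 ξ η i) := by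
  have h := alg_dot hθ
  simp only [I1, P1, lap, Dv, dotS, Fin.sum_univ_three, pd_mul, map_add, pd_ex', smul_eq_alg, pd_alg, map_zero]
  linear_combination (algebraMap ℂ S τ) ^ 2 * ex τ θ * ξ i * h

theorem I2_ex {θ : C3} (hθ : dot θ θ = 0) (τ : ℝ) (ξ : Fin 3 → S) (η : S) :
    M.I2 (fun j => ex τ θ * ξ j) (ex τ θ * η) = ex τ θ * ((τ : ℂ) • M.P2 θ ξ η + M.I2 ξ η) := by
  have h := alg_dot hθ
  simp only [I2, P2, lap, dv, Dv, dotS, Fin.sum_univ_three, pd_mul, map_add, pd_ex', smul_eq_alg,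
    pd_alg, map_zero]
  linear_combination (algebraMap ℂ S τ) ^ 2 * ex τ θ * η * h

theorem I1_add (ξ ξ' : Fin 3 → S) (η η' : S) (i : Fin 3) :
    M.I1 (fun j => ξ j + ξ' j) (η + η') i = M.I1 ξ η i + M.I1 ξ' η' i := by
  simp only [I1, lap, Fin.sum_univ_three, pd_mul, map_add]
  ring

theorem I2_add (ξ ξ' : Fin 3 → S) (η η' : S) :
    M.I2 (fun j => ξ j + ξ' j) (η + η') = M.I2 ξ η + M.I2 ξ' η' := by
  simp only [I2, lap, dv, Fin.sum_univ_three, map_add]
  ring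

theorem I1_smul (c : ℂ) (ξ : Fin 3 → S) (η : S) (i : Fin 3) :
    M.I1 (fun j => c • ξ j) (c • η) i = c • M.I1 ξ η i := by
  simp only [I1, lap, Fin.sum_univ_three, pd_mul, map_add, smul_eq_alg, pd_alg, map_zero]
  ring

theorem I2_smul (c : ℂ) (ξ : Fin 3 → S) (η : S) :
    M.I2 (fun j => c • ξ j) (c • η) = c • M.I2 ξ η := by
  simp only [I2, lap, dv, Fin.sum_univ_three, pd_mul, map_add, smul_eq_alg, pd_alg, map_zero]
  ring

theorem P1_add (θ : C3) (ξ ξ' : Fin 3 → S) (η η' : S) (i : Fin 3) :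
    M.P1 θ (fun j => ξ j + ξ' j) (η + η') i = M.P1 θ ξ η i + M.P1 θ ξ' η' i := by
  simp only [P1, Dv, dotS, Fin.sum_univ_three, pd_mul, map_add, smul_eq_alg, pd_alg, Pi.neg_apply,
    map_neg]
  ring

theorem P2_add (θ : C3) (ξ ξ' : Fin 3 → S) (η η' : S) :
    M.P2 θ (fun j => ξ j + ξ' j) (η + η') = M.P2 θ ξ η + M.P2 θ ξ' η' := by
  simp only [P2, Dv, dotS, Fin.sum_univ_three, pd_mul, map_add, smul_eq_alg, pd_alg, Pi.neg_apply,
    map_neg]
  ring

theorem P1_smul (θ : C3) (c : ℂ) (ξ : Fin 3 → S) (η : S) (i : Fin 3) :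
    M.P1 θ (fun j => c • ξ j) (c • η) i = c • M.P1 θ ξ η i := by
  simp only [P1, Dv, dotS, Fin.sum_univ_three, pd_mul, map_add, smul_eq_alg, pd_alg, Pi.neg_apply,
    map_neg]
  ring

theorem P2_smul (θ : C3) (c : ℂ) (ξ : Fin 3 → S) (η : S) :
    M.P2 θ (fun j => c • ξ j) (c • η) = c • M.P2 θ ξ η := by
  simp only [P2, Dv, dotS, Fin.sum_univ_three, pd_mul, map_add, smul_eq_alg, pd_alg, Pi.neg_apply,
    map_neg]
  ring

theorem P1_neg (θ : C3) (ξ : Fin 3 → S) (η : S) (i : Fin 3) :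
    M.P1 (-θ) ξ η i = -M.P1 θ ξ η i := by
  simp only [P1, Dv, dotS, Fin.sum_univ_three, pd_mul, map_add, smul_eq_alg, pd_alg, Pi.neg_apply,
    map_neg]
  ring

theorem P2_neg (θ : C3) (ξ : Fin 3 → S) (η : S) : M.P2 (-θ) ξ η = -M.P2 θ ξ η := by
  simp only [P2, Dv, dotS, Fin.sum_univ_three, pd_mul, map_add, smul_eq_alg, pd_alg, Pi.neg_apply,
    map_neg]
  ring

/-- Ikehata's system has principal part the Laplacian -/
theorem exists_sys : ∃ P : Sys (Option (Fin 3)), ∀ Z : Option (Fin 3) → S,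
    (∀ i, P.app Z (some i) = M.I1 (fun j => Z (some j)) (Z none) i) ∧
      P.app Z none = M.I2 (fun j => Z (some j)) (Z none) := by
  refine ⟨⟨fun k a b => match a, b with
      | some i, some j => -(if i = j then pd k M.m else 0) - if k = j then pd i M.m else 0
      | some i, none => 2 * M.H i k
      | none, some j => if k = j then M.β else 0
      | none, none => 0,
    fun a b => match a, b with
      | some i, some j => -(if i = j then lap M.m else 0) - pd j (pd i M.m)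
      | some i, none => 2 * ∑ k, pd k (M.H i k)
      | none, some j => -((2 * M.β - 1) * pd j M.m)
      | none, none => (2 * M.β - 1) * ∑ j, M.H j j⟩, fun Z => ⟨fun i => ?_, ?_⟩⟩
  · simp only [Sys.app, I1, Fintype.sum_option, Fin.sum_univ_three, pd_mul, lap]
    fin_cases i <;> simp <;> ring
  · simp only [Sys.app, I2, Fintype.sum_option, Fin.sum_univ_three, pd_mul, lap, dv]
    simp
    ring

/-- the transport operator is `2 D + B` -/
theorem exists_trans (θ : C3) : ∃ B : Option (Fin 3) → Option (Fin 3) → S,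
    ∀ Z : Option (Fin 3) → S,
      (∀ i, M.P1 θ (fun j => Z (some j)) (Z none) i =
        2 * (Dv θ (Z (some i)) + ∑ q, B (some i) q * Z q)) ∧
      M.P2 θ (fun j => Z (some j)) (Z none) = 2 * (Dv θ (Z none) + ∑ q, B none q * Z q) := by
  have h := alg_half
  refine ⟨fun a b => match a, b with
      | some i, some j => algebraMap ℂ S (1 / 2) *
          (-(if i = j then Dv θ M.m else 0) - θ j • pd i M.m)
      | some i, none => dotS θ (M.H i)
      | none, some j => algebraMap ℂ S (1 / 2) * (θ j • M.β)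
      | none, none => 0, fun Z => ⟨fun i => ?_, ?_⟩⟩
  · simp only [P1, Fintype.sum_option, Fin.sum_univ_three, dotS, smul_eq_alg]
    have e : Z (some i) * Dv θ M.m = (if i = 0 then Dv θ M.m else 0) * Z (some 0) +
        (if i = 1 then Dv θ M.m else 0) * Z (some 1) + (if i = 2 then Dv θ M.m else 0) * Z (some 2) := by
      fin_cases i <;> simp [mul_comm]
    linear_combination (-1 : S) * e + ((if i = 0 then Dv θ M.m else 0) * Z (some 0) +
        (if i = 1 then Dv θ M.m else 0) * Z (some 1) + (if i = 2 then Dv θ M.m else 0) * Z (some 2) +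
        pd i M.m * (algebraMap ℂ S (θ 0) * Z (some 0) + algebraMap ℂ S (θ 1) * Z (some 1) +
          algebraMap ℂ S (θ 2) * Z (some 2))) * h
  · simp only [P2, Fintype.sum_option, Fin.sum_univ_three, dotS, smul_eq_alg]
    linear_combination (-M.β * (algebraMap ℂ S (θ 0) * Z (some 0) + algebraMap ℂ S (θ 1) * Z (some 1) +
          algebraMap ℂ S (θ 2) * Z (some 2))) * h

theorem P1_xi0 {θ n : C3} (hn : dot θ n = 0) (c : ℂ) (i : Fin 3) :
    M.P1 θ (M.xi0 c n) 0 i = 0 := by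
  have h := alg_dot hn
  have h2 := alg_half
  simp only [P1, xi0, Dv, dotS, Fin.sum_univ_three, pd_mul, map_add, map_mul, smul_eq_alg, pd_alg,
    pd_exp]
  linear_combination (algebraMap ℂ S c * algebraMap ℂ S (n i) *
      S.exp (algebraMap ℂ S (1 / 2) * M.m) * (algebraMap ℂ S (θ 0) * pd 0 M.m +
        algebraMap ℂ S (θ 1) * pd 1 M.m + algebraMap ℂ S (θ 2) * pd 2 M.m)) * h2 -
    pd i M.m * algebraMap ℂ S c * S.exp (algebraMap ℂ S (1 / 2) * M.m) * h

theorem P2_xi0 {θ n : C3} (hn : dot θ n = 0) (c : ℂ) : M.P2 θ (M.xi0 c n) 0 = 0 := by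
  have h := alg_dot hn
  simp only [P2, xi0, Dv, dotS, Fin.sum_univ_three, map_zero, map_mul, smul_eq_alg]
  linear_combination M.β * algebraMap ℂ S c * S.exp (algebraMap ℂ S (1 / 2) * M.m) * h

theorem dotS_xi0 {θ n : C3} (hn : dot θ n = 0) (c : ℂ) : dotS θ (M.xi0 c n) = 0 := by
  have h := alg_dot hn
  simp only [xi0, dotS, Fin.sum_univ_three, map_mul, smul_eq_alg]
  linear_combination algebraMap ℂ S c * S.exp (algebraMap ℂ S (1 / 2) * M.m) * h

theorem dotS_ampA {θ n : C3} (hθ : dot θ θ = 0) (hn : dot θ n = 0) (c : ℂ) (η₁ : S) :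
    dotS θ (M.ampA θ c n η₁) = 0 := by
  have h := alg_dot hn
  have h' := alg_dot hθ
  simp only [ampA, xi0, dotS, Fin.sum_univ_three, map_mul, smul_eq_alg]
  linear_combination S.exp (-M.m) * algebraMap ℂ S c * S.exp (algebraMap ℂ S (1 / 2) * M.m) * h +
    S.exp (-M.m) * η₁ * h'

theorem T1_amp {θ n : C3} (hn : dot θ n = 0) (c : ℂ) (ξ₁ : Fin 3 → S) (η₁ : S) (i : Fin 3) :
    M.T1 θ (M.ampA θ c n η₁) (M.ampD θ c n ξ₁) i =
      θ i • (S.exp (-M.m) * (M.P2 θ ξ₁ η₁ + M.I2 (M.xi0 c n) 0)) := by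
  have h1 := M.P1_xi0 hn c i
  have h2 := M.dotS_xi0 hn c
  simp only [T1, ampA, ampD, P1, P2, I2, h2]  at h1 ⊢
  generalize M.xi0 c n = X at h1 ⊢
  simp only [Dv, dotS, dv, lap, Fin.sum_univ_three, pd_mul, map_add, map_neg, smul_eq_alg, pd_alg,
    pd_exp, map_zero] at h1 ⊢
  linear_combination S.exp (-M.m) * h1

theorem T2_amp {θ n : C3} (hn : dot θ n = 0) (c : ℂ) (ξ₁ : Fin 3 → S) (η₁ : S) :
    2 * M.T2 θ (M.ampA θ c n η₁) (M.ampD θ c n ξ₁) =
      S.exp (-M.m) * ∑ i, θ i • (M.P1 θ ξ₁ η₁ i + M.I1 (M.xi0 c n) 0 i) := by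
  have h1 := fun i => M.P1_xi0 hn c i
  have h2 := M.dotS_xi0 hn c
  simp only [T2, ampA, ampD, P1, I1, h2]  at h1 ⊢
  generalize M.xi0 c n = X at h1 h2 ⊢
  have h3 : lap (dotS θ X) = 0 := by simp [h2, lap]
  have h4 := fun i => congrArg (pd i) h2
  have h5 := fun i => congrArg (pd i) (h1 i)
  have h10 := h1 0
  have h11 := h1 1
  have h12 := h1 2
  have h40 := h4 0
  have h41 := h4 1
  have h42 := h4 2
  have h50 := h5 0
  have h51 := h5 1
  have h52 := h5 2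
  simp only [Dv, dotS, dv, lap, H, Fin.sum_univ_three, pd_mul, map_add, map_sub, map_neg, smul_eq_alg,
    pd_alg, pd_exp, map_zero, pd_two, pd10, pd20, pd21] at h2 h3 h10 h11 h12 h40 h41 h42 h50 h51 h52 ⊢
  linear_combination S.exp (-M.m) * (h50 + h51 + h52 - 2 * pd 0 M.m * h10 - 2 * pd 1 M.m * h11 -
    2 * pd 2 M.m * h12 - h3 + pd 0 M.m * h40 + pd 1 M.m * h41 + pd 2 M.m * h42 +
    (pd 0 (pd 0 M.m) + pd 1 (pd 1 M.m) + pd 2 (pd 2 M.m)) * h2)

end Med

/-- the difference of the two energy densities -/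
theorem en_diff (M₁ M₂ : Med) (u ξ : Fin 3 → S) (η : S) :
    en M₁.lam M₁.mu u (M₁.y ξ η) - en M₂.lam M₂.mu u (M₂.y ξ η) =
      dv u * (M₁.w * M₁.I2 ξ η - M₂.w * M₂.I2 ξ η) +
        ∑ i, ∑ j, sym u i j * (η * (M₁.H i j - M₂.H i j) - ξ j * pd i (M₁.m - M₂.m)) := by
  have key : ∀ M : Med, 2 * en M.lam M.mu u (M.y ξ η) = 2 * dv u * (M.lam * dv (M.y ξ η)) +
      ∑ i, ∑ j, sym u i j * (M.mu * sym (M.y ξ η) i j) := fun M => by
    simp only [en, sym, Fin.sum_univ_three]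
    ring
  refine two_mul_cancel ?_
  rw [mul_sub, key, key]
  simp only [Med.lam_dv_y, Med.mu_sym_y]
  simp only [sym, Fin.sum_univ_three, map_sub]
  ring

theorem en_sub (lam mu : S) (u φ ψ : Fin 3 → S) :
    en lam mu u (fun i => φ i - ψ i) = en lam mu u φ - en lam mu u ψ := by
  simp only [en, dv, map_sub, Fin.sum_univ_three]
  ring

/-- the limit density is a derivative up to the amplitude equations -/
theorem key_alg (M₁ M₂ : Med) (θ : C3) (a ξ : Fin 3 → S) (δ η : S) :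
    δ * (M₁.β - M₂.β) * dotS θ ξ -
        ∑ i, ∑ j, (θ i • a j + θ j • a i) * (η * (M₁.H i j - M₂.H i j) - ξ j * pd i (M₁.m - M₂.m)) =
      2 * Dv θ (δ * η - ∑ j, a j * ξ j) + ∑ j, M₁.T1 θ a δ j * ξ j + ∑ j, a j * M₂.P1 θ ξ η j -
        2 * η * M₁.T2 θ a δ - δ * M₂.P2 θ ξ η := by
  simp only [Med.T1, Med.T2, Med.P1, Med.P2, Dv, dotS, Fin.sum_univ_three, pd_mul, map_add, map_sub,
    smul_eq_alg, M₁.H_symm 1 0, M₁.H_symm 2 0, M₁.H_symm 2 1, M₂.H_symm 1 0, M₂.H_symm 2 0,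
    M₂.H_symm 2 1]
  ring

end Crest.Agent.R080
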