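import Crest.Agent.R080.HolB
import Crest.Agent.R080.Geo
import Crest.Agent.R080.Ike

/-!
Row 80: the consequences of rigidity.

Let `k ζ i j g = K ζ (single i j g)`, `γ ζ i j g = k ζ i j g + δ i j ∫_Ω g`, `ψ = m₁ - m₂`, `D = Dv (th ζ)`.
`IsK` for `Ψ = single i j g` reads
`- k i j (D g) + ∑ l, γ l j (A₂ i l * g) - ∑ l, γ i l (A₁ l j * g) = 0`. Indices `0, 1, 2`.
* `(0,2)`, `(1,2)` for all `ζ`: `k 0 1 = k 1 0 = 0` and `γ 2 2 (β₂ g) = γ 0 0 (β₁ g) = γ 1 1 (β₁ g)`.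
* `(0,1)`: `k 2 1 (β₂ g) = γ (D_{e2} ψ g)`; `(1,0)`, `ζ ≠ 0`: `k 2 0 (β₂ g) = γ (D_{e1} ψ g)`, `γ = γ 0 0`.
* `(0,0)`: `- k 0 0 (D g) = γ (D ψ g) / 2`; `(2,2)`: `- k 2 2 (D g) = γ 2 2 (D ψ g) / 2`.
* If `κ` is a functional vanishing on functions that vanish on `Ω` and
  `- κ (D g) = (κ (D ψ g) + ∫ D ψ g) / 2` for all `g`, then `T g = κ (exp (-ψ/2) g) + ∫ (exp (-ψ/2) - 1) g`
  kills every `D g` (`Dom.ibp0D`, `ψ = 0` on the frontier), so `T = 0` (`db_scalar`), that is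
  `κ g + ∫ g = ∫ exp (ψ/2) g`. So `γ = γ 2 2 = ∫ exp (ψ/2) ·`, and `β₁ = β₂` on `Ω`
  (`eq_zero_of_integral`).
* `k 2 0 g = ∫ (e1 · Yv) g`, `k 2 1 g = ∫ (e2 · Yv) g`; `Yv = 0` on the frontier; `(2,0)` and `(2,1)` with
  `Dom.ibp0D` give the two identities for `Nm`.
-/

set_option autoImplicit false
set_option linter.unusedSimpArgs false

open MeasureTheory Set Metric Filter Topology
open scoped ContDiff

noncomputable section

namespace Crest.Agent.R080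

theorem Tt_single (θ : C3) (A₁ A₂ : Matrix (Fin 3) (Fin 3) S) (i j : Fin 3) (g : S) :
    Tt θ A₁ A₂ (Matrix.single i j g) = -Matrix.single i j (Dv θ g) +
      ∑ l, Matrix.single l j (A₂ i l * g) - ∑ l, Matrix.single i l (A₁ l j * g) := by
  have h0 : Dv θ 0 = 0 := by simp [Dv]
  ext1 a b
  simp only [Tt, Matrix.of_apply, Matrix.sub_apply, Matrix.add_apply, Matrix.neg_apply,
    Matrix.sum_apply, Matrix.single_apply]
  by_cases ha : i = a <;> by_cases hb : j = b <;> simp [ha, hb, h0, mul_comm]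

theorem IsK.weak {Ω : Set R3} (hb : Bornology.IsBounded Ω) {θ : C3}
    {A₁ A₂ : Matrix (Fin 3) (Fin 3) S} {K : Matrix (Fin 3) (Fin 3) S →ₗ[ℂ] ℂ}
    (h : IsK Ω θ A₁ A₂ K) (i j : Fin 3) (g : S) :
    -K (Matrix.single i j (Dv θ g)) + ∑ l, K (Matrix.single l j (A₂ i l * g)) -
      ∑ l, K (Matrix.single i l (A₁ l j * g)) = intL Ω hb (A₁ i j * g) - intL Ω hb (A₂ i j * g) := by
  have h1 := h.2 (Matrix.single i j g)
  rw [Tt_single, map_sub, map_add, map_neg, map_sum, map_sum] at h1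
  rw [h1, ← map_sub, intL_apply, ← sub_mul]
  congr 2
  funext x
  congr 1
  rw [Finset.sum_eq_single i, Finset.sum_eq_single j]
  · simp
  · intro b _ hb'
    simp [Ne.symm hb']
  · simp
  · intro a _ ha
    simp [Ne.symm ha]
  · simp

theorem Dom.expo (D : Dom) {θ : C3} (hθ : Null θ) (ψ : S) (hψ : ∀ x ∈ frontier D.Ω, ψ x = 0)
    (κ : S →ₗ[ℂ] ℂ) (hκ : ∀ g : S, (∀ x ∈ D.Ω, g x = 0) → κ g = 0)
    (h : ∀ g, -κ (Dv θ g) = (κ (Dv θ ψ * g) + intL D.Ω D.bdd (Dv θ ψ * g)) / 2) (g : S) :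
    κ g + intL D.Ω D.bdd g = intL D.Ω D.bdd (S.exp ((1 / 2 : ℂ) • ψ) * g) := by
  set E := S.exp ((1 / 2 : ℂ) • ψ)
  set E' := S.exp (-((1 / 2 : ℂ) • ψ)) with hE'
  have hEE : E * E' = 1 := S.exp_mul_exp_neg _
  have hD : Dv θ E' = -((1 / 2 : ℂ) • (Dv θ ψ * E')) := by
    rw [hE', Dv_exp, Dv_neg, Dv_smul, S.mul_neg', mul_smul_comm, mul_comm]
  have hT : ∀ G : S, κ (E' * Dv θ G) + intL D.Ω D.bdd ((E' - 1) * Dv θ G) = 0 := fun G => by
    have h1 := h (E' * G)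
    have h2 : intL D.Ω D.bdd (Dv θ ((E' - 1) * G)) = 0 :=
      D.ibp0D _ (fun x hx => by simp [hE', hψ x hx]) θ
    rw [Dv_mul, Dv_sub, Dv_one, sub_zero, hD] at h2
    rw [Dv_mul, hD] at h1
    simp only [S.mul_neg', mul_smul_comm, map_add, map_neg, map_smul, smul_eq_mul,
      show G * (Dv θ ψ * E') = Dv θ ψ * (E' * G) by ring] at h1 h2
    linear_combination h2 - h1
  obtain ⟨G, hG⟩ := db_scalar hθ D.bdd (E * g)
  have h1 := hT G
  have h2 : κ (E' * Dv θ G - g) = 0 := hκ _ fun x hx => by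
    have := congrArg (fun f : S => f x) hEE
    simp only [S.mul_apply, S.one_apply] at this
    simp only [S.sub_apply, S.mul_apply, hG x hx]
    linear_combination g x * this
  have h3 : intL D.Ω D.bdd ((E' - 1) * Dv θ G) = intL D.Ω D.bdd (g - E * g) :=
    setIntegral_congr_fun D.measurableSet fun x hx => by
      have := congrArg (fun f : S => f x) hEE
      simp only [S.mul_apply, S.one_apply] at this
      simp only [S.sub_apply, S.mul_apply, hG x hx, S.one_apply]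
      linear_combination g x * this
  rw [map_sub] at h2 h3
  linear_combination h1 - h2 - h3

theorem Dv_th (ζ : ℂ) (f : S) : Dv (th ζ) f = Dv (e1 ζ) f + ζ • Dv (e2 ζ) f := by
  refine S.ext fun x => ?_
  simp only [Dv, th, e1, e2, Fin.sum_univ_three, Matrix.cons_val_zero, Matrix.cons_val_one,
    Matrix.cons_val, S.add_apply, S.smul_apply]
  ring

/-- the pairing of `Nm` with two constant vectors -/
theorem Nm_pair (M₁ M₂ : Med) (θ e : C3) :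
    ∑ a, ∑ b, (θ a * e b) • Nm M₁ M₂ a b = Dv θ (dotS e (Yv M₁ M₂)) +
      S.exp ((1 / 2 : ℂ) • (M₁.m - M₂.m)) * (M₂.Hq θ e - M₁.Hq θ e) -
      (1 / 2 : ℂ) • (dotS θ (Yv M₁ M₂) * Dv e M₁.m + Dv θ M₁.m * dotS e (Yv M₁ M₂)) := by
  simp only [Nm, Dv, dotS, Med.Hq, Fin.sum_univ_three, map_add, map_mul, smul_eq_alg, pd_mul, pd_alg]
  ring

theorem dotS_Yv (M₁ M₂ : Med) (e : C3) : dotS e (Yv M₁ M₂) =
    S.exp ((1 / 2 : ℂ) • (M₁.m - M₂.m)) * M₂.bi * Dv e (M₁.m - M₂.m) := by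
  simp only [dotS, Yv, Dv, Finset.mul_sum, mul_smul_comm]

theorem Pair.finA {D : Dom} {M₁ M₂ : Med} (h : Pair D M₁ M₂)
    (K : ℂ → Matrix (Fin 3) (Fin 3) S →ₗ[ℂ] ℂ)
    (hK : ∀ ζ, IsK D.Ω (th ζ) (M₁.A ζ) (M₂.A ζ) (K ζ)) :
    (∀ x ∈ D.Ω, M₁.β x = M₂.β x) ∧ ∀ ζ : ℂ, ζ ≠ 0 → ∀ x ∈ D.Ω,
      ∑ a, ∑ b, th ζ a * e1 ζ b * Nm M₁ M₂ a b x = 0 ∧
      ∑ a, ∑ b, th ζ a * e2 ζ b * Nm M₁ M₂ a b x = 0 := by
  set I := intL D.Ω D.bdd with hI
  obtain ⟨k, hk⟩ : ∃ k : ℂ → Fin 3 → Fin 3 → S →ₗ[ℂ] ℂ,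
      ∀ ζ i j g, K ζ (Matrix.single i j g) = k ζ i j g :=
    ⟨fun ζ i j => K ζ ∘ₗ Matrix.singleLinearMap ℂ i j, fun _ _ _ _ => rfl⟩
  have loc : ∀ ζ i j (g : S), (∀ x ∈ D.Ω, g x = 0) → k ζ i j g = 0 := fun ζ i j g hg => by
    rw [← hk]
    refine (hK ζ).1 _ fun x hx a b => ?_
    rw [Matrix.single_apply]
    split_ifs
    · exact hg x hx
    · rfl
  have rig := isK_rigid D.isOpen D.bdd M₁ M₂ K hK
  simp only [hk] at rig
  have z0 : ∀ ζ g, k ζ 0 2 g = 0 := fun ζ g => (rig ζ g).1 0 (by decide)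
  have z1 : ∀ ζ g, k ζ 1 2 g = 0 := fun ζ g => (rig ζ g).1 1 (by decide)
  obtain ⟨κ, hκ, locκ⟩ : ∃ κ : Fin 3 → Fin 3 → S →ₗ[ℂ] ℂ,
      (∀ ζ g i j, (i = 2 ↔ j = 2) → k ζ i j g = κ i j g) ∧
        ∀ i j (g : S), (∀ x ∈ D.Ω, g x = 0) → κ i j g = 0 :=
    ⟨k 0, fun ζ g => (rig ζ g).2, loc 0⟩
  have c00 : ∀ ζ g, k ζ 0 0 g = κ 0 0 g := fun ζ g => hκ ζ g 0 0 (by decide)
  have c01 : ∀ ζ g, k ζ 0 1 g = κ 0 1 g := fun ζ g => hκ ζ g 0 1 (by decide)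
  have c10 : ∀ ζ g, k ζ 1 0 g = κ 1 0 g := fun ζ g => hκ ζ g 1 0 (by decide)
  have c11 : ∀ ζ g, k ζ 1 1 g = κ 1 1 g := fun ζ g => hκ ζ g 1 1 (by decide)
  have c22 : ∀ ζ g, k ζ 2 2 g = κ 2 2 g := fun ζ g => hκ ζ g 2 2 (by decide)
  have weak := fun ζ => (hK ζ).weak D.bdd
  simp only [hk, ← hI, Fin.sum_univ_three] at weak
  have w00 := fun ζ => weak ζ 0 0
  have w01 := fun ζ => weak ζ 0 1
  have w02 := fun ζ => weak ζ 0 2
  have w10 := fun ζ => weak ζ 1 0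
  have w12 := fun ζ => weak ζ 1 2
  have w20 := fun ζ => weak ζ 2 0
  have w21 := fun ζ => weak ζ 2 1
  have w22 := fun ζ => weak ζ 2 2
  simp only [z0, z1, c00, c01, c10, c11, c22, Med.A, Matrix.of_apply, Matrix.cons_val',
    Matrix.cons_val_zero, Matrix.cons_val_one, Matrix.cons_val, Matrix.cons_val_fin_one,
    smul_mul_assoc, add_mul, zero_mul, map_add, map_smul, map_zero, smul_eq_mul]
    at w00 w01 w02 w10 w12 w20 w21 w22
  have b1 : ∀ g : S, M₁.β * (M₁.bi * g) = g := fun g => by rw [← mul_assoc, M₁.β_bi, one_mul]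
  have b2 : ∀ g : S, M₂.β * (M₂.bi * g) = g := fun g => by rw [← mul_assoc, M₂.β_bi, one_mul]
  have h01 : ∀ g, κ 0 1 g = 0 := fun g => by
    have e0 := w02 0 (M₁.bi * g)
    have e1 := w02 1 (M₁.bi * g)
    rw [b1] at e0 e1
    linear_combination 2 * e0 - 2 * e1
  have h10 : ∀ g, κ 1 0 g = 0 := fun g => by
    have e0 := w12 0 (M₁.bi * g)
    rw [b1] at e0
    linear_combination -2 * e0
  have h20 : ∀ g, κ 2 2 (M₂.β * g) + I (M₂.β * g) = κ 0 0 (M₁.β * g) + I (M₁.β * g) := fun g => by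
    linear_combination 2 * w02 0 g
  have h11 : ∀ g, κ 1 1 g = κ 0 0 g := fun g => by
    have e0 := w12 1 (M₁.bi * g)
    have e1 := h20 (M₁.bi * g)
    rw [b1, h10] at e0
    rw [b1] at e1
    linear_combination e1 - 2 * e0
  simp only [h01, h10, h11] at w00 w01 w10 w20 w21
  set ψ := M₁.m - M₂.m with hψ
  have hψ0 : ∀ x ∈ frontier D.Ω, ψ x = 0 := fun x hx => by simp [hψ, h.m_eq x hx]
  have k21 : ∀ ζ g, k ζ 2 1 (M₂.β * g) = κ 0 0 (Dv (e2 ζ) ψ * g) + I (Dv (e2 ζ) ψ * g) := fun ζ g => by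
    simp only [hψ, Dv_sub, sub_mul, map_sub]
    linear_combination 2 * w01 ζ g
  have k20 : ∀ ζ, ζ ≠ 0 → ∀ g,
      k ζ 2 0 (M₂.β * g) = κ 0 0 (Dv (e1 ζ) ψ * g) + I (Dv (e1 ζ) ψ * g) := fun ζ hζ g => by
    simp only [hψ, Dv_sub, sub_mul, map_sub]
    refine mul_left_cancel₀ hζ ?_
    linear_combination 2 * w10 ζ g
  set E := S.exp ((1 / 2 : ℂ) • ψ) with hE
  have g0 : ∀ g, κ 0 0 g + I g = I (E * g) := D.expo (null_th 1) ψ hψ0 _ (locκ 0 0) fun g => by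
    have e := k20 1 one_ne_zero g
    simp only [hψ, Dv_sub, sub_mul, map_sub] at e ⊢
    linear_combination w00 1 g - e / 2
  have g2 : ∀ g, κ 2 2 g + I g = I (E * g) := D.expo (null_th 1) ψ hψ0 _ (locκ 2 2) fun g => by
    have e0 := k20 1 one_ne_zero (M₂.bi * (M₁.β * g))
    have e1 := k21 1 (M₂.bi * (M₁.β * g))
    have e2' := h20 (M₂.bi * (Dv (th 1) ψ * g))
    rw [b2] at e0 e1 e2'
    have e3 : M₁.β * (M₂.bi * (Dv (th 1) ψ * g)) = Dv (R080.e1 1) ψ * (M₂.bi * (M₁.β * g)) +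
        Dv (e2 1) ψ * (M₂.bi * (M₁.β * g)) := by
      rw [Dv_th, one_smul]
      ring
    rw [e3, map_add, map_add] at e2'
    linear_combination w22 1 g + e0 / 2 + e1 / 2 - e2' / 2
  have hE0 : ∀ x, E x ≠ 0 := fun x => Complex.exp_ne_zero _
  refine ⟨fun x hx => ?_, fun ζ hζ x hx => ?_⟩
  · have := eq_zero_of_integral D.isOpen D.bdd (E * (M₁.β - M₂.β)) (fun g => by
      have e := h20 g
      rw [g0, g2] at e
      change I _ = 0
      rw [mul_sub, sub_mul, map_sub, mul_assoc, mul_assoc, e, sub_self]) x hx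
    simpa [hE0 x, sub_eq_zero] using this
  · have hY : ∀ (e : C3) (g : S),
        I (dotS e (Yv M₁ M₂) * Dv (th ζ) g) = -I (Dv (th ζ) (dotS e (Yv M₁ M₂)) * g) := fun e g => by
      have e0 : I (Dv (th ζ) (dotS e (Yv M₁ M₂) * g)) = 0 :=
        D.ibp0D _ (fun x hx => by simp [dotS, Yv, h.dm_eq x hx]) _
      rw [Dv_mul, map_add, mul_comm g] at e0
      linear_combination e0
    have y1 : ∀ g, k ζ 2 0 g = I (dotS (e1 ζ) (Yv M₁ M₂) * g) := fun g => by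
      have e := k20 ζ hζ (M₂.bi * g)
      rw [b2, g0] at e
      rw [e, dotS_Yv]
      congr 1
      ring
    have y2 : ∀ g, k ζ 2 1 g = I (dotS (e2 ζ) (Yv M₁ M₂) * g) := fun g => by
      have e := k21 ζ (M₂.bi * g)
      rw [b2, g0] at e
      rw [e, dotS_Yv]
      congr 1
      ring
    have yθ : dotS (th ζ) (Yv M₁ M₂) = dotS (e1 ζ) (Yv M₁ M₂) + ζ • dotS (e2 ζ) (Yv M₁ M₂) := by
      simp only [dotS_Yv, Dv_th ζ, mul_add, mul_smul_comm]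
    have fin : ∀ e : C3, (∀ g, I ((∑ a, ∑ b, (th ζ a * e b) • Nm M₁ M₂ a b) * g) = 0) →
        ∑ a, ∑ b, th ζ a * e b * Nm M₁ M₂ a b x = 0 := fun e he => by
      simpa using eq_zero_of_integral D.isOpen D.bdd _ he x hx
    constructor
    · refine fin _ fun g => ?_
      have w := w20 ζ g
      have a1 := g0 (M₂.Hq (th ζ) (e1 ζ) * g)
      have a2 := g2 (M₁.Hq (th ζ) (e1 ζ) * g)
      simp only [y1, y2, hY] at w
      simp only [Nm_pair, yθ, ← hψ, ← hE, add_mul, sub_mul, mul_sub, smul_mul_assoc, map_add, map_sub,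
        map_smul, smul_eq_mul, mul_assoc, mul_left_comm (Dv (th ζ) M₁.m)]
      linear_combination w - a1 + a2
    · refine fin _ fun g => ?_
      have w := w21 ζ g
      have a1 := g0 (M₂.Hq (th ζ) (e2 ζ) * g)
      have a2 := g2 (M₁.Hq (th ζ) (e2 ζ) * g)
      simp only [y1, y2, hY] at w
      simp only [Nm_pair, yθ, ← hψ, ← hE, add_mul, sub_mul, mul_sub, smul_mul_assoc, map_add, map_sub,
        map_smul, smul_eq_mul, mul_assoc, mul_left_comm (Dv (th ζ) M₁.m)]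
      linear_combination w - a1 + a2

end Crest.Agent.R080
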