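import Crest.Agent.R080.L2

/-!
Row 80: the Hessian equation.
-/

set_option autoImplicit false

open MeasureTheory Set Metric Filter Topology
open scoped ContDiff

noncomputable section

namespace Crest.Agent.R080

theorem cubic_zero {c₀ c₁ c₂ c₃ : ℂ}
    (h : ∀ ζ : ℂ, ζ ≠ 0 → c₀ + c₁ * ζ + c₂ * ζ ^ 2 + c₃ * ζ ^ 3 = 0) :
    c₀ = 0 ∧ c₁ = 0 ∧ c₂ = 0 ∧ c₃ = 0 := by
  have h1 := h 1 (by norm_num)
  have h2 := h (-1) (by norm_num)
  have h3 := h 2 (by norm_num)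
  have h4 := h (-2) (by norm_num)
  refine ⟨?_, ?_, ?_, ?_⟩
  · linear_combination (2 / 3 : ℂ) * (h1 + h2) - (1 / 6 : ℂ) * (h3 + h4)
  · linear_combination (2 / 3 : ℂ) * (h1 - h2) - (1 / 12 : ℂ) * (h3 - h4)
  · linear_combination (-1 / 6 : ℂ) * (h1 + h2) + (1 / 6 : ℂ) * (h3 + h4)
  · linear_combination (-1 / 6 : ℂ) * (h1 - h2) + (1 / 12 : ℂ) * (h3 - h4)

/-- use `ζ = 1, -1, I, -I, 2, …` (or compare coefficients of the two polynomials in `ζ`) -/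
theorem scalar_of_null (N : Fin 3 → Fin 3 → ℂ)
    (h : ∀ ζ : ℂ, ζ ≠ 0 → ∑ a, ∑ b, th ζ a * e1 ζ b * N a b = 0 ∧
      ∑ a, ∑ b, th ζ a * e2 ζ b * N a b = 0) (a b : Fin 3) :
    N a b = if a = b then N 0 0 else 0 := by
  have hI : Complex.I ^ 2 = -1 := Complex.I_sq
  obtain ⟨a0, a1, a2, a3⟩ := cubic_zero
    (c₀ := N 0 0 + Complex.I * N 0 1 + Complex.I * N 1 0 - N 1 1)
    (c₁ := N 0 2 + Complex.I * N 1 2 + 2 * N 2 0 + 2 * Complex.I * N 2 1)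
    (c₂ := -N 0 0 - Complex.I * N 0 1 + Complex.I * N 1 0 - N 1 1 + 2 * N 2 2)
    (c₃ := -N 0 2 + Complex.I * N 1 2) fun ζ hζ => by
      have := (h ζ hζ).1
      simp only [Fin.sum_univ_three, th, e1, Matrix.cons_val_zero, Matrix.cons_val_one,
        Matrix.cons_val_two, Matrix.head_cons, Matrix.tail_cons] at this
      linear_combination this - (1 + ζ ^ 2) * N 1 1 * hI
  obtain ⟨b0, b1, b2, b3⟩ := cubic_zero
    (c₀ := N 0 2 + Complex.I * N 1 2)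
    (c₁ := -N 0 0 + Complex.I * N 0 1 - Complex.I * N 1 0 - N 1 1 + 2 * N 2 2)
    (c₂ := -N 0 2 + Complex.I * N 1 2 - 2 * N 2 0 + 2 * Complex.I * N 2 1)
    (c₃ := N 0 0 - Complex.I * N 0 1 - Complex.I * N 1 0 - N 1 1) fun ζ hζ => by
      have := (h ζ hζ).2
      simp only [Fin.sum_univ_three, th, e2, Matrix.cons_val_zero, Matrix.cons_val_one,
        Matrix.cons_val_two, Matrix.head_cons, Matrix.tail_cons] at this
      linear_combination this - (1 + ζ ^ 2) * ζ * N 1 1 * hI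
  have h02 : N 0 2 = 0 := by linear_combination (1 / 2 : ℂ) * (b0 - a3)
  have h12 : N 1 2 = 0 := by linear_combination (-Complex.I / 2) * (b0 + a3) + N 1 2 * hI
  have h20 : N 2 0 = 0 := by linear_combination (1 / 4 : ℂ) * (a1 - b2) - (1 / 2 : ℂ) * h02
  have h21 : N 2 1 = 0 := by
    linear_combination (-Complex.I / 4) * (a1 + b2) + N 2 1 * hI + (1 / 2 : ℂ) * Complex.I ^ 2 * h12
  have h11 : N 1 1 = N 0 0 := by linear_combination (-1 / 2 : ℂ) * (a0 + b3)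
  have h22 : N 2 2 = N 0 0 := by
    linear_combination (1 / 4 : ℂ) * (a2 + b1) + (1 / 2 : ℂ) * h11
  have h01 : N 0 1 = 0 := by
    linear_combination (-Complex.I / 4) * (a0 - b3 - a2 + b1) + N 0 1 * hI
  have h10 : N 1 0 = 0 := by
    linear_combination (-Complex.I / 4) * (a0 - b3 + a2 - b1) + N 1 0 * hI
  fin_cases a <;> fin_cases b <;> simp [h02, h12, h20, h21, h11, h22, h01, h10]

/-- `exp (-ψ/2) * β₂ * w₂ * Nm a b = ∂a ∂b ψ - ∑ c, B a b c * ∂c ψ` (an identity in `S`; the coefficient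
of `∂a ∂b ψ` in `exp (-ψ/2) Nm a b` is `bi₂ - 1`, and `β₂ w₂ (bi₂ - 1) = 1`). -/
theorem exists_hess (M₁ M₂ : Med) : ∃ (E : S) (B : Fin 3 → Fin 3 → Fin 3 → S), ∀ a b,
    pd a (pd b (M₁.m - M₂.m)) = E * Nm M₁ M₂ a b + ∑ c, B a b c * pd c (M₁.m - M₂.m) := by
  set ψ := M₁.m - M₂.m with hψ
  set c : S := algebraMap ℂ S (1 / 2) with hc
  have hs : ∀ f : S, (1 / 2 : ℂ) • f = c * f := fun f => Algebra.smul_def _ f
  refine ⟨S.exp (-((1 / 2 : ℂ) • ψ)) * (M₂.β * M₂.w), fun a b k =>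
    -(M₂.β * M₂.w) * ((if k = b then
      c * pd a ψ * M₂.bi + pd a M₂.bi + pd a M₂.m - c * pd a M₁.m * M₂.bi else 0) +
      if k = a then pd b M₁.m - c * M₂.bi * pd b M₁.m else 0), fun a b => ?_⟩
  have he := S.exp_mul_exp_neg ((1 / 2 : ℂ) • ψ)
  have h1 := M₂.β_bi
  have h2 := M₂.β_w
  have h3 : ∀ i, pd i ψ = pd i M₁.m - pd i M₂.m := fun i => map_sub _ _ _
  have h4 : pd a (pd b ψ) = pd a (pd b M₁.m) - pd a (pd b M₂.m) := by rw [h3, map_sub]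
  have h5 : pd a (S.exp ((1 / 2 : ℂ) • ψ)) = S.exp ((1 / 2 : ℂ) • ψ) * (c * pd a ψ) := by
    rw [pd_exp, Derivation.map_smul, hs (pd a ψ)]
  simp only [mul_add, add_mul, mul_ite, ite_mul, mul_zero, zero_mul, Finset.sum_add_distrib,
    Finset.sum_ite_eq', Finset.mem_univ, if_true]
  simp only [Nm, Yv, Med.H, ← hψ, pd_mul, h5]
  rw [hs (_ + _)]
  generalize S.exp ((1 / 2 : ℂ) • ψ) = e at he ⊢
  generalize S.exp (-((1 / 2 : ℂ) • ψ)) = e' at he ⊢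
  rw [h4, h3 a, h3 b]
  generalize pd a (pd b M₁.m) = x₁
  generalize pd a (pd b M₂.m) = x₂
  generalize pd a M₁.m = p₁
  generalize pd a M₂.m = p₂
  generalize pd b M₁.m = q₁
  generalize pd b M₂.m = q₂
  generalize pd a M₂.bi = r
  linear_combination
    (-(M₂.β * M₂.w) * ((M₂.bi - 1) * (x₁ - x₂) + (c * (p₁ - p₂) * M₂.bi + r + p₂ - c * p₁ * M₂.bi) *
      (q₁ - q₂) + (q₁ - c * M₂.bi * q₁) * (p₁ - p₂))) * he - (x₁ - x₂) * M₂.w * h1 - (x₁ - x₂) * h2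

end Crest.Agent.R080
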