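import Mathlib

/-! Row 80: the algebra behind "frames give the gauge", in a differential ring. -/

set_option autoImplicit false

open Matrix

namespace Crest.Agent.R080.GaugeAux

variable {R : Type*} [CommRing R] {M : Type*} [AddCommGroup M]

/-- square matrices of size three -/
abbrev Mt (R : Type*) := Matrix (Fin 3) (Fin 3) R

section

variable (D : R →+ R) (hD : ∀ a b, D (a * b) = a * D b + b * D a)
include hD

theorem D_one : D 1 = 0 := by
  have := hD 1 1
  simp only [mul_one, one_mul] at this
  exact left_eq_add.1 this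

theorem map_mul' (X Y : Mt R) : (X * Y).map D = X.map D * Y + X * Y.map D := by
  ext i j
  simp only [Matrix.map_apply, Matrix.mul_apply, Matrix.add_apply, map_sum, hD, ← Finset.sum_add_distrib]
  exact Finset.sum_congr rfl fun k _ => by ring

theorem map_smul' (a : R) (X : Mt R) : (a • X).map D = D a • X + a • X.map D := by
  ext i j
  simp only [Matrix.map_apply, Matrix.smul_apply, Matrix.add_apply, smul_eq_mul, hD]
  ring

theorem D_det {A C : Mt R} (h : C.map D = -(A * C)) : D C.det = -(A.trace * C.det) := by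
  have h' : ∀ i k, D (C i k) = -(A i 0 * C 0 k + A i 1 * C 1 k + A i 2 * C 2 k) := fun i k => by
    have := congrFun (congrFun h i) k
    simpa only [Matrix.map_apply, Matrix.neg_apply, Matrix.mul_apply, Fin.sum_univ_three] using this
  simp only [det_fin_three, trace_fin_three, map_add, map_sub, hD, h']
  ring

theorem D_adj {A C : Mt R} (h : C.map D = -(A * C)) :
    C.adjugate.map D = C.adjugate * A - A.trace • C.adjugate := by
  have h' : ∀ i k, D (C i k) = -(A i 0 * C 0 k + A i 1 * C 1 k + A i 2 * C 2 k) := fun i k => by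
    have := congrFun (congrFun h i) k
    simpa only [Matrix.map_apply, Matrix.neg_apply, Matrix.mul_apply, Fin.sum_univ_three] using this
  ext i j
  simp only [Matrix.map_apply, Matrix.sub_apply, Matrix.mul_apply, Matrix.smul_apply,
    Fin.sum_univ_three, trace_fin_three, smul_eq_mul]
  rw [adjugate_fin_three]
  fin_cases i <;> fin_cases j <;> simp [hD, h'] <;> ring

end

theorem gauge_alg (D : R →+ R) (hD : ∀ a b, D (a * b) = a * D b + b * D a) (ℓ : R →+ M)
    (A₁ A₂ : Mt R) (hex : ∀ g : Mt R, ∃ s : Mt R, s.map D - A₂ᵀ * s = g)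
    (E E' : R) (hE : E * E' = 1) (hDE : D E = E * A₁.trace)
    {ι : Type*} [Fintype ι] (C : ι → Mt R) (hC : ∀ i, (C i).map D = -(A₁ * C i))
    (hgood : ∀ i, ∀ s : Mt R, s.map D - A₂ᵀ * s = 0 → ℓ (sᵀ * C i).trace = 0)
    (h : ι → R) (hh : ∑ i, (C i).det * h i = 1)
    (Ψ : Mt R) (hΨ : Ψ.map D - A₂ᵀ * Ψ = -(Ψ * A₁ᵀ)) : ℓ Ψ.trace = 0 := by
  let L : Mt R →+ Mt R :=
    { toFun := fun s => s.map D - A₂ᵀ * s
      map_zero' := by simp
      map_add' := fun s t => by
        rw [Matrix.map_add _ (map_add D), Matrix.mul_add]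
        abel }
  have hL : ∀ s, L s = s.map D - A₂ᵀ * s := fun _ => rfl
  have hLmul : ∀ s W : Mt R, L (s * W) = L s * W + s * W.map D := fun s W => by
    rw [hL, hL, map_mul' D hD, Matrix.sub_mul, Matrix.mul_assoc]
    abel
  have hLsmul : ∀ (a : R) (s : Mt R), L (a • s) = D a • s + a • L s := fun a s => by
    rw [hL, hL, map_smul' D hD, smul_sub, Matrix.mul_smul]
    abel
  choose sol hsol using hex
  have hwd : ∀ i (s : Mt R), ℓ ((sol (L s))ᵀ * C i).trace = ℓ (sᵀ * C i).trace := fun i s => by
    have := hgood i (sol (L s) - s) (by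
      rw [← hL, map_sub, hL (sol _), hsol, sub_self])
    rwa [transpose_sub, Matrix.sub_mul, trace_sub, map_sub, sub_eq_zero] at this
  let G : ι → Mt R →+ M := fun i =>
    { toFun := fun g => ℓ ((sol g)ᵀ * C i).trace
      map_zero' := by
        have := hwd i 0
        simpa using this
      map_add' := fun g g' => by
        have := hwd i (sol g + sol g')
        rw [map_add, hL (sol g), hL (sol g'), hsol, hsol] at this
        rw [this, transpose_add, Matrix.add_mul, trace_add, map_add] }
  have hG : ∀ i s, G i (L s) = ℓ (sᵀ * C i).trace := hwd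
  have hd : ∀ i, D (E * (C i).det) = 0 := fun i => by
    rw [hD, D_det D hD (hC i), hDE]
    ring
  have hW : ∀ i j, (E • ((C i).adjugate * C j)).map D = 0 := fun i j => by
    rw [map_smul' D hD, map_mul' D hD, D_adj D hD (hC i), hC j, hDE, Matrix.sub_mul,
      Matrix.mul_neg, Matrix.mul_assoc, Matrix.smul_mul, mul_smul, ← smul_add]
    rw [show ∀ x y : Mt R, x + (y - x + -y) = 0 from fun x y => by abel, smul_zero]
  have cramer : ∀ i j (Φ : Mt R), G i (((C j).det • Φ) * (C i).adjugateᵀ) =
      G j (((C i).det • Φ) * (C j).adjugateᵀ) := fun i j Φ => by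
    set t := sol (E' • (Φ * (C j).adjugateᵀ)) with ht
    have hLt : L t = E' • (Φ * (C j).adjugateᵀ) := hsol _
    have h1 : L (t * (E • ((C i).adjugate * C j))ᵀ) = ((C j).det • Φ) * (C i).adjugateᵀ := by
      rw [hLmul, transpose_map, hW, transpose_zero, Matrix.mul_zero, add_zero, hLt, transpose_smul,
        Matrix.smul_mul, Matrix.mul_smul, smul_smul, mul_comm E' E, hE, one_smul, Matrix.mul_assoc,
        ← transpose_mul, Matrix.mul_assoc, mul_adjugate, Matrix.mul_smul, Matrix.mul_one,
        transpose_smul, Matrix.mul_smul, Matrix.smul_mul]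
    have h2 : L ((E * (C i).det) • t) = ((C i).det • Φ) * (C j).adjugateᵀ := by
      rw [hLsmul, hd, zero_smul, zero_add, hLt, smul_smul, mul_right_comm, hE, one_mul,
        Matrix.smul_mul]
    rw [← h1, ← h2, hG, hG, transpose_mul, transpose_transpose, Matrix.mul_assoc, trace_mul_comm,
      Matrix.mul_assoc, Matrix.mul_smul, ← Matrix.mul_assoc (C i), mul_adjugate, Matrix.smul_mul,
      Matrix.one_mul, smul_smul, transpose_smul, Matrix.smul_mul, Matrix.mul_smul]
  let σ : ι → R := fun i => D (h i) - h i * A₁.trace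
  have hσ : ∑ i, (C i).det * σ i = 0 := by
    have := congrArg D hh
    rw [D_one D hD, map_sum] at this
    rw [← this]
    refine Finset.sum_congr rfl fun i _ => ?_
    rw [hD, D_det D hD (hC i)]
    simp only [σ]
    ring
  have h1 : ∀ i, L (h i • (Ψ * (C i).adjugateᵀ)) = (σ i • Ψ) * (C i).adjugateᵀ := fun i => by
    rw [hLsmul, hLmul, hL Ψ, hΨ, transpose_map, D_adj D hD (hC i), transpose_sub, transpose_mul,
      transpose_smul, Matrix.mul_sub, Matrix.neg_mul, Matrix.mul_assoc, Matrix.mul_smul,
      Matrix.smul_mul]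
    simp only [σ, sub_smul, mul_smul, smul_add, smul_neg, smul_sub]
    abel
  have h2 : ℓ Ψ.trace = ∑ i, G i ((σ i • Ψ) * (C i).adjugateᵀ) := by
    simp only [← h1, hG]
    rw [← map_sum]
    congr 1
    rw [← one_mul Ψ.trace, ← hh, Finset.sum_mul]
    refine Finset.sum_congr rfl fun i _ => ?_
    rw [transpose_smul, transpose_mul, transpose_transpose, Matrix.smul_mul, trace_smul,
      Matrix.mul_assoc, trace_mul_comm, Matrix.mul_assoc, mul_adjugate, Matrix.mul_smul,
      Matrix.mul_one, trace_smul, trace_transpose, smul_eq_mul, smul_eq_mul]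
    ring
  have h3 : ∀ i, G i ((σ i • Ψ) * (C i).adjugateᵀ) =
      ∑ j, G j (((C i).det • ((h j * σ i) • Ψ)) * (C j).adjugateᵀ) := fun i => by
    simp only [← cramer i]
    rw [← map_sum, ← Matrix.sum_mul]
    simp only [smul_smul, ← mul_assoc]
    rw [← Finset.sum_smul, ← Finset.sum_mul, hh, one_mul]
  rw [h2]
  simp only [h3]
  rw [Finset.sum_comm]
  refine Finset.sum_eq_zero fun j _ => ?_
  rw [← map_sum, ← Matrix.sum_mul]
  simp only [smul_smul]
  rw [← Finset.sum_smul]
  have : ∑ i, (C i).det * (h j * σ i) = 0 := by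
    have := congrArg (h j * ·) hσ
    simp only [Finset.mul_sum, mul_zero] at this
    rw [← this]
    exact Finset.sum_congr rfl fun i _ => by ring
  rw [this, zero_smul, Matrix.zero_mul, map_zero]

theorem exists_lift {S R N : Type*} [AddCommGroup S] [AddCommGroup R] [AddCommGroup N]
    (π : S →+ R) (hπ : Function.Surjective π) (g : S →+ N) (h : ∀ x, π x = 0 → g x = 0) :
    ∃ g' : R →+ N, ∀ x, g' (π x) = g x :=
  ⟨π.liftOfSurjective hπ ⟨g, h⟩, fun x => AddMonoidHom.liftOfRightInverse_comp_apply _ _ _ _ x⟩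

end Crest.Agent.R080.GaugeAux
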