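import Crest.Agent.R080.Geo
import Crest.Agent.R080.DBe
import Crest.Agent.R080.GaugeAux

/-!
Row 80: frames give the gauge.

Call `U : Fin 3 → S` good if `∫_Ω D (s · U) = 0` whenever `D s = A₂ᵀ s` on `Ω`. For good `U` let
`G U g = ∫_Ω D (s · U)` for any `s` with `D s - A₂ᵀ s = g` on `Ω` (`db_exists`; well defined, linear
in `g`, additive in `U`, depends only on `U`, `g` on `Ω`). If `D h = 0` on `Ω` then `h U` is good and
`G (h U) g = G U (h g)`. Compactness gives finitely many frames `C i` with `d i = det (C i)` having no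
common zero on the closure; `h i = conj (d i) / (∑ |d j|² + expNegInvGlue ρ)`, so `∑ d i * h i = 1` on
`Ω`. On `Ω`: `D (d i) = - tr A₁ * d i`, `D (adj C) = adj C * A₁ - tr A₁ • adj C`; with `D κ = tr A₁`
(`db_scalar`) the entries of `exp κ • adj (C j) * C i` and `exp κ * d j` are killed by `D`. Put
`Γ i Φ = ∑ k, G (column k of C i) (column k of Φ * (adj (C i))ᵀ)`. Cramer's rule gives
`Γ i (d j • Φ) = Γ j (d i • Φ)`. If `Tt Ψ = 0` on `Ω`, with `σ i = D (h i) - h i * tr A₁`:
`∫ D tr Ψ = ∑ i, Γ i (σ i • Ψ) = ∑ i j, Γ i (d j h j σ i • Ψ) = ∑ j, Γ j ((∑ i, d i σ i) h j • Ψ) = 0`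
because `∑ i, d i σ i = D (∑ d i h i) = 0` on `Ω`.
-/

set_option autoImplicit false

open MeasureTheory Set Metric Filter Topology
open scoped ContDiff

noncomputable section

namespace Crest.Agent.R080

/-- functions vanishing on `Ω` -/
def vanI (Ω : Set R3) : Ideal S where
  carrier := {f | ∀ x ∈ Ω, f x = 0}
  add_mem' := fun {f g} hf hg x hx => by rw [S.add_apply, hf x hx, hg x hx, add_zero]
  zero_mem' := fun _ _ => rfl
  smul_mem' := fun c f hf x hx => by rw [smul_eq_mul, S.mul_apply, hf x hx, mul_zero]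

theorem vanI_eq {Ω : Set R3} {f g : S} :
    Ideal.Quotient.mk (vanI Ω) f = Ideal.Quotient.mk (vanI Ω) g ↔ ∀ x ∈ Ω, f x = g x := by
  rw [Ideal.Quotient.eq]
  exact forall₂_congr fun x _ => sub_eq_zero

theorem exists_quot (Ω : Set R3) : ∃ (R : Type) (_ : CommRing R) (π : S →+* R),
    Function.Surjective π ∧ ∀ {f g : S}, π f = π g ↔ ∀ x ∈ Ω, f x = g x :=
  ⟨S ⧸ vanI Ω, inferInstance, Ideal.Quotient.mk (vanI Ω), Ideal.Quotient.mk_surjective, vanI_eq⟩

/-- `Dv θ` as an additive map -/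
def DvA (θ : C3) : S →+ S := AddMonoidHom.mk' (Dv θ) (Dv_add θ)

theorem Dom.exists_partition (D : Dom) {ι : Type} [Fintype ι] (d : ι → S)
    (hd : ∀ x ∈ closure D.Ω, ∃ i, d i x ≠ 0) :
    ∃ h : ι → S, ∀ x ∈ D.Ω, (∑ i, d i * h i) x = 1 := by
  let r : R3 → ℝ := fun x => ∑ i, Complex.normSq (d i x) + expNegInvGlue (D.ρ x)
  let N : S := ∑ i, d i * S.conj (d i) +
    S.ofR (fun x => expNegInvGlue (D.ρ x)) (expNegInvGlue.contDiff.comp D.sm)
  have hN : ∀ x, N x = r x := fun x => by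
    simp only [N, r, S.add_apply, S.sum_apply, S.mul_apply, S.conj_apply, S.ofR_apply,
      Complex.mul_conj]
    push_cast
    rfl
  have hr : ∀ x, 0 < r x := fun x => by
    have h1 : 0 ≤ ∑ i, Complex.normSq (d i x) := Finset.sum_nonneg fun i _ => Complex.normSq_nonneg _
    by_cases hx : x ∈ closure D.Ω
    · obtain ⟨i, hi⟩ := hd x hx
      have h2 : 0 < ∑ i, Complex.normSq (d i x) :=
        Finset.sum_pos' (fun i _ => Complex.normSq_nonneg _)
          ⟨i, Finset.mem_univ _, Complex.normSq_pos.2 hi⟩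
      exact add_pos_of_pos_of_nonneg h2 (expNegInvGlue.nonneg _)
    · rw [D.closure_eq, mem_setOf_eq, not_le] at hx
      exact add_pos_of_nonneg_of_pos h1 (expNegInvGlue.pos_of_pos hx)
  have hN0 : ∀ x, N x ≠ 0 := fun x => by
    rw [hN]
    exact_mod_cast (hr x).ne'
  let Ni : S := S.mk' (fun x => (N x)⁻¹) (N.sm.inv hN0)
  refine ⟨fun i => S.conj (d i) * Ni, fun x hx => ?_⟩
  have hx' : D.ρ x < 0 := by rwa [D.eq] at hx
  have h1 : N x = (∑ i, d i * S.conj (d i)) x := by
    simp only [N, S.add_apply, S.ofR_apply, expNegInvGlue.zero_of_nonpos hx'.le]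
    simp
  simp only [← mul_assoc]
  rw [← Finset.sum_mul, S.mul_apply, ← h1]
  exact mul_inv_cancel₀ (hN0 x)

open Matrix in
theorem Dom.gauge (D : Dom) {θ : C3} (hθ : Null θ) {A₁ A₂ : Matrix (Fin 3) (Fin 3) S}
    (h : Frames D.Ω θ A₁ A₂) : Gauge D.Ω θ A₁ A₂ := by
  classical
  intro Ψ hΨ
  choose C hC0 hC1 hC2 using h
  obtain ⟨t, ht⟩ := D.isCompact_closure.elim_nhds_subcover'
    (fun x hx => {y | (C x hx).det y ≠ 0})
    (fun x hx => (isOpen_ne_fun (C x hx).det.cont continuous_const).mem_nhds (hC0 x hx))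
  let Ct : t → Matrix (Fin 3) (Fin 3) S := fun i => C i.1.1 i.1.2
  obtain ⟨hh, hhh⟩ := D.exists_partition (fun i : t => (Ct i).det) fun x hx => by
    obtain ⟨i, hi, hx'⟩ := mem_iUnion₂.1 (ht hx)
    exact ⟨⟨i, hi⟩, hx'⟩
  obtain ⟨κ, hκ⟩ := db_scalar hθ D.bdd A₁.trace
  obtain ⟨R, _, π, hs, heq⟩ := exists_quot D.Ω
  have hDv0 : ∀ f : S, π f = 0 → ∀ x ∈ D.Ω, Dv θ f x = 0 := fun f hf x hx => by
    have h1 := Dv_congr D.isOpen (heq.1 (hf.trans (map_zero π).symm)) θ x hx
    rw [h1, show Dv θ 0 = 0 from map_zero (DvA θ)]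
    rfl
  obtain ⟨D', hD'⟩ := GaugeAux.exists_lift π.toAddMonoidHom hs (π.toAddMonoidHom.comp (DvA θ))
    fun f hf => (heq.2 (hDv0 f hf)).trans (map_zero π)
  obtain ⟨ℓ, hℓ⟩ := GaugeAux.exists_lift π.toAddMonoidHom hs
    ((intL D.Ω D.bdd).toAddMonoidHom.comp (DvA θ))
    fun f hf => setIntegral_eq_zero_of_forall_eq_zero (hDv0 f hf)
  replace hD' : ∀ f, D' (π f) = π (Dv θ f) := hD'
  replace hℓ : ∀ f, ℓ (π f) = ∫ x in D.Ω, Dv θ f x := hℓ
  have hsM : ∀ g : Matrix (Fin 3) (Fin 3) R, ∃ g' : Matrix (Fin 3) (Fin 3) S,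
      g'.map π = g := fun g => by
    choose g' hg' using fun i j => hs (g i j)
    exact ⟨Matrix.of g', by ext i j; exact hg' i j⟩
  have hL : ∀ (s : Matrix (Fin 3) (Fin 3) S) (i k : Fin 3),
      ((s.map π).map D' - (A₂.map π)ᵀ * s.map π) i k =
        π (Dv θ (s i k) - ∑ l, A₂ l i * s l k) := fun s i k => by
    simp only [Matrix.sub_apply, Matrix.map_apply, Matrix.mul_apply, Matrix.transpose_apply, hD',
      map_sub, map_sum, map_mul]
  have key := GaugeAux.gauge_alg D' (fun a b => by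
      obtain ⟨a, rfl⟩ := hs a
      obtain ⟨b, rfl⟩ := hs b
      rw [← map_mul, hD', hD', hD', Dv_mul, map_add, map_mul, map_mul])
    ℓ (A₁.map π) (A₂.map π) (fun g => by
      obtain ⟨g, rfl⟩ := hsM g
      choose s hs' using fun k => db_exists hθ D.bdd (fun p q => -A₂ q p) fun p => g p k
      refine ⟨(Matrix.of fun i k => s k i).map π, ?_⟩
      ext i k
      rw [hL, Matrix.map_apply]
      refine heq.2 fun x hx => ?_
      rw [← hs' k x hx i]
      simp only [Matrix.of_apply, S.add_apply, S.sum_apply, S.mul_apply, S.neg_apply,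
        neg_mul, Finset.sum_neg_distrib, sub_eq_add_neg])
    (π (S.exp κ)) (π (S.exp (-κ))) (by rw [← map_mul, S.exp_mul_exp_neg, map_one])
    (by
      rw [hD', Dv_exp, map_mul, ← AddMonoidHom.map_trace]
      congr 1
      exact heq.2 hκ)
    (fun i : t => (Ct i).map π)
    (fun i => by
      ext p k
      simp only [Matrix.map_apply, Matrix.neg_apply, Matrix.mul_apply, hD', ← map_mul, ← map_sum,
        ← map_neg]
      refine heq.2 fun x hx => ?_
      have := hC1 i.1.1 i.1.2 x hx p k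
      rw [S.add_apply] at this
      rw [S.neg_apply]
      exact eq_neg_of_add_eq_zero_left this)
    (fun i s hs' => by
      obtain ⟨s, rfl⟩ := hsM s
      have h1 : ((s.map π)ᵀ * (Ct i).map π).trace = ∑ k, π (∑ p, s p k * Ct i p k) := by
        simp only [Matrix.trace, Matrix.diag_apply, Matrix.mul_apply, Matrix.transpose_apply,
          Matrix.map_apply, map_sum, map_mul]
      rw [h1, map_sum]
      refine Finset.sum_eq_zero fun k _ => ?_
      rw [hℓ]
      refine hC2 i.1.1 i.1.2 k (fun p => s p k) fun x hx p => ?_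
      have h2 := (hL s p k).symm.trans (congrFun (congrFun hs' p) k)
      have h3 := heq.1 (h2.trans (map_zero π).symm) x hx
      rw [S.sub_apply] at h3
      exact sub_eq_zero.1 h3)
    (fun i => π (hh i))
    (by
      have h1 : ∀ i, ((Ct i).map π).det = π (Ct i).det := fun i => (RingHom.map_det π (Ct i)).symm
      simp only [h1, ← map_mul]
      rw [← map_sum, ← map_one π]
      exact heq.2 hhh)
    (Ψ.map π)
    (by
      ext i j
      rw [hL]
      simp only [Matrix.neg_apply, Matrix.mul_apply, Matrix.map_apply, Matrix.transpose_apply,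
        ← map_mul, ← map_sum, ← map_neg]
      refine heq.2 fun x hx => ?_
      have := hΨ x hx i j
      simp only [Tt, Matrix.of_apply, S.sub_apply, S.add_apply, S.neg_apply] at this ⊢
      linear_combination -this)
  rwa [← AddMonoidHom.map_trace, hℓ] at key

end Crest.Agent.R080
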