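import Crest.Agent.R080.DBe

/-!
Row 80: the gauge as a functional; bound and scaling.
-/

set_option autoImplicit false

open MeasureTheory Set Metric Filter Topology
open scoped ContDiff

noncomputable section

namespace Crest.Agent.R080

namespace HolA

/-- coefficients of the transport system `Tt Ψ = Φ` -/
def BB (A₁ A₂ : Matrix (Fin 3) (Fin 3) S) (p q : Fin 3 × Fin 3) : S :=
  (if q.1 = p.1 then A₁ p.2 q.2 else 0) - (if q.2 = p.2 then A₂ q.1 p.1 else 0)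

theorem BB_eq (θ : C3) (A₁ A₂ : Matrix (Fin 3) (Fin 3) S) (h : Fin 3 × Fin 3 → S) (i j : Fin 3) :
    Dv θ (h (i, j)) + ∑ q, BB A₁ A₂ (i, j) q * h q =
      -Tt θ A₁ A₂ (Matrix.of fun i j => h (i, j)) i j := by
  simp only [BB, Tt, Matrix.of_apply, sub_mul, ite_mul, zero_mul, Finset.sum_sub_distrib,
    Fintype.sum_prod_type, Finset.sum_ite_eq', Finset.mem_univ, if_true]
  rw [Finset.sum_comm]
  simp only [Finset.sum_ite_eq', Finset.mem_univ, if_true, mul_comm (h _)]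
  ring

/-- `Tt` as a linear map -/
def TtL (θ : C3) (A₁ A₂ : Matrix (Fin 3) (Fin 3) S) :
    Matrix (Fin 3) (Fin 3) S →ₗ[ℂ] Matrix (Fin 3) (Fin 3) S where
  toFun := Tt θ A₁ A₂
  map_add' Ψ Ψ' := by
    refine Matrix.ext fun i j => ?_
    simp only [Tt, Matrix.of_apply, Matrix.add_apply, Dv_add, mul_add, add_mul,
      Finset.sum_add_distrib]
    ring
  map_smul' c Ψ := by
    refine Matrix.ext fun i j => ?_
    simp only [Tt, Matrix.of_apply, Matrix.smul_apply, Dv_smul, mul_smul_comm, smul_mul_assoc,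
      RingHom.id_apply, smul_sub, smul_add, smul_neg, Finset.smul_sum]

theorem TtL_apply (θ : C3) (A₁ A₂ Ψ : Matrix (Fin 3) (Fin 3) S) :
    TtL θ A₁ A₂ Ψ = Tt θ A₁ A₂ Ψ := rfl

/-- the pairing with `A₁ - A₂` -/
def prL (A₁ A₂ : Matrix (Fin 3) (Fin 3) S) : Matrix (Fin 3) (Fin 3) S →ₗ[ℂ] S where
  toFun Ψ := ∑ i, ∑ j, (A₁ i j - A₂ i j) * Ψ i j
  map_add' Ψ Ψ' := by simp only [Matrix.add_apply, mul_add, Finset.sum_add_distrib]
  map_smul' c Ψ := by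
    simp only [Matrix.smul_apply, mul_smul_comm, RingHom.id_apply, Finset.smul_sum]

theorem prL_apply (A₁ A₂ Ψ : Matrix (Fin 3) (Fin 3) S) :
    prL A₁ A₂ Ψ = ∑ i, ∑ j, (A₁ i j - A₂ i j) * Ψ i j := rfl

theorem trace_Tt (θ : C3) (A₁ A₂ Ψ : Matrix (Fin 3) (Fin 3) S) :
    prL A₁ A₂ Ψ = -Dv θ Ψ.trace - ∑ i, Tt θ A₁ A₂ Ψ i i := by
  simp only [prL_apply, Tt, Matrix.of_apply, Matrix.trace, Matrix.diag, Fin.sum_univ_three, Dv_add]
  ring

end HolA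

/-- `Tt Ψ = Φ` is a transport system with index set `Fin 3 × Fin 3` -/
theorem exists_Tt {θ : C3} (hθ : Null θ) {Ω : Set R3} (hb : Bornology.IsBounded Ω)
    (A₁ A₂ Φ : Matrix (Fin 3) (Fin 3) S) :
    ∃ Ψ : Matrix (Fin 3) (Fin 3) S, ∀ x ∈ Ω, ∀ i j, Tt θ A₁ A₂ Ψ i j x = Φ i j x := by
  obtain ⟨h, hh⟩ := db_exists hθ hb (HolA.BB A₁ A₂) (fun p => -Φ p.1 p.2)
  refine ⟨Matrix.of fun i j => h (i, j), fun x hx i j => ?_⟩
  have := hh x hx (i, j)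
  rw [HolA.BB_eq] at this
  simpa using this

/-- `K Φ = ∫ ∑ (A₁ - A₂) Ψ` for any `Ψ` with `Tt Ψ = Φ` on `Ω`; if `Tt Ψ = 0` on `Ω` then
`D tr Ψ = - ∑ (A₁ - A₂) Ψ` on `Ω`, whose integral vanishes by `Gauge`. -/
theorem exists_isK {θ : C3} (hθ : Null θ) {Ω : Set R3} (ho : IsOpen Ω)
    (hb : Bornology.IsBounded Ω) {A₁ A₂ : Matrix (Fin 3) (Fin 3) S} (h : Gauge Ω θ A₁ A₂) :
    ∃ K, IsK Ω θ A₁ A₂ K := by
  let L : Matrix (Fin 3) (Fin 3) S →ₗ[ℂ] ℂ := intL Ω hb ∘ₗ HolA.prL A₁ A₂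
  have h0 : ∀ Ψ, (∀ x ∈ Ω, ∀ i j, HolA.TtL θ A₁ A₂ Ψ i j x = 0) → L Ψ = 0 := by
    intro Ψ hΨ
    have h1 := h Ψ hΨ
    change ∫ x in Ω, HolA.prL A₁ A₂ Ψ x = 0
    rw [← neg_eq_zero, ← integral_neg, ← h1]
    refine setIntegral_congr_fun ho.measurableSet fun x hx => ?_
    have h2 : ∀ i, Tt θ A₁ A₂ Ψ i i x = 0 := fun i => hΨ x hx i i
    simp [HolA.trace_Tt θ, h2]
  have h1 : ∀ Ψ Ψ', (∀ x ∈ Ω, ∀ i j, HolA.TtL θ A₁ A₂ Ψ i j x = HolA.TtL θ A₁ A₂ Ψ' i j x) →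
      L Ψ = L Ψ' := by
    intro Ψ Ψ' hΨ
    rw [← sub_eq_zero, ← map_sub]
    refine h0 _ fun x hx i j => ?_
    rw [map_sub, Matrix.sub_apply, S.sub_apply, hΨ x hx, sub_self]
  choose sol hsol using fun Φ => exists_Tt hθ hb A₁ A₂ Φ
  have hsol' : ∀ Φ, ∀ x ∈ Ω, ∀ i j, HolA.TtL θ A₁ A₂ (sol Φ) i j x = Φ i j x := hsol
  refine ⟨{ toFun := fun Φ => L (sol Φ), map_add' := fun Φ Φ' => ?_, map_smul' := fun c Φ => ?_ },
    fun Φ hΦ => h0 _ fun x hx i j => ?_, fun Ψ => h1 _ Ψ fun x hx i j => hsol' _ x hx i j⟩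
  · rw [← map_add]
    refine h1 _ _ fun x hx i j => ?_
    simp only [map_add, Matrix.add_apply, S.add_apply, hsol' _ x hx]
  · rw [← map_smul]
    refine h1 _ _ fun x hx i j => ?_
    simp only [map_smul, Matrix.smul_apply, S.smul_apply, hsol' _ x hx, RingHom.id_apply]
  · rw [hsol' _ x hx, hΦ x hx]

/-- `db_solve` for the index set `Fin 3 × Fin 3` -/
theorem isK_bound {Ω : Set R3} (ho : IsOpen Ω) {R : ℝ} (hR : 0 < R) (hΩ : Ω ⊆ ball 0 R) (M : ℝ) :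
    ∃ C : ℝ, ∀ θ : C3, Null θ → ∀ (A₁ A₂ : Matrix (Fin 3) (Fin 3) S)
      (K : Matrix (Fin 3) (Fin 3) S →ₗ[ℂ] ℂ), IsK Ω θ A₁ A₂ K →
      (∀ x ∈ ball (0 : R3) (2 * R), ∀ i j, ‖A₁ i j x‖ ≤ M * ‖θ‖ ∧ ‖A₂ i j x‖ ≤ M * ‖θ‖) →
      ∀ (Φ : Matrix (Fin 3) (Fin 3) S) (G : ℝ),
        (∀ x ∈ ball (0 : R3) (2 * R), ∀ i j, ‖Φ i j x‖ ≤ G) → ‖K Φ‖ ≤ C * G := by
  obtain ⟨C, hC, H⟩ := db_solve (Fin 3 × Fin 3) hR (2 * M)
  refine ⟨18 * M * C * volume.real Ω, fun θ hθ A₁ A₂ K hK hA Φ G hΦ => ?_⟩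
  have hθ0 : 0 < ‖θ‖ := norm_pos_iff.2 hθ.2
  have hM : 0 ≤ M * ‖θ‖ :=
    (norm_nonneg _).trans (hA 0 (mem_ball_self (by linarith)) 0 0).1
  obtain ⟨h, hh, hb⟩ := H θ hθ (HolA.BB A₁ A₂) (fun p => -Φ p.1 p.2) G
    (fun x hx p q => by
      have h1 := (hA x hx p.2 q.2).1
      have h2 := (hA x hx q.1 p.1).2
      rw [HolA.BB, S.sub_apply]
      refine (norm_sub_le _ _).trans ?_
      split_ifs <;> (try simp only [S.zero_apply, norm_zero]) <;> linarith)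
    (fun x hx p => by simpa using hΦ x hx p.1 p.2)
  have e : K Φ = K (Tt θ A₁ A₂ (Matrix.of fun i j => h (i, j))) := by
    rw [← sub_eq_zero, ← map_sub]
    refine hK.1 _ fun x hx i j => ?_
    have := hh x (hΩ hx) (i, j)
    rw [HolA.BB_eq] at this
    rw [Matrix.sub_apply, S.sub_apply, sub_eq_zero]
    simpa using this.symm
  rw [e, hK.2]
  have hfin : volume Ω < ⊤ := (isBounded_ball.subset hΩ).measure_lt_top
  refine (norm_setIntegral_le_of_norm_le_const (C := 18 * M * C * G) hfin fun x hx => ?_).trans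
    (le_of_eq (by ring))
  have hx2 : x ∈ ball (0 : R3) (2 * R) := ball_subset_ball (by linarith) (hΩ hx)
  have key : ∀ i j, ‖(A₁ i j x - A₂ i j x) * h (i, j) x‖ ≤ 2 * M * C * G := by
    intro i j
    rw [norm_mul]
    have h1 : ‖A₁ i j x - A₂ i j x‖ ≤ 2 * (M * ‖θ‖) :=
      (norm_sub_le _ _).trans (by linarith [(hA x hx2 i j).1, (hA x hx2 i j).2])
    refine (mul_le_mul h1 (hb x (hΩ hx) (i, j)) (norm_nonneg _) (by positivity)).trans
      (le_of_eq ?_)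
    field_simp
  simp only [S.sum_apply, S.mul_apply, S.sub_apply, Matrix.of_apply]
  refine (norm_sum_le _ _).trans ((Finset.sum_le_sum fun i _ => (norm_sum_le _ _).trans
    (Finset.sum_le_sum fun j _ => key i j)).trans (le_of_eq ?_))
  simp only [Finset.sum_const, Finset.card_univ, Fintype.card_fin, nsmul_eq_mul]
  push_cast
  ring

/-- conjugation by a constant diagonal matrix -/
def scl (l : Fin 3 → ℂ) : Matrix (Fin 3) (Fin 3) S →ₗ[ℂ] Matrix (Fin 3) (Fin 3) S where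
  toFun A := Matrix.of fun i j => (l i / l j) • A i j
  map_add' A B := by ext i j x; simp [mul_add]
  map_smul' c A := by ext i j x; simp [mul_left_comm]

theorem scl_apply (l : Fin 3 → ℂ) (A : Matrix (Fin 3) (Fin 3) S) (i j : Fin 3) :
    scl l A i j = (l i / l j) • A i j := rfl

theorem IsK.scale {Ω : Set R3} {θ : C3} {A₁ A₂ : Matrix (Fin 3) (Fin 3) S}
    {K : Matrix (Fin 3) (Fin 3) S →ₗ[ℂ] ℂ} (h : IsK Ω θ A₁ A₂ K) {l : Fin 3 → ℂ}
    (hl : ∀ i, l i ≠ 0) : IsK Ω θ (scl l A₁) (scl l A₂) (K ∘ₗ scl l) := by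
  refine ⟨fun Φ hΦ => h.1 _ fun x hx i j => by simp [scl_apply, hΦ x hx], fun Ψ => ?_⟩
  have e : scl l (Tt θ (scl l A₁) (scl l A₂) Ψ) = Tt θ A₁ A₂ (scl l Ψ) := by
    ext i j x
    have h0 := hl 0
    have h1 := hl 1
    have h2 := hl 2
    have hi := hl i
    have hj := hl j
    simp only [scl_apply, Tt, Matrix.of_apply, Dv_smul, Fin.sum_univ_three, S.smul_apply,
      S.sub_apply, S.add_apply, S.neg_apply, S.mul_apply]
    field_simp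
  rw [LinearMap.comp_apply, e, h.2]
  congr 1
  funext x
  simp only [scl_apply, S.sum_apply, S.mul_apply, S.sub_apply, S.smul_apply]
  refine Finset.sum_congr rfl fun i _ => Finset.sum_congr rfl fun j _ => ?_
  ring

end Crest.Agent.R080
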