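import Crest.Agent.R080.HolA

/-!
Row 80: the gauge is holomorphic on the null conic and, by Liouville's theorem, rigid.
-/

set_option autoImplicit false

open MeasureTheory Set Metric Filter Topology
open scoped ContDiff

noncomputable section

namespace Crest.Agent.R080

/-- polynomial families of degree at most `n` -/
inductive HolPF {E : Type} [AddCommGroup E] [Module ℂ E] : ℕ → (ℂ → E) → Prop
  | const (c : E) : HolPF 0 fun _ => c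
  | add {n : ℕ} {F G : ℂ → E} : HolPF n F → HolPF n G → HolPF n fun ζ => F ζ + G ζ
  | smul {n : ℕ} {F : ℂ → E} : HolPF n F → HolPF (n + 1) fun ζ => ζ • F ζ
  | succ {n : ℕ} {F : ℂ → E} : HolPF n F → HolPF (n + 1) F

namespace HolPF
variable {E E' : Type} [AddCommGroup E] [Module ℂ E] [AddCommGroup E'] [Module ℂ E'] {n m : ℕ}

theorem congr {F G : ℂ → E} (h : HolPF n F) (e : ∀ ζ, G ζ = F ζ) : HolPF n G := by
  rw [funext e]; exact h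

theorem mono {F : ℂ → E} (h : HolPF n F) (hnm : n ≤ m) : HolPF m F := by
  induction hnm with
  | refl => exact h
  | step _ ih => exact ih.succ

theorem const' (n : ℕ) (c : E) : HolPF n fun _ => c := (const c).mono (Nat.zero_le n)

theorem map {F : ℂ → E} (h : HolPF n F) (L : E →ₗ[ℂ] E') : HolPF n fun ζ => L (F ζ) := by
  induction h with
  | const c => exact const _
  | add _ _ h1 h2 => exact (h1.add h2).congr fun ζ => map_add _ _ _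
  | smul _ h1 => exact h1.smul.congr fun ζ => map_smul _ _ _
  | succ _ h1 => exact h1.succ

theorem bilin {E'' : Type} [AddCommGroup E''] [Module ℂ E''] (B : E →ₗ[ℂ] E' →ₗ[ℂ] E'')
    {F : ℂ → E} {G : ℂ → E'} (h : HolPF n F) (h' : HolPF m G) :
    HolPF (m + n) fun ζ => B (F ζ) (G ζ) := by
  induction h with
  | const c => exact h'.map (B c)
  | add _ _ h1 h2 => exact (h1.add h2).congr fun ζ => by rw [map_add, LinearMap.add_apply]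
  | smul _ h1 => exact h1.smul.congr fun ζ => by rw [map_smul, LinearMap.smul_apply]
  | succ _ h1 => exact h1.succ

theorem fsmul {φ : ℂ → ℂ} {G : ℂ → E} (h : HolPF n φ) (h' : HolPF m G) :
    HolPF (m + n) fun ζ => φ ζ • G ζ := bilin (LinearMap.lsmul ℂ E) h h'

theorem csmul {G : ℂ → E} (h : HolPF n G) (c : ℂ) : HolPF n fun ζ => c • G ζ :=
  h.map (LinearMap.lsmul ℂ E c)

theorem neg {G : ℂ → E} (h : HolPF n G) : HolPF n fun ζ => -G ζ :=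
  (h.csmul (-1)).congr fun _ => (neg_one_smul ℂ _).symm

theorem sub {F G : ℂ → E} (h : HolPF n F) (h' : HolPF n G) : HolPF n fun ζ => F ζ - G ζ :=
  (h.add h'.neg).congr fun _ => sub_eq_add_neg _ _

theorem sum {ι : Type} (s : Finset ι) {F : ι → ℂ → E} (h : ∀ i, HolPF n (F i)) :
    HolPF n fun ζ => ∑ i ∈ s, F i ζ := by
  classical
  induction s using Finset.induction_on with
  | empty => exact (const' n 0).congr fun _ => Finset.sum_empty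
  | insert a s ha ih => exact ((h a).add ih).congr fun _ => Finset.sum_insert ha

theorem mul {R : Type} [CommRing R] [Algebra ℂ R] {F G : ℂ → R} (h : HolPF n F)
    (h' : HolPF m G) : HolPF (m + n) fun ζ => F ζ * G ζ := bilin (LinearMap.mul ℂ R) h h'

theorem matrix {F : ℂ → Matrix (Fin 3) (Fin 3) S} (h : ∀ i j, HolPF n fun ζ => F ζ i j) :
    HolPF n F :=
  (sum Finset.univ fun i => sum Finset.univ fun j =>
    (h i j).map (Matrix.singleLinearMap ℂ i j)).congr fun ζ => Matrix.matrix_eq_sum_single (F ζ)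

theorem entry {F : ℂ → Matrix (Fin 3) (Fin 3) S} (h : HolPF n F) (i j : Fin 3) :
    HolPF n fun ζ => F ζ i j := h.map (Matrix.entryLinearMap ℂ S i j)

theorem differentiable {φ : ℂ → ℂ} (h : HolPF n φ) : Differentiable ℂ φ := by
  induction h with
  | const c => exact differentiable_const c
  | add _ _ h1 h2 => exact h1.add h2
  | smul _ h1 => exact differentiable_id.smul h1
  | succ _ h1 => exact h1

theorem div {F : ℂ → E} (h : HolPF n F) (ζ₀ : ℂ) :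
    ∃ G : ℂ → E, HolPF n G ∧ ∀ ζ, F ζ = F ζ₀ + (ζ - ζ₀) • G ζ := by
  induction h with
  | const c => exact ⟨fun _ => 0, const 0, fun ζ => by simp⟩
  | add _ _ h1 h2 =>
    obtain ⟨G₁, h3, h4⟩ := h1
    obtain ⟨G₂, h5, h6⟩ := h2
    refine ⟨fun ζ => G₁ ζ + G₂ ζ, h3.add h5, fun ζ => ?_⟩
    beta_reduce
    rw [h4 ζ, h6 ζ, smul_add]
    abel
  | @smul n F _ h1 =>
    obtain ⟨G, h3, h4⟩ := h1
    refine ⟨fun ζ => F ζ₀ + ζ • G ζ, (const' _ _).add h3.smul, fun ζ => ?_⟩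
    beta_reduce
    rw [h4 ζ]
    module
  | succ _ h1 =>
    obtain ⟨G, h3, h4⟩ := h1
    exact ⟨G, h3.succ, h4⟩

theorem bound {F : ℂ → S} (h : HolPF n F) {U : Set R3} (hU : Bornology.IsBounded U) :
    ∃ C : ℝ, 0 ≤ C ∧ ∀ ζ, ∀ x ∈ U, ‖F ζ x‖ ≤ C * (1 + ‖ζ‖) ^ n := by
  induction h with
  | const c =>
    obtain ⟨C, h0, hC⟩ := S.bdd_on hU c
    exact ⟨C, h0, fun ζ x hx => by simpa using hC x hx⟩
  | add _ _ h1 h2 =>
    obtain ⟨C, h0, hC⟩ := h1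
    obtain ⟨D, h0', hD⟩ := h2
    refine ⟨C + D, add_nonneg h0 h0', fun ζ x hx => ?_⟩
    rw [S.add_apply, add_mul]
    exact (norm_add_le _ _).trans (add_le_add (hC ζ x hx) (hD ζ x hx))
  | smul _ h1 =>
    obtain ⟨C, h0, hC⟩ := h1
    refine ⟨C, h0, fun ζ x hx => ?_⟩
    rw [S.smul_apply, norm_mul, pow_succ, ← mul_assoc, mul_comm]
    exact mul_le_mul (hC ζ x hx) (by linarith) (norm_nonneg _) (by positivity)
  | succ _ h1 =>
    obtain ⟨C, h0, hC⟩ := h1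
    refine ⟨C, h0, fun ζ x hx => (hC ζ x hx).trans ?_⟩
    exact mul_le_mul_of_nonneg_left
      (pow_le_pow_right₀ (by linarith [norm_nonneg ζ]) (Nat.le_succ _)) h0

theorem bound_matrix {F : ℂ → Matrix (Fin 3) (Fin 3) S} {d : Fin 3 → Fin 3 → ℕ}
    (h : ∀ i j, HolPF (d i j) fun ζ => F ζ i j) {U : Set R3} (hU : Bornology.IsBounded U) :
    ∃ C : ℝ, 0 ≤ C ∧ ∀ ζ, ∀ x ∈ U, ∀ i j, ‖F ζ i j x‖ ≤ C * (1 + ‖ζ‖) ^ d i j := by
  choose C h0 hC using fun p : Fin 3 × Fin 3 => (h p.1 p.2).bound hU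
  refine ⟨∑ p, C p, Finset.sum_nonneg fun p _ => h0 p, fun ζ x hx i j => ?_⟩
  exact (hC (i, j) ζ x hx).trans (mul_le_mul_of_nonneg_right
    (Finset.single_le_sum (fun p _ => h0 p) (Finset.mem_univ _)) (by positivity))

theorem continuousAt {K : ℂ → E →ₗ[ℂ] ℂ} {ζ₀ : ℂ} (hK : ∀ e, ContinuousAt (fun ζ => K ζ e) ζ₀)
    {F : ℂ → E} (h : HolPF n F) : ContinuousAt (fun ζ => K ζ (F ζ)) ζ₀ := by
  induction h with
  | const c => exact hK c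
  | add _ _ h1 h2 => simp only [map_add]; exact h1.add h2
  | smul _ h1 => simp only [map_smul]; exact continuousAt_id.smul h1
  | succ _ h1 => exact h1

theorem id : HolPF 1 fun ζ : ℂ => ζ := (const (1 : ℂ)).smul.congr fun ζ => by simp

theorem lin (a b : ℂ) : HolPF 1 fun ζ : ℂ => a + b * ζ := (const' 1 a).add (id.csmul b)

theorem quad (a b c : ℂ) : HolPF 2 fun ζ : ℂ => a + b * ζ + c * ζ ^ 2 :=
  ((lin a b).succ.add ((id.mul id).csmul c)).congr fun ζ => by simp [pow_two]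

theorem th (i : Fin 3) : HolPF 2 fun ζ => th ζ i := by
  fin_cases i
  · exact (quad 1 0 (-1)).congr fun ζ => by simp [R080.th]; ring
  · exact (quad Complex.I 0 Complex.I).congr fun ζ => by simp [R080.th]; ring
  · exact (quad 0 2 0).congr fun ζ => by simp [R080.th]

theorem e1 (i : Fin 3) : HolPF 1 fun ζ => e1 ζ i := by
  fin_cases i
  · exact (lin 1 0).congr fun ζ => by simp [R080.e1]
  · exact (lin Complex.I 0).congr fun ζ => by simp [R080.e1]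
  · exact (lin 0 1).congr fun ζ => by simp [R080.e1]

theorem e2 (i : Fin 3) : HolPF 1 fun ζ => e2 ζ i := by
  fin_cases i
  · exact (lin 0 (-1)).congr fun ζ => by simp [R080.e2]
  · exact (lin 0 Complex.I).congr fun ζ => by simp [R080.e2]
  · exact (lin 1 0).congr fun ζ => by simp [R080.e2]

theorem Dv {θ : ℂ → C3} (h : ∀ i, HolPF n fun ζ => θ ζ i) (f : S) :
    HolPF n fun ζ => Dv (θ ζ) f :=
  (sum Finset.univ fun i => ((h i).fsmul (const (pd i f))).mono (by omega)).congr fun _ => rfl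

theorem Hq (M : Med) {u v : ℂ → C3} (h : ∀ i, HolPF n fun ζ => u ζ i)
    (h' : ∀ i, HolPF m fun ζ => v ζ i) : HolPF (m + n) fun ζ => M.Hq (u ζ) (v ζ) :=
  (sum Finset.univ fun i => sum Finset.univ fun j =>
    (((h i).mul (h' j)).fsmul (const (M.H i j))).mono (by omega)).congr fun _ => rfl

/-- degrees of the entries of the transport matrix -/
def dg : Fin 3 → Fin 3 → ℕ := ![![2, 2, 1], ![2, 2, 1], ![3, 3, 2]]

theorem A (M : Med) (i j : Fin 3) : HolPF (dg i j) fun ζ => M.A ζ i j := by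
  have half : HolPF 1 fun ζ : ℂ => ζ / 2 := (lin 0 (1 / 2)).congr fun ζ => by ring
  fin_cases i <;> fin_cases j
  · exact ((Dv e1 M.m).succ.add (Dv th M.m)).csmul (1 / 2)
  · exact ((Dv e2 M.m).csmul (1 / 2)).succ
  · exact const' _ _
  · exact half.fsmul (Dv e1 M.m)
  · exact ((Dv e2 M.m).smul.add (Dv th M.m)).csmul (1 / 2)
  · exact half.fsmul (const M.β)
  · exact Hq M th e1
  · exact Hq M th e2
  · exact const' _ _

theorem dg_le (i j : Fin 3) : dg i j ≤ 3 := by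
  fin_cases i <;> fin_cases j <;> simp [dg]

theorem A3 (M : Med) (i j : Fin 3) : HolPF 3 fun ζ => M.A ζ i j := (A M i j).mono (dg_le i j)

theorem Tt (M₁ M₂ : Med) (Ψ : Matrix (Fin 3) (Fin 3) S) :
    HolPF 3 fun ζ => Tt (R080.th ζ) (M₁.A ζ) (M₂.A ζ) Ψ :=
  matrix fun i j =>
    ((Dv th (Ψ i j)).neg.succ.add (sum Finset.univ fun l => (A3 M₂ l i).mul (const (Ψ l j)))).sub
      (sum Finset.univ fun l => (const (Ψ i l)).mul (A3 M₁ j l))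

end HolPF

theorem holB_one_le (ζ : ℂ) : 1 ≤ ‖th ζ‖ := by
  have h0 : ‖1 - ζ ^ 2‖ ≤ ‖th ζ‖ := norm_le_pi_norm (th ζ) 0
  have h1 : ‖Complex.I * (1 + ζ ^ 2)‖ ≤ ‖th ζ‖ := norm_le_pi_norm (th ζ) 1
  rw [norm_mul, Complex.norm_I, one_mul] at h1
  have h2 := norm_add_le (1 - ζ ^ 2) (1 + ζ ^ 2)
  rw [show (1 - ζ ^ 2) + (1 + ζ ^ 2) = 2 by ring, Complex.norm_two] at h2
  linarith

theorem holB_sq_le (ζ : ℂ) : ‖ζ‖ ^ 2 ≤ ‖th ζ‖ := by
  have h0 : ‖1 - ζ ^ 2‖ ≤ ‖th ζ‖ := norm_le_pi_norm (th ζ) 0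
  have h1 : ‖Complex.I * (1 + ζ ^ 2)‖ ≤ ‖th ζ‖ := norm_le_pi_norm (th ζ) 1
  rw [norm_mul, Complex.norm_I, one_mul] at h1
  have h2 := norm_sub_le (1 + ζ ^ 2) (1 - ζ ^ 2)
  rw [show (1 + ζ ^ 2) - (1 - ζ ^ 2) = 2 * ζ ^ 2 by ring, norm_mul, Complex.norm_two,
    norm_pow] at h2
  linarith

theorem holB_ball {Ω : Set R3} (hb : Bornology.IsBounded Ω) : ∃ R : ℝ, 0 < R ∧ Ω ⊆ ball 0 R :=
  hb.subset_ball_lt 0 0

/-- local boundedness -/
theorem holB_local {Ω : Set R3} (ho : IsOpen Ω) (hb : Bornology.IsBounded Ω) (M₁ M₂ : Med)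
    (K : ℂ → Matrix (Fin 3) (Fin 3) S →ₗ[ℂ] ℂ)
    (hK : ∀ ζ, IsK Ω (th ζ) (M₁.A ζ) (M₂.A ζ) (K ζ)) {n : ℕ} {G : ℂ → Matrix (Fin 3) (Fin 3) S}
    (hG : HolPF n G) {r : ℝ} (hr : 0 ≤ r) : ∃ C : ℝ, ∀ ζ, ‖ζ‖ ≤ r → ‖K ζ (G ζ)‖ ≤ C := by
  obtain ⟨R, hR, hΩ⟩ := holB_ball hb
  obtain ⟨C₁, h1, hC₁⟩ := HolPF.bound_matrix (d := fun _ _ => 3) (HolPF.A3 M₁)
    (isBounded_ball (x := (0 : R3)) (r := 2 * R))
  obtain ⟨C₂, h2, hC₂⟩ := HolPF.bound_matrix (d := fun _ _ => 3) (HolPF.A3 M₂)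
    (isBounded_ball (x := (0 : R3)) (r := 2 * R))
  obtain ⟨C₃, h3, hC₃⟩ := HolPF.bound_matrix (d := fun _ _ => n) hG.entry
    (isBounded_ball (x := (0 : R3)) (r := 2 * R))
  obtain ⟨C, hC⟩ := isK_bound ho hR hΩ ((C₁ + C₂) * (1 + r) ^ 3)
  refine ⟨C * (C₃ * (1 + r) ^ n), fun ζ hζ => ?_⟩
  have hp : ∀ k : ℕ, (1 + ‖ζ‖) ^ k ≤ (1 + r) ^ k := fun k =>
    pow_le_pow_left₀ (by positivity) (by linarith) k
  have hM : (C₁ + C₂) * (1 + r) ^ 3 ≤ (C₁ + C₂) * (1 + r) ^ 3 * ‖th ζ‖ :=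
    le_mul_of_one_le_right (by positivity) (holB_one_le ζ)
  refine hC _ (null_th ζ) _ _ _ (hK ζ) (fun x hx i j => ⟨?_, ?_⟩) _ _ fun x hx i j => ?_
  · exact ((hC₁ ζ x hx i j).trans (mul_le_mul (by linarith) (hp 3) (by positivity)
      (by positivity))).trans hM
  · exact ((hC₂ ζ x hx i j).trans (mul_le_mul (by linarith) (hp 3) (by positivity)
      (by positivity))).trans hM
  · exact (hC₃ ζ x hx i j).trans (mul_le_mul_of_nonneg_left (hp n) h3)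

theorem holB_expand {Ω : Set R3} (hb : Bornology.IsBounded Ω) (M₁ M₂ : Med)
    (K : ℂ → Matrix (Fin 3) (Fin 3) S →ₗ[ℂ] ℂ)
    (hK : ∀ ζ, IsK Ω (th ζ) (M₁.A ζ) (M₂.A ζ) (K ζ)) (ζ₀ : ℂ) (Φ : Matrix (Fin 3) (Fin 3) S) :
    ∃ (p : ℂ → ℂ) (G : ℂ → Matrix (Fin 3) (Fin 3) S), Differentiable ℂ p ∧ HolPF 3 G ∧
      ∀ ζ, K ζ Φ = p ζ - (ζ - ζ₀) * K ζ (G ζ) := by
  obtain ⟨Ψ, hΨ⟩ := exists_Tt (null_th ζ₀) hb (M₁.A ζ₀) (M₂.A ζ₀) Φ
  obtain ⟨G, hG, hT⟩ := (HolPF.Tt M₁ M₂ Ψ).div ζ₀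
  have hp : HolPF 3 fun ζ => intL Ω hb (∑ i, ∑ j, (M₁.A ζ i j - M₂.A ζ i j) * Ψ i j) :=
    (HolPF.sum Finset.univ fun i => HolPF.sum Finset.univ fun j =>
      ((HolPF.A3 M₁ i j).sub (HolPF.A3 M₂ i j)).mul (HolPF.const (Ψ i j))).map _
  refine ⟨_, G, hp.differentiable, hG, fun ζ => ?_⟩
  have h1 := (hK ζ).2 Ψ
  have h2 := (hK ζ).1 (Tt (th ζ₀) (M₁.A ζ₀) (M₂.A ζ₀) Ψ - Φ) fun x hx i j => by
    rw [Matrix.sub_apply, S.sub_apply, hΨ x hx, sub_self]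
  rw [hT ζ, map_add, map_smul, smul_eq_mul] at h1
  rw [map_sub] at h2
  rw [intL_apply, ← h1]
  linear_combination -h2

theorem holB_single_bound {U : Set R3} (hU : Bornology.IsBounded U) (i j : Fin 3) (g : S) :
    ∃ G : ℝ, ∀ x ∈ U, ∀ a b, ‖Matrix.single i j g a b x‖ ≤ G := by
  obtain ⟨G, h0, hG⟩ := S.bdd_on hU g
  refine ⟨G, fun x hx a b => ?_⟩
  rw [Matrix.single_apply]
  split_ifs
  · exact hG x hx
  · simpa using h0

theorem holB_ratio {ζ : ℂ} (hζ : 2 ≤ ‖ζ‖) (i j : Fin 3) :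
    ‖![ζ, ζ, 1] i / ![ζ, ζ, 1] j‖ * (1 + ‖ζ‖) ^ HolPF.dg i j ≤ 4 * ‖ζ‖ ^ 2 := by
  have h0 : ζ ≠ 0 := by
    rintro rfl
    norm_num at hζ
  have h1 : (1 + ‖ζ‖) ^ 2 ≤ 4 * ‖ζ‖ ^ 2 := by nlinarith
  have h2 : ‖ζ‖ * (1 + ‖ζ‖) ≤ 4 * ‖ζ‖ ^ 2 := by nlinarith
  have h3 : ‖ζ‖⁻¹ * (1 + ‖ζ‖) ^ 3 ≤ 4 * ‖ζ‖ ^ 2 := by
    rw [inv_mul_le_iff₀ (by linarith)]
    have : (1 + ‖ζ‖) ^ 3 ≤ (3 / 2 * ‖ζ‖) ^ 3 := pow_le_pow_left₀ (by positivity) (by linarith) 3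
    have h4 : 0 ≤ ‖ζ‖ ^ 3 := by positivity
    nlinarith
  fin_cases i <;> fin_cases j <;> simp [HolPF.dg, h0, h1, h2, h3]

theorem holB_const {f : ℂ → ℂ} (hf : Differentiable ℂ f) {C : ℝ}
    (h : ∀ ζ : ℂ, 2 ≤ ‖ζ‖ → ‖f ζ‖ ≤ C) (z w : ℂ) : f z = f w := by
  refine hf.apply_eq_apply_of_bounded ?_ z w
  obtain ⟨D, hD⟩ := (isCompact_closedBall (0 : ℂ) 2).exists_bound_of_continuousOn
    hf.continuous.continuousOn
  refine isBounded_iff_forall_norm_le.2 ⟨max C D, ?_⟩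
  rintro _ ⟨ζ, rfl⟩
  by_cases hζ : 2 ≤ ‖ζ‖
  · exact (h ζ hζ).trans (le_max_left _ _)
  · exact (hD ζ (by simpa using (not_le.1 hζ).le)).trans (le_max_right _ _)

/-- The entries of `M.A ζ` and `th ζ` are polynomials in `ζ`. Fix `ζ₀`, `Ψ₀` with
`Tt_{ζ₀} Ψ₀ = Φ` on `Ω`. Then `Tt_ζ Ψ₀ = Tt_{ζ₀} Ψ₀ + ∑_{k=1}^{3} (ζ - ζ₀)^k Φ_k`, so
`K ζ Φ = p ζ - ∑ (ζ - ζ₀)^k K ζ Φ_k` with `p ζ = ∫ ∑ (A₁ - A₂)(ζ) Ψ₀` a polynomial. `K ζ Φ'` is bounded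
for `ζ` near `ζ₀` (`isK_bound`, `‖th ζ‖` is bounded below), hence `K · Φ` is continuous at `ζ₀` for every
`Φ`, hence differentiable. -/
theorem isK_differentiable {Ω : Set R3} (ho : IsOpen Ω) (hb : Bornology.IsBounded Ω) (M₁ M₂ : Med)
    (K : ℂ → Matrix (Fin 3) (Fin 3) S →ₗ[ℂ] ℂ)
    (hK : ∀ ζ, IsK Ω (th ζ) (M₁.A ζ) (M₂.A ζ) (K ζ)) (Φ : Matrix (Fin 3) (Fin 3) S) :
    Differentiable ℂ fun ζ => K ζ Φ := by
  intro ζ₀
  have hc : ∀ Φ', ContinuousAt (fun ζ => K ζ Φ') ζ₀ := by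
    intro Φ'
    obtain ⟨p, G, hp, hG, e⟩ := holB_expand hb M₁ M₂ K hK ζ₀ Φ'
    obtain ⟨C, hC⟩ := holB_local ho hb M₁ M₂ K hK hG (r := ‖ζ₀‖ + 1) (by positivity)
    have h1 : Tendsto (fun ζ => (ζ - ζ₀) * K ζ (G ζ)) (𝓝 ζ₀) (𝓝 0) := by
      have h2 : Tendsto (fun ζ => ζ - ζ₀) (𝓝 ζ₀) (𝓝 0) := by
        exact tendsto_sub_nhds_zero_iff.2 tendsto_id
      refine h2.zero_mul_isBoundedUnder_le ⟨C, ?_⟩
      rw [eventually_map]
      filter_upwards [(isOpen_lt continuous_norm (continuous_const (y := ‖ζ₀‖ + 1))).mem_nhds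
        (lt_add_one ‖ζ₀‖)] with ζ hζ using hC ζ (le_of_lt hζ)
    have h3 := (hp.continuous.tendsto ζ₀).sub h1
    rw [funext e]
    simpa [ContinuousAt] using h3
  obtain ⟨p, G, hp, hG, e⟩ := holB_expand hb M₁ M₂ K hK ζ₀ Φ
  have h1 : HasDerivAt (fun ζ => (ζ - ζ₀) * K ζ (G ζ)) (K ζ₀ (G ζ₀)) ζ₀ := by
    rw [hasDerivAt_iff_tendsto_slope]
    refine ((hG.continuousAt hc).tendsto.mono_left nhdsWithin_le_nhds).congr' ?_
    filter_upwards [self_mem_nhdsWithin] with ζ hζ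
    have h0 : ζ - ζ₀ ≠ 0 := sub_ne_zero.2 hζ
    rw [slope_def_field]
    field_simp
    ring
  rw [funext e]
  exact (hp ζ₀).sub h1.differentiableAt

/-- For `‖ζ‖ ≥ 2` scale with `l = ![ζ, ζ, 1]`: all entries of `scl l (M.A ζ)` are at most
`M ‖ζ‖² ≤ M' ‖th ζ‖` on bounded sets; `isK_bound` for `IsK.scale`. -/
theorem isK_growth {Ω : Set R3} (ho : IsOpen Ω) (hb : Bornology.IsBounded Ω) (M₁ M₂ : Med)
    (K : ℂ → Matrix (Fin 3) (Fin 3) S →ₗ[ℂ] ℂ)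
    (hK : ∀ ζ, IsK Ω (th ζ) (M₁.A ζ) (M₂.A ζ) (K ζ)) (i j : Fin 3) (g : S) :
    ∃ C : ℝ, ∀ ζ : ℂ, 2 ≤ ‖ζ‖ →
      ‖(![ζ, ζ, 1] i / ![ζ, ζ, 1] j) * K ζ (Matrix.single i j g)‖ ≤ C := by
  obtain ⟨R, hR, hΩ⟩ := holB_ball hb
  obtain ⟨C₁, h1, hC₁⟩ := HolPF.bound_matrix (HolPF.A M₁)
    (isBounded_ball (x := (0 : R3)) (r := 2 * R))
  obtain ⟨C₂, h2, hC₂⟩ := HolPF.bound_matrix (HolPF.A M₂)
    (isBounded_ball (x := (0 : R3)) (r := 2 * R))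
  obtain ⟨G, hG⟩ := holB_single_bound (isBounded_ball (x := (0 : R3)) (r := 2 * R)) i j g
  obtain ⟨C, hC⟩ := isK_bound ho hR hΩ (4 * (C₁ + C₂))
  refine ⟨C * G, fun ζ hζ => ?_⟩
  have h0 : ζ ≠ 0 := by
    rintro rfl
    norm_num at hζ
  have hl : ∀ a, ![ζ, ζ, 1] a ≠ 0 := fun a => by fin_cases a <;> simp [h0]
  have key : ∀ (A : Matrix (Fin 3) (Fin 3) S) (D : ℝ), 0 ≤ D → D ≤ C₁ + C₂ → ∀ (x : R3) a b,
      ‖A a b x‖ ≤ D * (1 + ‖ζ‖) ^ HolPF.dg a b →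
      ‖scl ![ζ, ζ, 1] A a b x‖ ≤ 4 * (C₁ + C₂) * ‖th ζ‖ := by
    intro A D hD hD' x a b h
    rw [scl_apply, S.smul_apply, norm_mul]
    calc _ ≤ ‖![ζ, ζ, 1] a / ![ζ, ζ, 1] b‖ * (D * (1 + ‖ζ‖) ^ HolPF.dg a b) :=
          mul_le_mul_of_nonneg_left h (norm_nonneg _)
      _ = D * (‖![ζ, ζ, 1] a / ![ζ, ζ, 1] b‖ * (1 + ‖ζ‖) ^ HolPF.dg a b) := by ring
      _ ≤ (C₁ + C₂) * (4 * ‖th ζ‖) :=
          mul_le_mul hD' ((holB_ratio hζ a b).trans (by linarith [holB_sq_le ζ])) (by positivity)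
            (by positivity)
      _ = _ := by ring
  have h := hC _ (null_th ζ) _ _ _ ((hK ζ).scale hl) (fun x hx a b =>
    ⟨key _ C₁ h1 (by linarith) x a b (hC₁ ζ x hx a b),
      key _ C₂ h2 (by linarith) x a b (hC₂ ζ x hx a b)⟩) _ G hG
  have e : scl ![ζ, ζ, 1] (Matrix.single i j g) =
      (![ζ, ζ, 1] i / ![ζ, ζ, 1] j) • Matrix.single i j g := by
    refine Matrix.ext fun a b => ?_
    rw [scl_apply, Matrix.smul_apply, Matrix.single_apply]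
    split_ifs with hab
    · rw [hab.1, hab.2]
    · rw [smul_zero, smul_zero]
  rwa [LinearMap.comp_apply, e, map_smul, smul_eq_mul] at h

/-- Liouville (`Differentiable.apply_eq_apply_of_bounded`,
`Differentiable.apply_eq_of_tendsto_cocompact`) -/
theorem isK_rigid {Ω : Set R3} (ho : IsOpen Ω) (hb : Bornology.IsBounded Ω) (M₁ M₂ : Med)
    (K : ℂ → Matrix (Fin 3) (Fin 3) S →ₗ[ℂ] ℂ)
    (hK : ∀ ζ, IsK Ω (th ζ) (M₁.A ζ) (M₂.A ζ) (K ζ)) (ζ : ℂ) (g : S) :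
    (∀ i, i ≠ 2 → K ζ (Matrix.single i 2 g) = 0) ∧
      ∀ i j, (i = 2 ↔ j = 2) → K ζ (Matrix.single i j g) = K 0 (Matrix.single i j g) := by
  have hne : ∀ z : ℂ, 2 ≤ ‖z‖ → z ≠ 0 := by
    rintro z hz rfl
    norm_num at hz
  constructor
  · intro i hi
    obtain ⟨C, hC⟩ := isK_growth ho hb M₁ M₂ K hK i 2 g
    have hC' : ∀ z : ℂ, 2 ≤ ‖z‖ → ‖z‖ * ‖K z (Matrix.single i 2 g)‖ ≤ C := by
      intro z hz
      have e : ![z, z, 1] i / ![z, z, 1] 2 = z := by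
        fin_cases i
        · simp
        · simp
        · exact absurd rfl hi
      have := hC z hz
      rwa [e, norm_mul] at this
    have hc := holB_const (isK_differentiable ho hb M₁ M₂ K hK (Matrix.single i 2 g)) (C := C)
      (fun z hz => by nlinarith [hC' z hz, norm_nonneg (K z (Matrix.single i 2 g))])
    by_contra h0
    have hpos : 0 < ‖K ζ (Matrix.single i 2 g)‖ := norm_pos_iff.2 h0
    set t : ℝ := 2 + |C| / ‖K ζ (Matrix.single i 2 g)‖ with ht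
    have ht2 : 2 ≤ t := le_add_of_nonneg_right (by positivity)
    have hn : ‖(t : ℂ)‖ = t := by rw [Complex.norm_real, Real.norm_of_nonneg (by linarith)]
    have h1 := hC' t (by rw [hn]; exact ht2)
    rw [hn, hc t ζ, ht, add_mul, div_mul_cancel₀ _ hpos.ne'] at h1
    linarith [le_abs_self C]
  · intro i j hij
    obtain ⟨C, hC⟩ := isK_growth ho hb M₁ M₂ K hK i j g
    refine holB_const (isK_differentiable ho hb M₁ M₂ K hK (Matrix.single i j g)) (C := C)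
      (fun z hz => ?_) ζ 0
    have e : ![z, z, 1] i / ![z, z, 1] j = 1 := by
      fin_cases i <;> fin_cases j <;> simp_all [hne z hz]
    have := hC z hz
    rwa [e, one_mul] at this

end Crest.Agent.R080
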