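import Crest.Agent.R080.CGO2
import Crest.Agent.R080.Energy

/-!
Row 80: the limit of Alessandrini's identity.

With `u τ` from `ha.cgo`, `(X τ, Y τ)` from `Med.dual` for `M₂`: `y₁ (X, Y) - y₂ (X, Y)` vanishes on
the frontier (`m_eq`, `dm_eq`), so `Dom.en_zero`, `en_sub` and `h.ale` give
`∫ en₁ (u, y₁ Z) - en₂ (u, y₂ Z) = 0` for large `τ`. By `en_diff` and
`w₁ I2⁽¹⁾ - w₂ I2⁽²⁾ = w₁ (I2⁽¹⁾ - I2⁽²⁾) + (w₁ - w₂) I2⁽²⁾`,
`I2⁽¹⁾ - I2⁽²⁾ = (β₁ - β₂) dv X +` terms of order zero, the integrand is a sum of products of two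
`Conv` families (insert `ex (-τ) θ * ex τ θ = 1`, `τ⁻¹ τ = 1`); `Conv.integral_mul`; the limit
density is minus the left side of `key_alg`.
-/

set_option autoImplicit false

open MeasureTheory Set Metric Filter Topology
open scoped ContDiff

noncomputable section

namespace Crest.Agent.R080

theorem key0_conv_zero {U : Set R3} (hU : Bornology.IsBounded U) (hm : MeasurableSet U)
    {F : ℝ → S} {f : S} (hF : Conv U (fun τ => (τ : ℂ) • F τ) f) : Conv U F 0 := by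
  refine (hF.inv_smul hU).congr hm ?_ fun _ _ => rfl
  filter_upwards [eventually_gt_atTop (0 : ℝ)] with τ hτ x _
  have : (τ : ℂ) ≠ 0 := by exact_mod_cast hτ.ne'
  simp only [S.smul_apply]
  field_simp

theorem key0_y_eq {D : Dom} {M₁ M₂ : Med} (h : Pair D M₁ M₂) (X : Fin 3 → S) (Y : S) :
    ∀ x ∈ frontier D.Ω, ∀ i, (M₁.y X Y i - M₂.y X Y i) x = 0 := by
  intro x hx i
  simp only [Med.y, S.sub_apply, S.mul_apply, S.add_apply, S.exp_apply, S.neg_apply, h.m_eq x hx,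
    h.dm_eq x hx i, sub_self]

theorem key0_zero {D : Dom} {M₁ M₂ : Med} (h : Pair D M₁ M₂) (u X : Fin 3 → S) (Y : S)
    (hu : ∀ x ∈ D.Ω, ∀ i, Lop M₁.lam M₁.mu u i x = 0)
    (hX : ∀ x ∈ D.Ω, ∀ i, Lop M₂.lam M₂.mu (M₂.y X Y) i x = 0) :
    ∫ x in D.Ω, (dv u * (M₁.w * M₁.I2 X Y - M₂.w * M₂.I2 X Y) +
      ∑ i, ∑ j, sym u i j * (Y * (M₁.H i j - M₂.H i j) - X j * pd i (M₁.m - M₂.m))) x = 0 := by
  have h1 := D.en_zero M₁.lam M₁.mu u (fun i => M₁.y X Y i - M₂.y X Y i) hu (key0_y_eq h X Y)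
  rw [en_sub, integral_sub' D.bdd, h.ale u _ hu hX, ← integral_sub' D.bdd, en_diff] at h1
  exact h1

theorem Pair.key0 {D : Dom} {M₁ M₂ : Med} (h : Pair D M₁ M₂) {θ : C3} (hθ : Null θ)
    {a : Fin 3 → S} {δ : S} (ha : Amp D.Ω M₁ θ a δ) (ξ : Fin 3 → S) (η ψ₀ : S)
    (h1 : ∀ x ∈ D.Ω, ∀ i, M₂.P1 θ ξ η i x = θ i * ψ₀ x) (h2 : ∀ x ∈ D.Ω, M₂.P2 θ ξ η x = 0) :
    ∫ x in D.Ω, Dv θ (δ * η - ∑ j, a j * ξ j) x = 0 := by
  have hb := D.bdd
  have hm := D.measurableSet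
  obtain ⟨u, hu, hu1, hu2⟩ := ha.cgo
  obtain ⟨X, Y, hX, hX1, hY1, hX2, hX3⟩ := M₂.dual D.isOpen hb hθ ξ η ψ₀ h1 h2
  have hX0 : ∀ i, Conv D.Ω (fun τ => ex τ θ * X τ i) 0 := fun i => key0_conv_zero hb hm (hX1 i)
  have hY0 : Conv D.Ω (fun τ => ex τ θ * Y τ) 0 := key0_conv_zero hb hm hY1
  -- the lower order terms
  have hL : ∀ M : Med, Conv D.Ω (fun τ => (2 * M.β - 1) *
      (∑ j, ex τ θ * X τ j * pd j M.m - ex τ θ * Y τ * ∑ j, M.H j j)) 0 := fun M => by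
    have := (((Conv.sum hb Finset.univ fun j _ => (hX0 j).mul_right hb (pd j M.m))).sub hb
      (hY0.mul_right hb (∑ j, M.H j j))).mul_left hb (2 * M.β - 1)
    simpa using this
  have hB : Conv D.Ω (fun τ => ex τ θ * (M₁.w * M₁.I2 (X τ) (Y τ) - M₂.w * M₂.I2 (X τ) (Y τ)))
      (M₁.w * ((M₁.β - M₂.β) * -dotS θ ξ)) := by
    have := ((((hX2.mul_left hb (M₁.β - M₂.β)).sub hb (hL M₁)).add hb (hL M₂)).mul_left hb M₁.w).add
      hb (hX3.mul_left hb (M₁.w - M₂.w))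
    simp only [sub_zero, add_zero, mul_zero] at this
    refine this.congr hm (Eventually.of_forall fun τ x _ => ?_) fun _ _ => rfl
    refine congrArg (fun f : S => f x) ?_
    simp only [Med.I2, Fin.sum_univ_three]
    ring
  have hC : ∀ i j, Conv D.Ω (fun τ => (τ : ℂ)⁻¹ • (ex (-τ) θ * sym (u τ) i j))
      (θ i • a j + θ j • a i) := fun i j => by
    refine ((hu1 i j).add hb (hu1 j i)).congr hm (Eventually.of_forall fun τ x _ => ?_)
      fun _ _ => rfl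
    simp only [sym, mul_add, smul_add]
  have hE : ∀ i j, Conv D.Ω (fun τ => (τ : ℂ) • (ex τ θ *
      (Y τ * (M₁.H i j - M₂.H i j) - X τ j * pd i (M₁.m - M₂.m))))
      (η * (M₁.H i j - M₂.H i j) - ξ j * pd i (M₁.m - M₂.m)) := fun i j => by
    refine ((hY1.mul_right hb _).sub hb ((hX1 j).mul_right hb _)).congr hm
      (Eventually.of_forall fun τ x _ => ?_) fun _ _ => rfl
    simp only [S.sub_apply, S.mul_apply, S.smul_apply]
    ring
  have hlim := (hu2.integral_mul hb hB).add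
    (tendsto_finsetSum Finset.univ fun i _ => tendsto_finsetSum Finset.univ fun j _ =>
      (hC i j).integral_mul hb (hE i j))
  have hzero := tendsto_nhds_unique hlim (tendsto_const_nhds (x := (0 : ℂ)).congr' (by
    filter_upwards [hu, hX, eventually_gt_atTop (0 : ℝ)] with τ hτu hτX hτ
    rw [← key0_zero h (u τ) (X τ) (Y τ) hτu hτX]
    simp only [← integral_sum' hb, ← integral_add' hb]
    refine setIntegral_congr_fun hm fun x _ => ?_
    have h0 : (τ : ℂ) ≠ 0 := by exact_mod_cast hτ.ne'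
    have he : ex τ θ x * ex (-τ) θ x = 1 := congrArg (fun f : S => f x) (ex_mul_ex_neg τ θ)
    have hi : (τ : ℂ)⁻¹ * τ = 1 := inv_mul_cancel₀ h0
    simp only [S.add_apply, S.sum_apply, S.mul_apply, S.smul_apply]
    congr 1
    · linear_combination (-(dv (u τ) x * (M₁.w * M₁.I2 (X τ) (Y τ) -
        M₂.w * M₂.I2 (X τ) (Y τ) : S) x)) * he
    · refine Finset.sum_congr rfl fun i _ => Finset.sum_congr rfl fun j _ => ?_
      linear_combination (-(sym (u τ) i j x * (Y τ * (M₁.H i j - M₂.H i j) -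
        X τ j * pd i (M₁.m - M₂.m) : S) x)) * (he + (ex τ θ x * ex (-τ) θ x) * hi)))
  simp only [← integral_sum' hb, ← integral_add' hb] at hzero
  have hfin : ∫ x in D.Ω, ((-2 : ℂ) • Dv θ (δ * η - ∑ j, a j * ξ j)) x = 0 := by
    rw [← hzero]
    refine setIntegral_congr_fun hm fun x hx => ?_
    have hk := congrArg (fun f : S => f x) (key_alg M₁ M₂ θ a ξ δ η)
    have hw := congrArg (fun f : S => f x) M₁.β_w
    have ho := congrArg (fun f : S => f x) ha.orth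
    simp only [S.add_apply, S.sub_apply, S.sum_apply, S.mul_apply, S.smul_apply, S.two_apply,
      S.neg_apply, S.one_apply, ha.t1 x hx, ha.t2 x hx, h1 x hx, h2 x hx] at hk hw ⊢
    simp only [dotS, S.add_apply, S.smul_apply, S.zero_apply, Fin.sum_univ_three] at ho hk ⊢
    linear_combination hk + ψ₀ x * ho + (δ x * (M₁.β x - M₂.β x) *
      (θ 0 * ξ 0 x + θ 1 * ξ 1 x + θ 2 * ξ 2 x)) * hw
  rw [integral_smul'] at hfin
  simpa using hfin

end Crest.Agent.R080
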