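import Crest.Agent.R080.Key0
import Crest.Agent.R080.CGO1
import Crest.Agent.R080.DBe

/-!
Row 80: frames.

Fix `x₀`, `θ = th ζ`, `n = e2 ζ`. For constants `c`, `v : Option (Fin 3) → ℂ` and `ε > 0` solve
`P Z₁ = - I (xi0 c n, 0)` on `Ω` with `Z₁ = v + b`, `‖b x₀‖ ≤ ε` (`exists_trans`, `db_peak`). Then
`ampA = φ₁ e1 + φ₂ e2`, `φ₁ = exp (-m) η₁`, `φ₂ = exp (-m) (c exp (m/2) + ζ η₁)`, and the column
`(φ₁, φ₂, ampD)` solves `D U + A₁ U = 0` on `Ω` (`T1`, `T2`; pair `T1` with the dual frame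
`f1 = (1/2, -i/2, 0)`, `f2 = (0, 0, 1) - ζ f1`). Three choices, `(c, v)` = `(0, η = 1)`, `(1, 0)`,
`(0, ξ = f1)`, give a matrix whose determinant at `x₀` is nonzero for small `ε` (continuity of the
determinant in the nine or twelve small numbers; at `ε = 0` it is `± exp (-5 m / 2)`).
For `s` with `D s = A₂ᵀ s` on `Ω` put `ξ = - (s 0 • f1 + s 1 • f2)`, `η = s 2`, `ψ₀ = f1 · P1 θ ξ η`;
then `Pair.key0` applies and `δ η - a · ξ = ∑ i, s i * U i`.
-/

set_option autoImplicit false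

open MeasureTheory Set Metric Filter Topology
open scoped ContDiff

noncomputable section

namespace Crest.Agent.R080

/-- the dual frame -/
def kf1 : C3 := ![1 / 2, -Complex.I / 2, 0]
def kf2 (ζ : ℂ) : C3 := ![-ζ / 2, Complex.I * ζ / 2, 1]

theorem kf_th (ζ : ℂ) (i : Fin 3) : th ζ i = e1 ζ i + ζ * e2 ζ i := by
  fin_cases i <;> simp [th, e1, e2] <;> ring

theorem kf_null (ζ : ℂ) : Null (th ζ) := by
  refine ⟨?_, fun h => ?_⟩
  · simp only [dot, th, Fin.sum_univ_three, Matrix.cons_val_zero, Matrix.cons_val_one,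
      Matrix.cons_val]
    linear_combination (1 + ζ ^ 2) ^ 2 * Complex.I_sq
  · have h0 : 1 - ζ ^ 2 = 0 := congrFun h 0
    have h2 : 2 * ζ = 0 := congrFun h 2
    have : (1 : ℂ) = 0 := by linear_combination h0 + ζ / 2 * h2
    exact one_ne_zero this

theorem kf_dot_e2 (ζ : ℂ) : dot (th ζ) (e2 ζ) = 0 := by
  simp only [dot, th, e2, Fin.sum_univ_three, Matrix.cons_val_zero, Matrix.cons_val_one,
    Matrix.cons_val]
  linear_combination (1 + ζ ^ 2) * ζ * Complex.I_sq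

theorem kf11 (ζ : ℂ) : e1 ζ 0 * kf1 0 + e1 ζ 1 * kf1 1 + e1 ζ 2 * kf1 2 = 1 := by
  simp only [e1, kf1, Matrix.cons_val_zero, Matrix.cons_val_one, Matrix.cons_val]
  linear_combination (-1 / 2) * Complex.I_sq

theorem kf12 (ζ : ℂ) : e1 ζ 0 * kf2 ζ 0 + e1 ζ 1 * kf2 ζ 1 + e1 ζ 2 * kf2 ζ 2 = 0 := by
  simp only [e1, kf2, Matrix.cons_val_zero, Matrix.cons_val_one, Matrix.cons_val]
  linear_combination (ζ / 2) * Complex.I_sq

theorem kf21 (ζ : ℂ) : e2 ζ 0 * kf1 0 + e2 ζ 1 * kf1 1 + e2 ζ 2 * kf1 2 = 0 := by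
  simp only [e2, kf1, Matrix.cons_val_zero, Matrix.cons_val_one, Matrix.cons_val]
  linear_combination (-ζ / 2) * Complex.I_sq

theorem kf22 (ζ : ℂ) : e2 ζ 0 * kf2 ζ 0 + e2 ζ 1 * kf2 ζ 1 + e2 ζ 2 * kf2 ζ 2 = 1 := by
  simp only [e2, kf2, Matrix.cons_val_zero, Matrix.cons_val_one, Matrix.cons_val]
  linear_combination (ζ ^ 2 / 2) * Complex.I_sq

theorem kf_indep {ζ r₀ r₁ : ℂ} (h : ∀ i, e1 ζ i * r₀ + e2 ζ i * r₁ = 0) : r₀ = 0 ∧ r₁ = 0 :=
  ⟨by linear_combination kf1 0 * h 0 + kf1 1 * h 1 + kf1 2 * h 2 - r₀ * kf11 ζ - r₁ * kf21 ζ,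
    by linear_combination kf2 ζ 0 * h 0 + kf2 ζ 1 * h 1 + kf2 ζ 2 * h 2 - r₀ * kf12 ζ -
      r₁ * kf22 ζ⟩

theorem kf_par {ζ : ℂ} {p : C3} (h1 : dot (e1 ζ) p = 0) (h2 : dot (e2 ζ) p = 0) (i : Fin 3) :
    p i = th ζ i * dot kf1 p := by
  simp only [dot, e1, e2, Fin.sum_univ_three, Matrix.cons_val_zero, Matrix.cons_val_one,
    Matrix.cons_val] at h1 h2
  fin_cases i <;> simp only [dot, th, kf1, Fin.sum_univ_three, Matrix.cons_val_zero,
    Matrix.cons_val_one, Matrix.cons_val, Fin.zero_eta, Fin.mk_one, Fin.reduceFinMk]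
  · linear_combination (1 / 2) * h1 - (ζ / 2) * h2
  · linear_combination (-Complex.I / 2) * h1 + (Complex.I * ζ / 2) * h2 +
      (p 1 + (1 + ζ ^ 2) / 2 * p 1 - p 1 / 2 - ζ ^ 2 * p 1 / 2) * Complex.I_sq
  · linear_combination h2

/-- the amplitude vector of `(φ₁, φ₂)` -/
def kfA (ζ : ℂ) (U : Fin 3 → S) (j : Fin 3) : S := e1 ζ j • U 0 + e2 ζ j • U 1

theorem kf_col (M : Med) (ζ : ℂ) (U : Fin 3 → S) (x : R3)
    (h1 : ∀ i, M.T1 (th ζ) (kfA ζ U) (U 2) i x = 0) (h2 : M.T2 (th ζ) (kfA ζ U) (U 2) x = 0)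
    (i : Fin 3) : (Dv (th ζ) (U i) + ∑ l, M.A ζ i l * U l) x = 0 := by
  have key : ∀ i, e1 ζ i * (2 * (Dv (th ζ) (U 0) + ∑ l, M.A ζ 0 l * U l) x) +
      e2 ζ i * (2 * (Dv (th ζ) (U 1) + ∑ l, M.A ζ 1 l * U l) x) = 0 := by
    intro i
    have h := h1 i
    simp only [Med.T1, kfA, Dv_add, Dv_smul, S.add_apply, S.mul_apply, S.smul_apply, S.two_apply,
      Fin.sum_univ_three, kf_th ζ i] at h
    simp only [Med.A, Fin.sum_univ_three, S.add_apply, S.mul_apply, S.smul_apply, Matrix.of_apply,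
      Matrix.cons_val', Matrix.cons_val_zero, Matrix.cons_val_one, Matrix.cons_val,
      Matrix.cons_val_fin_one]
    simp only [Dv, Fin.sum_univ_three, S.add_apply, S.smul_apply] at h ⊢
    linear_combination h
  obtain ⟨k0, k1⟩ := kf_indep key
  fin_cases i
  · exact (mul_eq_zero.1 k0).resolve_left two_ne_zero
  · exact (mul_eq_zero.1 k1).resolve_left two_ne_zero
  · simp only [Med.T2, kfA, S.add_apply, S.mul_apply, S.smul_apply, Fin.sum_univ_three] at h2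
    simp only [Med.A, Med.Hq, Fin.sum_univ_three, S.add_apply, S.mul_apply, S.smul_apply,
      Matrix.of_apply, Matrix.cons_val', Matrix.cons_val_zero, Matrix.cons_val_one,
      Matrix.cons_val, Matrix.cons_val_fin_one, Fin.reduceFinMk, S.zero_apply]
    linear_combination h2

/-- the vector part of the dual amplitude -/
def kfX (ζ : ℂ) (s : Fin 3 → S) (j : Fin 3) : S := -(kf1 j • s 0 + kf2 ζ j • s 1)

theorem kf_dual (M : Med) (ζ : ℂ) (s : Fin 3 → S) (x : R3)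
    (h : ∀ i, Dv (th ζ) (s i) x = (∑ l, M.A ζ l i * s l) x) :
    (∀ i, M.P1 (th ζ) (kfX ζ s) (s 2) i x =
      th ζ i * dotS kf1 (M.P1 (th ζ) (kfX ζ s) (s 2)) x) ∧
      M.P2 (th ζ) (kfX ζ s) (s 2) x = 0 := by
  have h0 := h 0
  have h1 := h 1
  have h2 := h 2
  simp only [Med.A, Med.Hq, Fin.sum_univ_three, S.add_apply, S.mul_apply, S.smul_apply,
    Matrix.of_apply, Matrix.cons_val', Matrix.cons_val_zero, Matrix.cons_val_one,
    Matrix.cons_val, Matrix.cons_val_fin_one, S.zero_apply] at h0 h1 h2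
  have hd : dotS (th ζ) (kfX ζ s) x = -(s 0 x + ζ * s 1 x) := by
    simp only [dotS, kfX, Fin.sum_univ_three, S.add_apply, S.smul_apply, S.neg_apply, kf_th]
    linear_combination -s 0 x * kf11 ζ - s 1 x * kf12 ζ - ζ * s 0 x * kf21 ζ - ζ * s 1 x * kf22 ζ
  have hP : ∀ i, M.P1 (th ζ) (kfX ζ s) (s 2) i x =
      -2 * (kf1 i * Dv (th ζ) (s 0) x + kf2 ζ i * Dv (th ζ) (s 1) x) +
        (kf1 i * s 0 x + kf2 ζ i * s 1 x) * Dv (th ζ) M.m x + pd i M.m x * (s 0 x + ζ * s 1 x) +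
        2 * s 2 x * (th ζ 0 * M.H 0 i x + th ζ 1 * M.H 1 i x + th ζ 2 * M.H 2 i x) := by
    intro i
    simp only [Med.P1, S.add_apply, S.sub_apply, S.mul_apply, S.two_apply, hd]
    simp only [kfX, Dv_neg, Dv_add, Dv_smul, dotS, Fin.sum_univ_three, S.add_apply, S.neg_apply,
      S.smul_apply, M.H_symm i]
    ring
  have e : ∀ v : C3, Dv v M.m x = v 0 * pd 0 M.m x + v 1 * pd 1 M.m x + v 2 * pd 2 M.m x := by
    intro v
    simp only [Dv, Fin.sum_univ_three, S.add_apply, S.smul_apply]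
  refine ⟨fun i => ?_, ?_⟩
  · have := kf_par (ζ := ζ) (p := fun i => M.P1 (th ζ) (kfX ζ s) (s 2) i x) ?_ ?_ i
    · simpa only [dot, dotS, S.sum_apply, S.smul_apply] using this
    · simp only [dot, Fin.sum_univ_three, hP]
      rw [e (e1 ζ)] at h0
      linear_combination -2 * h0 + (s 0 x * Dv (th ζ) M.m x - 2 * Dv (th ζ) (s 0) x) * kf11 ζ +
        (s 1 x * Dv (th ζ) M.m x - 2 * Dv (th ζ) (s 1) x) * kf12 ζ
    · simp only [dot, Fin.sum_univ_three, hP]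
      rw [e (e2 ζ)] at h1
      linear_combination -2 * h1 + (s 0 x * Dv (th ζ) M.m x - 2 * Dv (th ζ) (s 0) x) * kf21 ζ +
        (s 1 x * Dv (th ζ) M.m x - 2 * Dv (th ζ) (s 1) x) * kf22 ζ
  · simp only [Med.P2, S.add_apply, S.mul_apply, S.two_apply, hd]
    linear_combination 2 * h2

theorem kf_pair (ζ : ℂ) (U s : Fin 3 → S) :
    U 2 * s 2 - ∑ j, kfA ζ U j * kfX ζ s j = ∑ i, s i * U i := by
  refine S.ext fun x => ?_
  simp only [kfA, kfX, Fin.sum_univ_three, S.add_apply, S.sub_apply, S.mul_apply, S.neg_apply,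
    S.smul_apply]
  linear_combination U 0 x * s 0 x * kf11 ζ + U 0 x * s 1 x * kf12 ζ + U 1 x * s 0 x * kf21 ζ +
    U 1 x * s 1 x * kf22 ζ

/-- the value of a column at `x₀` -/
def kfVal (M : Med) (ζ : ℂ) (x₀ : R3) (c : ℂ) (z : Option (Fin 3) → ℂ) : C3 :=
  ![Complex.exp (-M.m x₀) * z none,
    Complex.exp (-M.m x₀) * (c * Complex.exp (1 / 2 * M.m x₀) + ζ * z none),
    Complex.exp (-M.m x₀) * (∑ j, th ζ j * z (some j) + dv (M.xi0 c (e2 ζ)) x₀ -
      2 * ∑ j, M.xi0 c (e2 ζ) j x₀ * pd j M.m x₀)]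

theorem kf_exists (D : Dom) (M : Med) (ζ : ℂ) (x₀ : R3) (c : ℂ) (v : Option (Fin 3) → ℂ) {ε : ℝ}
    (hε : 0 < ε) : ∃ (U : Fin 3 → S) (b : Option (Fin 3) → ℂ),
      Amp D.Ω M (th ζ) (kfA ζ U) (U 2) ∧ ‖b‖ ≤ ε ∧ ∀ i, U i x₀ = kfVal M ζ x₀ c (v + b) i := by
  obtain ⟨B, hB⟩ := M.exists_trans (th ζ)
  set G : Option (Fin 3) → S := fun p => p.elim (M.I2 (M.xi0 c (e2 ζ)) 0) (M.I1 (M.xi0 c (e2 ζ)) 0)
  obtain ⟨b, hb, hb0⟩ := db_peak (kf_null ζ) D.bdd B
    (fun p => -((1 / 2 : ℂ) • G p) - ∑ q, B p q * algebraMap ℂ S (v q)) x₀ hε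
  set Z : Option (Fin 3) → S := fun p => algebraMap ℂ S (v p) + b p with hZ
  have hZ' : ∀ x ∈ D.Ω, ∀ p, (2 * (Dv (th ζ) (Z p) + ∑ q, B p q * Z q) + G p) x = 0 := by
    intro x hx p
    have h := hb x hx p
    have h0 : Dv (th ζ) (algebraMap ℂ S (v p)) = 0 := by simp [Dv]
    simp only [hZ, Dv_add, h0, mul_add, Finset.sum_add_distrib, S.add_apply, S.mul_apply,
      S.two_apply, S.zero_apply, S.sub_apply, S.neg_apply, S.smul_apply] at h ⊢
    linear_combination 2 * h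
  have hA := M.amp D.isOpen D.bdd (kf_null ζ) (kf_dot_e2 ζ) c (fun j => Z (some j)) (Z none)
    (fun x hx i => by rw [(hB Z).1 i]; exact hZ' x hx (some i))
    (fun x hx => by rw [(hB Z).2]; exact hZ' x hx none)
  refine ⟨![S.exp (-M.m) * Z none,
    S.exp (-M.m) * (c • S.exp ((1 / 2 : ℂ) • M.m) + ζ • Z none),
    M.ampD (th ζ) c (e2 ζ) fun j => Z (some j)], fun p => b p x₀, ?_,
    (pi_norm_le_iff_of_nonneg hε.le).2 hb0, fun i => ?_⟩
  · convert hA using 1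
    · funext j
      refine S.ext fun x => ?_
      simp only [kfA, Med.ampA, Med.xi0, Matrix.cons_val_zero, Matrix.cons_val_one, S.add_apply,
        S.mul_apply, S.smul_apply, kf_th ζ j]
      ring
    · rfl
  · fin_cases i
    · simp [kfVal, hZ]
    · change (S.exp (-M.m) * (c • S.exp ((1 / 2 : ℂ) • M.m) + ζ • Z none)) x₀ = _
      rfl
    · simp [kfVal, hZ, Med.ampD, dotS, mul_add]

theorem Pair.frames {D : Dom} {M₁ M₂ : Med} (h : Pair D M₁ M₂) (ζ : ℂ) :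
    Frames D.Ω (th ζ) (M₁.A ζ) (M₂.A ζ) := by
  intro x₀ _
  set c : Fin 3 → ℂ := ![0, 1, 0] with hc
  set v : Fin 3 → Option (Fin 3) → ℂ := ![fun p => p.elim 1 0, 0, fun p => p.elim 0 kf1] with hv
  set F : (Fin 3 → Option (Fin 3) → ℂ) → ℂ := fun b =>
    (Matrix.of fun i k => kfVal M₁ ζ x₀ (c k) (v k + b k) i).det with hF
  have hcont : Continuous F := by
    refine Continuous.matrix_det (continuous_pi fun i => continuous_pi fun k => ?_)
    fin_cases i <;> simp only [Matrix.of_apply, kfVal, Pi.add_apply, Fin.zero_eta, Fin.mk_one,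
      Fin.reduceFinMk, Matrix.cons_val_zero, Matrix.cons_val_one, Matrix.cons_val] <;> fun_prop
  have hF0 : F 0 ≠ 0 := by
    have h1 : ∑ j, th ζ j * kf1 j = 1 := by
      simp only [Fin.sum_univ_three, kf_th]
      linear_combination kf11 ζ + ζ * kf21 ζ
    have h2 : M₁.xi0 0 (e2 ζ) = 0 := by
      funext j
      simp [Med.xi0]
    simp [hF, Matrix.det_fin_three, kfVal, hc, hv, h1, h2, dv]
  obtain ⟨ε, hε, hne⟩ := Metric.nhds_basis_closedBall.eventually_iff.1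
    (hcont.continuousAt.eventually_ne hF0)
  choose U b hA hb hU using fun k => kf_exists D M₁ ζ x₀ (c k) (v k) hε
  refine ⟨Matrix.of fun i k => U k i, ?_, fun x hx i k => ?_, fun k s hs => ?_⟩
  · have h1 := hne (mem_closedBall_zero_iff.2 ((pi_norm_le_iff_of_nonneg hε.le).2 hb))
    rw [← S.ev_apply, AlgHom.map_det]
    convert h1 using 2
    ext i k
    exact hU k i
  · exact kf_col M₁ ζ (U k) x ((hA k).t1 x hx) ((hA k).t2 x hx) i
  · have := h.key0 (kf_null ζ) (hA k) (kfX ζ s) (s 2) _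
      (fun x hx => (kf_dual M₂ ζ s x (hs x hx)).1) fun x hx => (kf_dual M₂ ζ s x (hs x hx)).2
    rw [kf_pair] at this
    exact this

end Crest.Agent.R080
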