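import Crest.Agent.R080.Geo
import Crest.Agent.R080.L2

/-!
Row 80: the overdetermined system has only the zero solution.

On `Ω`, for `b ≠ a`, `∂a ∂b ∂b ψ = ∂b ∂a ∂b ψ` gives `∂a n = ∂b (B a b c ∂c ψ) - ∂a (B b b c ∂c ψ)`, which
is a linear combination of `∂c ψ` and `n` with coefficients in `S` (`pd_congr`). So
`Y = (ψ, ∇ψ, n)` satisfies `‖fderiv Y‖ ≤ C ‖Y‖` on `Ω`. At a frontier point `x₀` the Hessian equation
holds by continuity, so `∂a ∂b ψ x₀ = n x₀ δ a b`, while `Dom.tanS` for `∂b ψ` says that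
`∂a ∂b ψ x₀ = c b * ∂a ρ x₀` has rank at most one: `n x₀ = 0`. For `x ∈ Ω` let `x₀` be a nearest point of
the frontier (nonempty, compact); the segment from `x₀` to `x` lies in `Ω` except for `x₀`; Gronwall
(`norm_le_gronwallBound_of_norm_deriv_right_le`, `eq_zero_of_abs_deriv_le_mul_abs_self_of_eq_zero_right`;
the differential inequality holds on the closure by continuity).
-/

set_option autoImplicit false

open MeasureTheory Set Metric Filter Topology
open scoped ContDiff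

noncomputable section

namespace Crest.Agent.R080

/-- the ray from a point of the domain in the direction `eb 0` up to the first exit -/
theorem Dom.ode_ray (D : Dom) {x : R3} (hx : x ∈ D.Ω) :
    ∃ T : ℝ, 0 ≤ T ∧ x + T • eb 0 ∈ frontier D.Ω ∧ ∀ t ∈ Icc 0 T, x + t • eb 0 ∈ closure D.Ω := by
  set g : ℝ → ℝ := fun t => D.ρ (x + t • eb 0) with hg
  have hgc : Continuous g := D.sm.continuous.comp (by fun_prop)
  have hg0 : g 0 < 0 := by
    have : x ∈ {x | D.ρ x < 0} := D.eq ▸ hx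
    simpa [hg] using this
  have hivt : ∀ t, 0 ≤ t → 0 ≤ g t → ∃ s ∈ Icc 0 t, g s = 0 := fun t ht h =>
    intermediate_value_Icc ht hgc.continuousOn ⟨hg0.le, h⟩
  obtain ⟨R, hR, hRb⟩ := D.exists_ball
  have hn : ‖eb 0‖ = 1 := by simp [eb]
  have h1 : 0 ≤ g (R + ‖x‖) := by
    by_contra hlt
    have hm : x + (R + ‖x‖) • eb 0 ∈ D.Ω := by
      rw [D.eq]; exact not_le.1 hlt
    have h2 := hRb (subset_closure hm)
    rw [mem_ball_zero_iff] at h2
    have h3 : ‖(R + ‖x‖) • eb 0‖ ≤ ‖x + (R + ‖x‖) • eb 0‖ + ‖x‖ := by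
      simpa using norm_sub_le (x + (R + ‖x‖) • eb 0) x
    rw [norm_smul, hn, mul_one, Real.norm_of_nonneg (by positivity)] at h3
    linarith
  set A : Set ℝ := {t | 0 ≤ t ∧ g t = 0} with hA
  have hAc : IsClosed A := (isClosed_le continuous_const continuous_id).inter
    (isClosed_eq hgc continuous_const)
  have hAn : A.Nonempty := by
    obtain ⟨s, hs, hs'⟩ := hivt _ (by positivity) h1
    exact ⟨s, hs.1, hs'⟩
  have hAb : BddBelow A := ⟨0, fun t ht => ht.1⟩
  have hT := hAc.csInf_mem hAn hAb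
  refine ⟨sInf A, hT.1, by rw [D.frontier_eq]; exact hT.2, fun t ht => ?_⟩
  rw [D.closure_eq]
  by_contra hlt
  have hpos : 0 < g t := not_le.1 hlt
  obtain ⟨s, hs, hs'⟩ := hivt t ht.1 hpos.le
  have h2 : sInf A ≤ s := csInf_le hAb ⟨hs.1, hs'⟩
  have h3 : s = t := le_antisymm hs.2 (ht.2.trans h2)
  rw [h3] at hs'
  exact hpos.ne' hs'

/-- `f` is dominated by `N` on `U` -/
def odeDm (U : Set R3) (N : R3 → ℝ) (f : S) : Prop := ∃ C : ℝ, ∀ x ∈ U, ‖f x‖ ≤ C * N x

theorem odeDm.congr {U : Set R3} {N : R3 → ℝ} {f g : S} (hf : odeDm U N f)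
    (h : ∀ x ∈ U, g x = f x) : odeDm U N g := by
  obtain ⟨C, hC⟩ := hf
  exact ⟨C, fun x hx => by rw [h x hx]; exact hC x hx⟩

theorem odeDm.zero {U : Set R3} {N : R3 → ℝ} : odeDm U N 0 := ⟨0, fun x _ => by simp⟩

theorem odeDm.add {U : Set R3} {N : R3 → ℝ} {f g : S} (hf : odeDm U N f) (hg : odeDm U N g) :
    odeDm U N (f + g) := by
  obtain ⟨C, hC⟩ := hf
  obtain ⟨C', hC'⟩ := hg
  refine ⟨C + C', fun x hx => ?_⟩
  rw [S.add_apply, add_mul]
  exact (norm_add_le _ _).trans (add_le_add (hC x hx) (hC' x hx))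

theorem odeDm.sub {U : Set R3} {N : R3 → ℝ} {f g : S} (hf : odeDm U N f) (hg : odeDm U N g) :
    odeDm U N (f - g) := by
  obtain ⟨C, hC⟩ := hf
  obtain ⟨C', hC'⟩ := hg
  refine ⟨C + C', fun x hx => ?_⟩
  rw [S.sub_apply, add_mul]
  exact (norm_sub_le _ _).trans (add_le_add (hC x hx) (hC' x hx))

theorem odeDm.mul {U : Set R3} (hU : Bornology.IsBounded U) {N : R3 → ℝ} {f : S}
    (hf : odeDm U N f) (a : S) : odeDm U N (a * f) := by
  obtain ⟨C, hC⟩ := hf
  obtain ⟨C', h0, hC'⟩ := S.bdd_on hU a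
  refine ⟨C' * C, fun x hx => ?_⟩
  rw [S.mul_apply, norm_mul, mul_assoc]
  exact mul_le_mul (hC' x hx) (hC x hx) (norm_nonneg _) h0

theorem odeDm.sum {U : Set R3} {N : R3 → ℝ} {ι : Type*} (s : Finset ι) {f : ι → S}
    (hf : ∀ i ∈ s, odeDm U N (f i)) : odeDm U N (∑ i ∈ s, f i) :=
  Finset.sum_induction f (odeDm U N) (fun _ _ => odeDm.add) odeDm.zero hf

/-- Gronwall from the boundary -/
theorem Dom.ode_sys (D : Dom) {ι : Type} [Fintype ι] (Y : ι → S)
    (h0 : ∀ x ∈ frontier D.Ω, ∀ i, Y i x = 0)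
    (h : ∀ i, odeDm D.Ω (fun x => ‖fun j => Y j x‖) (pd 0 (Y i))) :
    ∀ x ∈ D.Ω, ∀ i, Y i x = 0 := by
  intro x hx
  choose C hC using h
  have hN : Continuous fun y : R3 => ‖fun j => Y j y‖ :=
    (continuous_pi fun j => (Y j).cont).norm
  have hC' : ∀ i, ∀ y ∈ closure D.Ω, ‖pd 0 (Y i) y‖ ≤ C i * ‖fun j => Y j y‖ := fun i y hy =>
    le_on_closure (hC i) (pd 0 (Y i)).cont.norm.continuousOn
      (continuous_const.mul hN).continuousOn hy
  obtain ⟨T, hT0, hTf, hTc⟩ := D.ode_ray hx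
  set γ : ℝ → R3 := fun s => x + (T - s) • eb 0 with hγ
  have hγd : ∀ s, HasDerivAt γ (-eb 0) s := fun s => by
    have := (((hasDerivAt_id s).const_sub T).smul_const (eb 0)).const_add x
    simpa [hγ] using this
  have hd : ∀ s, HasDerivAt (fun s j => Y j (γ s)) (fun j => -pd 0 (Y j) (γ s)) s := fun s => by
    rw [hasDerivAt_pi]
    intro j
    have := ((Y j).diff (γ s)).hasFDerivAt.comp_hasDerivAt s (hγd s)
    rw [map_neg] at this
    exact this
  have key := eq_zero_of_abs_deriv_le_mul_abs_self_of_eq_zero_right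
    (f := fun s j => Y j (γ s)) (f' := fun s j => -pd 0 (Y j) (γ s)) (K := ∑ i, |C i|)
    (a := 0) (b := T) (fun s _ => (hd s).continuousAt.continuousWithinAt)
    (fun s _ => (hd s).hasDerivWithinAt)
    (by funext j; simpa [hγ] using h0 _ hTf j)
    (fun s hs => by
      have hs' : γ s ∈ closure D.Ω := hTc _ ⟨by linarith [hs.2], by linarith [hs.1]⟩
      refine (pi_norm_le_iff_of_nonneg (by positivity)).2 fun i => ?_
      rw [norm_neg]
      refine (hC' i _ hs').trans (mul_le_mul_of_nonneg_right ?_ (norm_nonneg _))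
      exact (le_abs_self _).trans
        (Finset.single_le_sum (f := fun i => |C i|) (fun _ _ => abs_nonneg _) (Finset.mem_univ i)))
    T ⟨hT0, le_rfl⟩
  intro i
  simpa [hγ] using congrFun key i

theorem Dom.ode (D : Dom) (ψ n : S) (B : Fin 3 → Fin 3 → Fin 3 → S)
    (h0 : ∀ x ∈ frontier D.Ω, ψ x = 0) (h1 : ∀ x ∈ frontier D.Ω, ∀ i, pd i ψ x = 0)
    (h : ∀ x ∈ D.Ω, ∀ a b,
      pd a (pd b ψ) x = (if a = b then n x else 0) + ∑ c, B a b c x * pd c ψ x) :
    ∀ x ∈ D.Ω, ψ x = 0 := by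
  have hb := D.bdd
  have hS : ∀ a b, ∀ x ∈ D.Ω, pd a (pd b ψ) x =
      ((if a = b then n else 0) + ∑ c, B a b c * pd c ψ : S) x := fun a b x hx => by
    rw [h x hx a b]
    split_ifs <;> simp
  have hn : ∀ x ∈ frontier D.Ω, n x = 0 := fun x hx => by
    have hcl : ∀ a b, pd a (pd b ψ) x = if a = b then n x else 0 := fun a b => by
      have := Set.EqOn.closure (hS a b) (pd a (pd b ψ)).cont (S.cont _) (frontier_subset_closure hx)
      rw [this]
      split_ifs <;> simp [h1 x hx]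
    obtain ⟨c0, hc0⟩ := D.tanS (pd 0 ψ) (fun y hy => h1 y hy 0) hx
    obtain ⟨c1, hc1⟩ := D.tanS (pd 1 ψ) (fun y hy => h1 y hy 1) hx
    have e00 := (hc0 0).symm.trans (hcl 0 0)
    have e10 := (hc0 1).symm.trans (hcl 1 0)
    have e01 := (hc1 0).symm.trans (hcl 0 1)
    have e11 := (hc1 1).symm.trans (hcl 1 1)
    rw [if_pos rfl] at e00 e11
    rw [if_neg (by decide)] at e10 e01
    have : n x * n x = 0 := by
      nth_rewrite 1 [← e00]
      rw [← e11]
      linear_combination (c1 * ((fderiv ℝ D.ρ x (eb 0) : ℝ) : ℂ)) * e10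
    exact mul_self_eq_zero.1 this
  let Y : Option (Option (Fin 3)) → S := fun o => o.elim ψ fun o' => o'.elim n fun c => pd c ψ
  have hY : ∀ i, odeDm D.Ω (fun x => ‖fun j => Y j x‖) (Y i) := fun i =>
    ⟨1, fun x _ => by rw [one_mul]; exact norm_le_pi_norm (fun j => Y j x) i⟩
  have hd1 : ∀ c, odeDm D.Ω (fun x => ‖fun j => Y j x‖) (pd c ψ) := fun c => hY (some (some c))
  have hdn : odeDm D.Ω (fun x => ‖fun j => Y j x‖) n := hY (some none)
  have hd2 : ∀ a b, odeDm D.Ω (fun x => ‖fun j => Y j x‖) (pd a (pd b ψ)) := fun a b => by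
    refine odeDm.congr (odeDm.add ?_ (odeDm.sum _ fun c _ => (hd1 c).mul hb _)) (hS a b)
    split_ifs
    · exact hdn
    · exact odeDm.zero
  have hd3 : ∀ (a : Fin 3) (E : Fin 3 → S),
      odeDm D.Ω (fun x => ‖fun j => Y j x‖) (pd a (∑ c, E c * pd c ψ)) := fun a E => by
    rw [map_sum]
    refine odeDm.sum _ fun c _ => ?_
    rw [pd_mul, mul_comm (pd c ψ)]
    exact ((hd2 a c).mul hb _).add ((hd1 c).mul hb _)
  have key := D.ode_sys Y (fun x hx i => by
    rcases i with _ | _ | c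
    · exact h0 x hx
    · exact hn x hx
    · exact h1 x hx c) (fun i => by
    rcases i with _ | _ | c
    · exact hd1 0
    · refine ((hd3 1 (B 0 1)).sub (hd3 0 (B 1 1))).congr fun x hx => ?_
      have e1 := pd_congr D.isOpen (hS 1 1) 0 x hx
      have e2 := pd_congr D.isOpen (hS 0 1) 1 x hx
      rw [if_pos rfl, map_add, S.add_apply, pd_comm] at e1
      rw [if_neg (by decide), zero_add] at e2
      rw [S.sub_apply, ← e2, e1]
      change pd 0 n x = _
      ring
    · exact hd2 0 c)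
  exact fun x hx => key x hx none

end Crest.Agent.R080
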