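import Crest.Agent.R080.KeyFrame
import Crest.Agent.R080.Gauge
import Crest.Agent.R080.FinA
import Crest.Agent.R080.FinB
import Crest.Agent.R080.Ode
import Crest.Agent.R080.ExtB
import Crest.Agent.R080.BD1
import Crest.Agent.R080.BD2
import Crest.Agent.R080.BD3

/-!
Row 80: assembly.
-/

set_option autoImplicit false

open MeasureTheory Set Metric Filter Topology
open scoped ContDiff

noncomputable section

namespace Crest.Agent.R080

open Crest.AnalysisR.PDE.Elasticity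

/-- the interior argument -/
theorem Pair.eq {D : Dom} {M₁ M₂ : Med} (h : Pair D M₁ M₂) :
    ∀ x ∈ D.Ω, M₁.m x = M₂.m x ∧ M₁.β x = M₂.β x := by
  choose K hK using fun ζ => exists_isK (null_th ζ) D.isOpen D.bdd
    (D.gauge (null_th ζ) (h.frames ζ))
  obtain ⟨hβ, hN⟩ := h.finA K hK
  obtain ⟨E, B, hB⟩ := exists_hess M₁ M₂
  have hψ := D.ode (M₁.m - M₂.m) (E * Nm M₁ M₂ 0 0) B
    (fun x hx => by simp [h.m_eq x hx])
    (fun x hx i => by simp [h.dm_eq x hx i])
    (fun x hx a b => by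
      have h1 := scalar_of_null (fun a b => Nm M₁ M₂ a b x) (fun ζ hζ => hN ζ hζ x hx) a b
      rw [hB a b]
      simp only [S.add_apply, S.mul_apply, S.sum_apply]
      rw [h1]
      split_ifs <;> simp)
  intro x hx
  exact ⟨sub_eq_zero.1 (by simpa using hψ x hx), hβ x hx⟩

/-- boundary determination -/
theorem Data.bd {D : Dom} (T : Data D) :
    ∀ x ∈ frontier D.Ω, T.mu₁ x = T.mu₂ x ∧ fderiv ℝ T.mu₁ x = fderiv ℝ T.mu₂ x := by
  have key := D.bd3 (f := fun x => T.mu₁ x - T.mu₂ x) (T.mu₁_sm.sub T.mu₂_sm) (fun x₀ _ => by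
    obtain ⟨C, hC⟩ := T.bd1 x₀
    refine ⟨C, fun y ε hε hy => ?_⟩
    obtain ⟨h, hh, hh'⟩ := bd2 y (half_pos hε)
    have hx : ∀ x ∈ D.Ω, ε / 2 < ‖x - y‖ := fun x hx => (half_lt_self hε).trans_le (hy x hx)
    have h1 := hC h hh fun x hx' => (hh' x (hx x hx')).1
    have e1 : ∫ x in D.Ω, (T.mu₁ x - T.mu₂ x) * hess2 h x =
        6 * ∫ x in D.Ω, (T.mu₁ x - T.mu₂ x) * (‖x - y‖ ^ 6)⁻¹ := by
      rw [← integral_const_mul]
      refine setIntegral_congr_fun D.measurableSet fun x hx' => ?_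
      simp only [(hh' x (hx x hx')).2]
      ring
    have e2 : ∫ x in D.Ω, ‖x - x₀‖ ^ 2 * hess2 h x =
        6 * ∫ x in D.Ω, ‖x - x₀‖ ^ 2 * (‖x - y‖ ^ 6)⁻¹ := by
      rw [← integral_const_mul]
      refine setIntegral_congr_fun D.measurableSet fun x hx' => ?_
      simp only [(hh' x (hx x hx')).2]
      ring
    rw [e1, e2, abs_mul, abs_of_pos (by norm_num : (0 : ℝ) < 6)] at h1
    linarith)
  intro x hx
  obtain ⟨h1, h2⟩ := key x hx
  refine ⟨sub_eq_zero.1 h1, ?_⟩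
  rw [fderiv_fun_sub (T.mu₁_sm.differentiable (by simp) x) (T.mu₂_sm.differentiable (by simp) x)] at h2
  exact sub_eq_zero.1 h2

/-- the medium with `μ = exp m`, `(λ + μ) / μ = exp k` -/
def medOf (m k : R3 → ℝ) (hm : ContDiff ℝ ∞ m) (hk : ContDiff ℝ ∞ k) : Med where
  m := S.ofR m hm
  β := S.ofR (fun x => Real.exp (k x) / (1 + Real.exp (k x)))
    (hk.exp.div (contDiff_const.add hk.exp) fun x => by positivity)
  bi := S.ofR (fun x => 1 + Real.exp (-k x)) (contDiff_const.add hk.neg.exp)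
  w := S.ofR (fun x => 1 + Real.exp (k x)) (contDiff_const.add hk.exp)
  β_bi := S.ext fun x => by
    have h : Real.exp (k x) / (1 + Real.exp (k x)) * (1 + Real.exp (-k x)) = 1 := by
      rw [Real.exp_neg]
      field_simp
      ring
    simp only [S.mul_apply, S.ofR_apply, S.one_apply]
    exact_mod_cast h
  β_w := S.ext fun x => by
    have h : (1 - Real.exp (k x) / (1 + Real.exp (k x))) * (1 + Real.exp (k x)) = 1 := by
      field_simp
      ring
    simp only [S.mul_apply, S.sub_apply, S.ofR_apply, S.one_apply]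
    exact_mod_cast h

theorem medOf_mu (m k : R3 → ℝ) (hm : ContDiff ℝ ∞ m) (hk : ContDiff ℝ ∞ k) :
    (medOf m k hm hk).mu = S.ofR (fun x => Real.exp (m x)) hm.exp :=
  S.ext fun x => by simp [Med.mu, medOf]

theorem medOf_lam (m k : R3 → ℝ) (hm : ContDiff ℝ ∞ m) (hk : ContDiff ℝ ∞ k) :
    (medOf m k hm hk).lam = S.ofR (fun x => Real.exp (m x) * (Real.exp (k x) - 1))
      (hm.exp.mul (hk.exp.sub contDiff_const)) :=
  S.ext fun x => by
    have h : Real.exp (m x) * (2 * (Real.exp (k x) / (1 + Real.exp (k x))) - 1) *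
        (1 + Real.exp (k x)) = Real.exp (m x) * (Real.exp (k x) - 1) := by
      field_simp
      ring
    simp only [Med.lam, medOf, S.mul_apply, S.sub_apply, S.ofR_apply, S.one_apply, S.exp_apply,
      S.two_apply]
    exact_mod_cast h

theorem energy_congr {Ω : Set R3} (hΩ : MeasurableSet Ω) {lam mu lam' mu' : R3 → ℝ}
    (h : ∀ x ∈ Ω, lam' x = lam x ∧ mu' x = mu x) (u : R3 → R3) :
    elasticEnergy Ω lam' mu' u = elasticEnergy Ω lam mu u :=
  setIntegral_congr_fun hΩ fun x hx => by simp [energyDensity, (h x hx).1, (h x hx).2]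

theorem exists_logs (D : Dom) {lam mu : R3 → ℝ} (hl : ContDiffOn ℝ ∞ lam (closure D.Ω))
    (hm : ContDiffOn ℝ ∞ mu (closure D.Ω))
    (hpos : ∀ x ∈ closure D.Ω, 0 < mu x ∧ 0 < 3 * lam x + 2 * mu x) :
    ∃ m k : R3 → ℝ, ContDiff ℝ ∞ m ∧ ContDiff ℝ ∞ k ∧ ∀ x ∈ closure D.Ω,
      Real.exp (m x) * (Real.exp (k x) - 1) = lam x ∧ Real.exp (m x) = mu x := by
  have hq : ∀ x ∈ closure D.Ω, 0 < (lam x + mu x) / mu x := fun x hx =>
    div_pos (by linarith [(hpos x hx).1, (hpos x hx).2]) (hpos x hx).1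
  obtain ⟨m, hm1, hm2⟩ := D.extend (hm.log fun x hx => (hpos x hx).1.ne')
  obtain ⟨k, hk1, hk2⟩ := D.extend (((hl.add hm).div hm fun x hx => (hpos x hx).1.ne').log
    fun x hx => (hq x hx).ne')
  refine ⟨m, k, hm1, hk1, fun x hx => ?_⟩
  have h0 := (hpos x hx).1
  rw [hm2 x hx, hk2 x hx, Real.exp_log h0]
  refine ⟨?_, rfl⟩
  have := hq x hx
  simp only [Pi.div_apply] at this ⊢
  rw [Real.exp_log this]
  field_simp
  ring

theorem main (D : Dom) (lam₁ mu₁ lam₂ mu₂ : R3 → ℝ)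
    (hl₁ : ContDiffOn ℝ ∞ lam₁ (closure D.Ω)) (hm₁ : ContDiffOn ℝ ∞ mu₁ (closure D.Ω))
    (hl₂ : ContDiffOn ℝ ∞ lam₂ (closure D.Ω)) (hm₂ : ContDiffOn ℝ ∞ mu₂ (closure D.Ω))
    (hpos : ∀ x ∈ closure D.Ω, 0 < mu₁ x ∧ 0 < 3 * lam₁ x + 2 * mu₁ x ∧ 0 < mu₂ x ∧
      0 < 3 * lam₂ x + 2 * mu₂ x)
    (hdata : SameBoundaryData D.Ω lam₁ mu₁ lam₂ mu₂) :
    ∀ x ∈ D.Ω, lam₁ x = lam₂ x ∧ mu₁ x = mu₂ x := by
  obtain ⟨m₁, k₁, hm1, hk1, h1⟩ := exists_logs D hl₁ hm₁ fun x hx => ⟨(hpos x hx).1, (hpos x hx).2.1⟩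
  obtain ⟨m₂, k₂, hm2, hk2, h2⟩ := exists_logs D hl₂ hm₂ fun x hx => (hpos x hx).2.2
  let T : Data D :=
    { lam₁ := fun x => Real.exp (m₁ x) * (Real.exp (k₁ x) - 1)
      mu₁ := fun x => Real.exp (m₁ x)
      lam₂ := fun x => Real.exp (m₂ x) * (Real.exp (k₂ x) - 1)
      mu₂ := fun x => Real.exp (m₂ x)
      lam₁_sm := hm1.exp.mul (hk1.exp.sub contDiff_const)
      mu₁_sm := hm1.exp
      lam₂_sm := hm2.exp.mul (hk2.exp.sub contDiff_const)
      mu₂_sm := hm2.exp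
      pos := fun x hx => by
        simp only [(h1 x hx).1, (h2 x hx).1]
        simp only [(h1 x hx).2, (h2 x hx).2]
        exact hpos x hx
      same := by
        have e1 := energy_congr D.measurableSet fun x hx => h1 x (subset_closure hx)
        have e2 := energy_congr D.measurableSet fun x hx => h2 x (subset_closure hx)
        intro φ hφ
        simp only [e1, e2]
        exact hdata φ hφ }
  have hm : ∀ x ∈ frontier D.Ω, m₁ x = m₂ x := fun x hx => Real.exp_injective (T.bd x hx).1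
  have hP : Pair D (medOf m₁ k₁ hm1 hk1) (medOf m₂ k₂ hm2 hk2) :=
    { ale := fun u₁ u₂ => by
        rw [medOf_lam, medOf_mu, medOf_lam, medOf_mu]
        exact T.ale u₁ u₂
      m_eq := fun x hx => by simp [medOf, hm x hx]
      dm_eq := fun x hx i => by
        have h3 := (T.bd x hx).2
        have d1 := (hm1.differentiable (by simp) x).hasFDerivAt
        have d2 := (hm2.differentiable (by simp) x).hasFDerivAt
        have h4 : fderiv ℝ m₁ x = fderiv ℝ m₂ x := by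
          change fderiv ℝ (fun x => Real.exp (m₁ x)) x = fderiv ℝ (fun x => Real.exp (m₂ x)) x at h3
          rw [d1.exp.fderiv, d2.exp.fderiv, hm x hx] at h3
          exact smul_right_injective _ (Real.exp_pos _).ne' h3
        change fderiv ℝ (Complex.ofRealCLM ∘ m₁) x (eb i) = fderiv ℝ (Complex.ofRealCLM ∘ m₂) x (eb i)
        rw [(Complex.ofRealCLM.hasFDerivAt.comp x d1).fderiv,
          (Complex.ofRealCLM.hasFDerivAt.comp x d2).fderiv, h4] }
  intro x hx
  obtain ⟨h3, h4⟩ := hP.eq x hx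
  have h5 : m₁ x = m₂ x := by simpa [medOf] using h3
  have h6 : Real.exp (k₁ x) = Real.exp (k₂ x) := by
    have h7 : Real.exp (k₁ x) / (1 + Real.exp (k₁ x)) = Real.exp (k₂ x) / (1 + Real.exp (k₂ x)) := by
      simp only [medOf, S.ofR_apply] at h4
      exact_mod_cast h4
    rw [div_eq_div_iff (by positivity) (by positivity)] at h7
    linarith
  rw [← (h1 x (subset_closure hx)).1, ← (h2 x (subset_closure hx)).1,
    ← (h1 x (subset_closure hx)).2, ← (h2 x (subset_closure hx)).2, h5, h6]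
  exact ⟨rfl, rfl⟩

end Crest.Agent.R080
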