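import Crest.Agent.R080.Sy

/-!
Row 80: interior regularity of very weak solutions (Weyl's lemma for systems).

For `χ` with `Cs U χ` let `F χ a = 𝓕 (χ * Z a)` (with `Z a` replaced by `U.indicator (Z a)`; the
product is integrable). Claim, by induction on `n`, for all `χ`, `a`:
`‖F χ a k‖ ≤ C (1 + ‖k‖)^(-n)`. For `n = 0` this is `‖𝓕 f‖ ≤ ‖f‖₁`. For the step test the equation
with `φ = Pi.single a (χ * e_k)`, `e_k = S.exp (-2 π i k·x)`:
`4 π² ‖k‖² F χ a k` is a sum of terms `F χ' b k`, `kᵢ F χ' b k` with finitely many `χ'` (products of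
`χ`, `∂χ`, `Δχ` with coefficients, independent of `k`, all `Cs U`) and of `𝓕 (g a * χ) k`, which
decays rapidly (Schwartz function, or the same induction). So `F χ a` times any power of `‖k‖` is
integrable, `W = 𝓕⁻ (F χ a)` is smooth (`Real.contDiff_fourier` or its current name), and `W = χ * Z a`
a.e.: test against smooth compactly supported functions
(`ae_eq_of_integral_contDiff_smul_eq`, `∫ 𝓕⁻ F * ψ = ∫ F * 𝓕⁻ ψ = ∫ f * 𝓕 𝓕⁻ ψ`), or look for an
a.e. Fourier inversion theorem in Mathlib.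
-/

set_option autoImplicit false

open MeasureTheory Set Metric Filter Topology
open scoped ContDiff

noncomputable section

namespace Crest.Agent.R080

section fourier

open scoped FourierTransform SchwartzMap

theorem reg_swap {f g : R3 → ℂ} (hf : Integrable f) (hg : Integrable g) :
    ∫ k, 𝓕 f k * g k = ∫ x, f x * 𝓕 g x := by
  simpa using! VectorFourier.integral_bilin_fourierIntegral_eq_flip
    (ContinuousLinearMap.mul ℂ ℂ) (L := innerₗ R3) Real.continuous_fourierChar continuous_inner hf hg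

theorem reg_fourier {f : R3 → ℂ} (hf : Integrable f)
    (h : ∀ n : ℕ, ∃ C : ℝ, ∀ k, ‖k‖ ^ n * ‖𝓕 f k‖ ≤ C) : ∃ W : S, ∀ᵐ x, W x = f x := by
  have hc : Continuous (𝓕 f) :=
    VectorFourier.fourierIntegral_continuous (L := innerₗ R3) Real.continuous_fourierChar
      continuous_inner hf
  have hi : ∀ n : ℕ, Integrable fun k => ‖k‖ ^ n * ‖𝓕 f k‖ := fun n => by
    obtain ⟨C₁, h1⟩ := h n
    obtain ⟨C₂, h2⟩ := h (n + 4)
    have h3 : Integrable fun k : R3 => (1 + ‖k‖) ^ (-(4 : ℝ)) :=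
      integrable_one_add_norm (by simp; norm_num)
    refine (h3.const_mul (8 * (C₁ + C₂))).mono' (by fun_prop) (Eventually.of_forall fun k => ?_)
    have hk := norm_nonneg k
    have hp : 0 ≤ ‖k‖ ^ n * ‖𝓕 f k‖ := by positivity
    rw [Real.norm_of_nonneg hp, Real.rpow_neg (by positivity), ← div_eq_mul_inv,
      le_div_iff₀ (by positivity), show (4 : ℝ) = (4 : ℕ) by norm_num, Real.rpow_natCast]
    have h4 : (1 + ‖k‖) ^ 4 ≤ 8 * (1 + ‖k‖ ^ 4) := by
      nlinarith [sq_nonneg (‖k‖ - 1), sq_nonneg (‖k‖ ^ 2 - 1), sq_nonneg (‖k‖ ^ 2 - ‖k‖),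
        sq_nonneg (‖k‖ + 1)]
    have h5 := h1 k
    have h6 := h2 k
    rw [pow_add] at h6
    nlinarith [mul_le_mul_of_nonneg_left h4 hp]
  have hF : Integrable (𝓕 f) := by
    refine (integrable_norm_iff hc.aestronglyMeasurable).1 ?_
    simpa using hi 0
  have hF' : Integrable fun k => 𝓕 f (-k) := hF.comp_neg
  have hW : ContDiff ℝ ∞ (𝓕 fun k => 𝓕 f (-k)) :=
    Real.contDiff_fourier (N := ⊤) fun n _ => by
      simpa using (hi n).comp_neg
  refine ⟨S.mk' _ hW, ae_eq_of_integral_contDiff_smul_eq hW.continuous.locallyIntegrable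
    hf.locallyIntegrable fun g hg hgc => ?_⟩
  let ψ : 𝓢(R3, ℂ) := (hgc.comp_left (g := fun t : ℝ => (t : ℂ)) Complex.ofReal_zero).toSchwartzMap
    (Complex.ofRealCLM.contDiff.comp hg)
  have hψ : ∀ x, ψ x = (g x : ℂ) := fun _ => rfl
  have e1 : ∀ (u : R3 → ℂ), ∫ x, g x • u x = ∫ x, u x * ψ x := fun u =>
    integral_congr_ae (Eventually.of_forall fun x => by
      simp only [hψ, Complex.real_smul, mul_comm])
  have e2 : 𝓕 ((𝓕⁻ ψ : 𝓢(R3, ℂ)) : R3 → ℂ) = ψ := by
    rw [← SchwartzMap.fourier_coe, FourierTransform.fourier_fourierInv_eq]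
  change ∫ x, g x • (𝓕 fun k => 𝓕 f (-k)) x = _
  rw [e1, e1, reg_swap hF' ψ.integrable, ← e2, ← reg_swap hf (𝓕⁻ ψ : 𝓢(R3, ℂ)).integrable, e2,
    ← integral_neg_eq_self]
  refine integral_congr_ae (Eventually.of_forall fun k => ?_)
  simp only [neg_neg]
  rw [SchwartzMap.fourierInv_coe, Real.fourierInv_eq_fourier_neg]

/-- the frequency as a complex vector -/
def regθ (k : R3) : C3 := fun i => -Complex.I * (k i : ℂ)

theorem reg_dot (k : R3) : dot (regθ k) (regθ k) = -((‖k‖ ^ 2 : ℝ) : ℂ) := by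
  rw [EuclideanSpace.real_norm_sq_eq, dot, Complex.ofReal_sum, ← Finset.sum_neg_distrib]
  refine Finset.sum_congr rfl fun i _ => ?_
  simp only [regθ]
  push_cast
  linear_combination (k i : ℂ) ^ 2 * Complex.I_mul_I

theorem reg_norm (k : R3) (i : Fin 3) : ‖regθ k i‖ ≤ ‖k‖ := by
  simpa [regθ] using PiLp.norm_apply_le k i

theorem reg_fourier_eq (f : R3 → ℂ) (k : R3) :
    𝓕 f k = ∫ x, ex (2 * Real.pi) (regθ k) x * f x := by
  rw [Real.fourier_eq']
  refine integral_congr_ae (Eventually.of_forall fun x => ?_)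
  simp only [ex, S.exp_apply, S.smul_apply, dotS, S.sum_apply, crd_apply, smul_eq_mul, regθ]
  congr 2
  simp only [PiLp.inner_apply, Fin.sum_univ_three, RCLike.inner_apply, conj_trivial]
  push_cast
  ring

theorem reg_decay {ψ : S} (hψ : HasCompactSupport (ψ : R3 → ℂ)) (n : ℕ) :
    ∃ C : ℝ, ∀ k : R3, ‖k‖ ^ n * ‖∫ x, ex (2 * Real.pi) (regθ k) x * ψ x‖ ≤ C := by
  obtain ⟨C, hC⟩ := (𝓕 (hψ.toSchwartzMap ψ.sm) : 𝓢(R3, ℂ)).decay' n 0
  refine ⟨C, fun k => ?_⟩
  have := hC k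
  rw [norm_iteratedFDeriv_zero] at this
  rw [← reg_fourier_eq]
  exact this

end fourier

theorem reg_conj {ι : Type} [Fintype ι] [DecidableEq ι] (Q : Sys ι) (τ : ℝ) (θ : C3) (φ : ι → S)
    (b : ι) : (Q.conj τ θ).app φ b = Q.app φ b +
      ∑ i, ((τ : ℂ) * θ i) • (2 * pd i (φ b) + ∑ c, Q.A i b c * φ c) +
        ((τ : ℂ) ^ 2 * dot θ θ) • φ b := by
  refine S.ext fun x => ?_
  simp only [Sys.app, Sys.conj, add_mul, Finset.sum_add_distrib, ite_mul, zero_mul,
    Finset.sum_ite_eq, Finset.mem_univ, if_true, S.add_apply, S.sum_apply, S.mul_apply,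
    S.smul_apply, S.algebraMap_apply, S.two_apply, Fin.sum_univ_three, mul_add, Finset.mul_sum,
    mul_assoc]
  ring

theorem reg_int {U : Set R3} {Z : R3 → ℂ} (hZ : IntegrableOn Z U) {ψ : S} (hψ : Cs U ψ) :
    IntegrableOn (fun x => Z x * ψ x) U := by
  obtain ⟨C, hC⟩ := ψ.cont.bounded_above_of_compact_support hψ.1
  exact hZ.mul_bdd ψ.cont.aestronglyMeasurable (Eventually.of_forall hC)

theorem reg_step {ι : Type} [Fintype ι] (P : Sys ι) {U : Set R3}
    (Z : ι → R3 → ℂ) (hZ : ∀ a, IntegrableOn (Z a) U) (g : ι → S)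
    (h : ∀ φ : ι → S, (∀ a, Cs U (φ a)) →
      ∑ a, ∫ x in U, Z a x * P.tr.app φ a x = ∑ a, ∫ x in U, g a x * φ a x) (n : ℕ) :
    ∀ φ : ι → S, (∀ a, Cs U (φ a)) → ∃ C : ℝ, ∀ k : R3,
      ‖k‖ ^ n * ‖∑ a, ∫ x in U, Z a x * (ex (2 * Real.pi) (regθ k) * φ a) x‖ ≤ C := by
  classical
  induction n with
  | zero =>
    intro φ hφ
    refine ⟨∑ a, ∫ x in U, ‖Z a x * φ a x‖, fun k => ?_⟩
    rw [pow_zero, one_mul]
    refine (norm_sum_le _ _).trans (Finset.sum_le_sum fun a _ => ?_)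
    refine (norm_integral_le_integral_norm _).trans (le_of_eq ?_)
    refine integral_congr_ae (Eventually.of_forall fun x => ?_)
    have h1 : ‖ex (2 * Real.pi) (regθ k) x‖ = 1 := by
      simp [ex, dotS, regθ, Complex.norm_exp, Fin.sum_univ_three]
    simp only [S.mul_apply, norm_mul, h1, one_mul]
  | succ n ih =>
    intro φ hφ
    let φ' : Fin 3 → ι → S := fun i b => 2 * pd i (φ b) + ∑ c, P.tr.A i b c * φ c
    have hφ' : ∀ i b, Cs U (φ' i b) := fun i b =>
      (((hφ b).pd i).mul_left _).add (Cs.sum _ fun c _ => (hφ c).mul_left _)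
    obtain ⟨C₀, h0⟩ := ih φ hφ
    obtain ⟨C₁, h1⟩ := ih (P.tr.app φ) (P.tr.app_cs hφ)
    choose C₂ h2 using fun i => ih (φ' i) (hφ' i)
    have hgφ : Cs U (∑ a, g a * φ a) := Cs.sum _ fun a _ => (hφ a).mul_left _
    obtain ⟨C₃, h3⟩ := reg_decay hgφ.1 n
    refine ⟨max C₀ (C₁ + C₃ + 2 * Real.pi * ∑ i, C₂ i), fun k => ?_⟩
    set e := ex (2 * Real.pi) (regθ k) with he
    set L : (ι → S) → ℂ := fun ψ => ∑ a, ∫ x in U, Z a x * (e * ψ a) x with hL
    replace h0 : ‖k‖ ^ n * ‖L φ‖ ≤ C₀ := h0 k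
    replace h1 : ‖k‖ ^ n * ‖L (P.tr.app φ)‖ ≤ C₁ := h1 k
    replace h2 : ∀ i, ‖k‖ ^ n * ‖L (φ' i)‖ ≤ C₂ i := fun i => h2 i k
    replace h3 : ‖k‖ ^ n * ‖∫ x, e x * (∑ a, g a * φ a) x‖ ≤ C₃ := h3 k
    change ‖k‖ ^ (n + 1) * ‖L φ‖ ≤ _
    have hk := norm_nonneg k
    have hX : 0 ≤ ‖k‖ ^ n * ‖L φ‖ := by positivity
    rcases le_total ‖k‖ 1 with hk1 | hk1
    · refine le_trans ?_ (le_max_left _ _)
      rw [pow_succ]
      nlinarith
    refine le_trans ?_ (le_max_right _ _)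
    have hi : ∀ (ψ : ι → S), (∀ a, Cs U (ψ a)) → ∀ a,
        IntegrableOn (fun x => Z a x * (e * ψ a) x) U := fun ψ hψ a =>
      reg_int (hZ a) ((hψ a).mul_left e)
    have e1 := h (fun a => e * φ a) fun a => (hφ a).mul_left e
    have e2 : ∑ a, ∫ x in U, g a x * (e * φ a) x = ∫ x, e x * (∑ a, g a * φ a) x := by
      have h4 := (hgφ.mul_left e).setIntegral
      simp only [S.mul_apply e] at h4
      rw [← h4, ← integral_finsetSum]
      · refine integral_congr_ae (Eventually.of_forall fun x => ?_)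
        simp only [S.mul_apply, S.sum_apply, Finset.mul_sum]
        exact Finset.sum_congr rfl fun a _ => by ring
      · exact fun a _ => (S.integrable (((hφ a).mul_left e).mul_left (g a)).1).integrableOn
    have e3 : ∑ a, ∫ x in U, Z a x * P.tr.app (fun a => e * φ a) a x =
        L (P.tr.app φ) + ∑ i, (((2 * Real.pi : ℝ) : ℂ) * regθ k i) * L (φ' i) +
          (((2 * Real.pi : ℝ) : ℂ) ^ 2 * dot (regθ k) (regθ k)) * L φ := by
      simp only [hL, Finset.mul_sum]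
      rw [Finset.sum_comm (s := (Finset.univ : Finset (Fin 3))), ← Finset.sum_add_distrib,
        ← Finset.sum_add_distrib]
      refine Finset.sum_congr rfl fun a _ => ?_
      simp only [← integral_const_mul]
      rw [← integral_finsetSum _ fun i _ => (hi _ (hφ' i) a).const_mul _,
        ← integral_add (hi _ (P.tr.app_cs hφ) a)
          (integrable_finsetSum _ fun i _ => (hi _ (hφ' i) a).const_mul _),
        ← integral_add (by
          exact (hi _ (P.tr.app_cs hφ) a).add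
            (integrable_finsetSum _ fun i _ => (hi _ (hφ' i) a).const_mul _))
          ((hi _ hφ a).const_mul _)]
      refine integral_congr_ae (Eventually.of_forall fun x => ?_)
      beta_reduce
      rw [he, Sys.conj_app, reg_conj]
      simp only [S.mul_apply, S.add_apply, S.sum_apply, S.smul_apply, Fin.sum_univ_three, φ']
      ring
    rw [e2, e3, reg_dot] at e1
    have e4 : ((2 * Real.pi) ^ 2 * ‖k‖ ^ 2 : ℝ) * ‖L φ‖ ≤ ‖L (P.tr.app φ)‖ +
        ‖∫ x, e x * (∑ a, g a * φ a) x‖ + 2 * Real.pi * ‖k‖ * ∑ i, ‖L (φ' i)‖ := by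
      have h4 : (((2 * Real.pi) ^ 2 * ‖k‖ ^ 2 : ℝ) : ℂ) * L φ = L (P.tr.app φ) -
          (∫ x, e x * (∑ a, g a * φ a) x) +
          ∑ i, (((2 * Real.pi : ℝ) : ℂ) * regθ k i) * L (φ' i) := by
        rw [← e1]; push_cast; ring
      have h5 := congrArg norm h4
      rw [norm_mul, Complex.norm_real, Real.norm_of_nonneg (by positivity)] at h5
      rw [h5]
      refine (norm_add_le _ _).trans (add_le_add (norm_sub_le _ _) ?_)
      rw [Finset.mul_sum]
      refine (norm_sum_le _ _).trans (Finset.sum_le_sum fun i _ => ?_)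
      rw [norm_mul, norm_mul, Complex.norm_real, Real.norm_of_nonneg (by positivity)]
      gcongr
      exact reg_norm k i
    have e5 : ‖k‖ ^ n * ∑ i, ‖L (φ' i)‖ ≤ ∑ i, C₂ i := by
      rw [Finset.mul_sum]
      exact Finset.sum_le_sum fun i _ => h2 i
    have hC₁ : 0 ≤ C₁ := le_trans (by positivity) h1
    have hC₃ : 0 ≤ C₃ := le_trans (by positivity) h3
    have hπ : 1 ≤ (2 * Real.pi) ^ 2 := by nlinarith [Real.pi_gt_three]
    have e6 := mul_le_mul_of_nonneg_left e4 (pow_nonneg hk n)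
    have e7 : ‖k‖ * (‖k‖ ^ (n + 1) * ‖L φ‖) ≤ ‖k‖ * (C₁ + C₃ + 2 * Real.pi * ∑ i, C₂ i) := by
      have t1 : ‖k‖ * (‖k‖ ^ (n + 1) * ‖L φ‖) ≤
          ‖k‖ ^ n * (((2 * Real.pi) ^ 2 * ‖k‖ ^ 2 : ℝ) * ‖L φ‖) := by
        have : 0 ≤ ‖k‖ ^ 2 * (‖k‖ ^ n * ‖L φ‖) := by positivity
        rw [pow_succ]
        nlinarith
      have t2 := mul_le_mul_of_nonneg_left e5 (show 0 ≤ 2 * Real.pi * ‖k‖ by positivity)
      nlinarith
    exact le_of_mul_le_mul_left e7 (by linarith)

theorem Sys.reg {ι : Type} [Fintype ι] (P : Sys ι) {U : Set R3} (hU : IsOpen U)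
    (Z : ι → R3 → ℂ) (hZ : ∀ a, IntegrableOn (Z a) U) (g : ι → S)
    (h : ∀ φ : ι → S, (∀ a, Cs U (φ a)) →
      ∑ a, ∫ x in U, Z a x * P.tr.app φ a x = ∑ a, ∫ x in U, g a x * φ a x)
    {χ : S} (hχ : Cs U χ) (a : ι) : ∃ W : S, ∀ᵐ x, W x = χ x * Z a x := by
  classical
  have _ := hU
  have h0 : ∀ x, x ∉ U → χ x * Z a x = 0 := fun x hx => by rw [hχ.eq_zero hx, zero_mul]
  have hf : Integrable fun x => χ x * Z a x := by
    refine IntegrableOn.integrable_of_forall_notMem_eq_zero (s := U) ?_ h0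
    simpa only [mul_comm] using reg_int (hZ a) hχ
  refine reg_fourier hf fun n => ?_
  obtain ⟨C, hC⟩ := reg_step P Z hZ g h n (Pi.single a χ) fun b => by
    by_cases hb : b = a
    · rw [hb, Pi.single_eq_same]; exact hχ
    · rw [Pi.single_eq_of_ne hb]; exact Cs.zero
  refine ⟨C, fun k => ?_⟩
  have h1 := hC k
  rw [Finset.sum_eq_single a (fun b _ hb => by simp [Pi.single_eq_of_ne hb])
    (fun h => absurd (Finset.mem_univ _) h), Pi.single_eq_same] at h1
  rw [reg_fourier_eq, ← setIntegral_eq_integral_of_forall_compl_eq_zero (s := U)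
    fun x hx => by rw [h0 x hx, mul_zero]]
  convert h1 using 4 with x
  funext x
  simp only [S.mul_apply]
  ring

end Crest.Agent.R080
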